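import Vale.Agent.N018.H.Def

/-! # P018, pair (6,3), package G: the polynomial lemma for lines. -/

namespace Vale.Agent.N018.H

open Finset Polynomial

namespace Al

variable {L : Type} [Field L]

theorem cop {p q : L} (h : p ≠ q) (a b : ℕ) : IsCoprime ((X - C p) ^ a) ((X - C q) ^ b) :=
  (isCoprime_X_sub_C_of_isUnit_sub (sub_ne_zero.2 h).isUnit).pow

theorem cop_prod {p : Fin 6 → L} (hp : Function.Injective p) (I : Finset (Fin 6)) (i : Fin 6)
    (a : ℕ) (e : Fin 6 → ℕ) :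
    IsCoprime ((X - C (p i)) ^ a) (∏ j ∈ I.erase i, (X - C (p j)) ^ e j) :=
  IsCoprime.prod_right fun _ hj => cop (fun h => (Finset.ne_of_mem_erase hj) (hp h).symm) _ _

theorem deg_prod (p : Fin 6 → L) (I : Finset (Fin 6)) (e : Fin 6 → ℕ) :
    (∏ j ∈ I, (X - C (p j)) ^ e j).natDegree = ∑ j ∈ I, e j := by
  rw [natDegree_prod_of_monic _ _ fun j _ => (monic_X_sub_C _).pow _]
  exact Finset.sum_congr rfl fun j _ => by simp [natDegree_pow]

theorem prod_dvd {p : Fin 6 → L} (hp : Function.Injective p) (I : Finset (Fin 6))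
    (e : Fin 6 → ℕ) {h : L[X]} (hd : ∀ i ∈ I, (X - C (p i)) ^ e i ∣ h) :
    ∏ j ∈ I, (X - C (p j)) ^ e j ∣ h :=
  Finset.prod_dvd_of_coprime (fun _ _ _ _ hij => cop (fun h => hij (hp h)) _ _) hd

theorem sum_le_deg {p : Fin 6 → L} (hp : Function.Injective p) (I : Finset (Fin 6))
    (e : Fin 6 → ℕ) {h : L[X]} (h0 : h ≠ 0) (hd : ∀ i ∈ I, (X - C (p i)) ^ e i ∣ h) :
    ∑ j ∈ I, e j ≤ h.natDegree := by
  rw [← deg_prod p I e]
  exact natDegree_le_of_dvd (prod_dvd hp I e hd) h0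

theorem num_dvd (p w : Fin 6 → L) (I : Finset (Fin 6)) (l : Fin 6 → L[X]) {i : Fin 6}
    (hi : i ∈ I) : (X - C (p i)) ^ 3 ∣
      num p w I l - C (w i) * l i * ∏ j ∈ I.erase i, (X - C (p j)) ^ 3 := by
  unfold num
  rw [← Finset.add_sum_erase I _ hi, add_sub_cancel_left]
  refine Finset.dvd_sum fun k hk => Dvd.dvd.mul_left ?_ _
  exact Finset.dvd_prod_of_mem (fun j => (X - C (p j)) ^ 3)
    (Finset.mem_erase.2 ⟨(Finset.ne_of_mem_erase hk).symm, hi⟩)

theorem num_deg (p w : Fin 6 → L) (I : Finset (Fin 6)) (l : Fin 6 → L[X]) (hI : I.card = 3)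
    (hl : ∀ i, (l i).natDegree ≤ 1) : (num p w I l).natDegree ≤ 7 := by
  unfold num
  refine natDegree_sum_le_of_forall_le _ _ fun i hi => ?_
  refine natDegree_mul_le.trans ?_
  have h1 : (C (w i) * l i).natDegree ≤ 1 := (natDegree_C_mul_le _ _).trans (hl i)
  have h2 := deg_prod p (I.erase i) fun _ => 3
  rw [Finset.sum_const, Finset.card_erase_of_mem hi, hI, smul_eq_mul] at h2
  omega

theorem num_ne {p : Fin 6 → L} (hp : Function.Injective p) (I : Finset (Fin 6))
    (l : Fin 6 → L[X]) (hl : ∀ i, (l i).natDegree ≤ 1) (h0 : ∃ i ∈ I, l i ≠ 0) :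
    num p (fun _ => 1) I l ≠ 0 := by
  obtain ⟨i, hi, hli⟩ := h0
  intro h
  have h1 := num_dvd p (fun _ => 1) I l hi
  rw [h, zero_sub, dvd_neg, C_1, one_mul] at h1
  have h2 := (cop_prod hp I i 3 fun _ => 3).dvd_of_dvd_mul_right h1
  have h3 := natDegree_le_of_dvd h2 hli
  have h4 := hl i
  simp only [natDegree_pow, natDegree_X_sub_C] at h3
  omega

theorem exists_m (p : L) (c : L[X]) : ∃ m, m ≤ 3 ∧ (X - C p) ^ m ∣ c ∧
    ∀ h : L[X], (X - C p) ^ 3 ∣ h * c → (X - C p) ^ (3 - m) ∣ h := by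
  by_cases h3 : (X - C p) ^ 3 ∣ c
  · exact ⟨3, le_rfl, h3, fun h _ => by simp⟩
  have hc : c ≠ 0 := fun h => h3 (h ▸ dvd_zero _)
  obtain ⟨u, hu, hnd⟩ := exists_eq_pow_rootMultiplicity_mul_and_not_dvd c hc p
  set r := rootMultiplicity p c
  have hr : r ≤ 3 := by
    by_contra hlt
    exact h3 (hu ▸ (pow_dvd_pow _ (by omega)).mul_right u)
  refine ⟨r, hr, hu ▸ dvd_mul_right _ _, fun h hh => ?_⟩
  have e : (X - C p) ^ 3 = (X - C p) ^ r * (X - C p) ^ (3 - r) := by
    rw [← pow_add]; congr 1; omega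
  have e2 : h * c = (X - C p) ^ r * (h * u) := by rw [hu]; ring
  rw [e, e2, mul_dvd_mul_iff_left (pow_ne_zero _ (X_sub_C_ne_zero p))] at hh
  have hcop : IsCoprime (X - C p) u := ((irreducible_X_sub_C p).coprime_iff_not_dvd).2 hnd
  exact (hcop.pow_left (m := 3 - r)).dvd_of_dvd_mul_right hh

theorem wr_sub (a b : L[X]) (t : L) : wronskian a (b - C t * a) = wronskian a b := by
  simp only [wronskian, derivative_sub, derivative_mul, derivative_C]
  ring

theorem wr_deg {a b : L[X]} (ha : a ≠ 0) (hW : wronskian a b ≠ 0) :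
    (wronskian a b).natDegree + 2 ≤ 2 * max a.natDegree b.natDegree := by
  have h1 := natDegree_wronskian_lt_add hW
  by_cases hab : a.natDegree = b.natDegree
  · have hb : b ≠ 0 := fun h => hW (by rw [h, wronskian_zero_right])
    set t := b.leadingCoeff / a.leadingCoeff with ht
    have hla : a.leadingCoeff ≠ 0 := leadingCoeff_ne_zero.2 ha
    have hlb : b.leadingCoeff ≠ 0 := leadingCoeff_ne_zero.2 hb
    have ht0 : t ≠ 0 := div_ne_zero hlb hla
    have hW' : wronskian a (b - C t * a) ≠ 0 := by rwa [wr_sub]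
    have hb' : b - C t * a ≠ 0 := fun h => hW' (by rw [h, wronskian_zero_right])
    have h2 := natDegree_wronskian_lt_add hW'
    rw [wr_sub] at h2
    have h3 : (b - C t * a).degree < b.degree := by
      refine degree_sub_lt_left ?_ hb ?_
      · rw [degree_C_mul ht0, degree_eq_natDegree ha, degree_eq_natDegree hb, hab]
      · rw [leadingCoeff_mul, leadingCoeff_C, ht, div_mul_cancel₀ _ hla]
    have h4 := natDegree_lt_natDegree hb' h3
    omega
  · omega

theorem wr_dvd {a b : L[X]} {p t : L} {m : ℕ} (h : (X - C p) ^ m ∣ b - C t * a) :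
    (X - C p) ^ (m - 1) ∣ wronskian a b := by
  rw [← wr_sub a b t, wronskian]
  exact dvd_sub ((pow_sub_one_dvd_derivative_of_pow_dvd h).mul_left _)
    (((pow_dvd_pow _ (Nat.sub_le m 1)).trans h).mul_left _)

theorem jets {p : L} {g : L[X]} (h : (X - C p) ^ 3 ∣ g) :
    g.eval p = 0 ∧ g.derivative.eval p = 0 ∧ g.derivative.derivative.eval p = 0 := by
  have h1 := pow_sub_one_dvd_derivative_of_pow_dvd h
  have h2 := pow_sub_one_dvd_derivative_of_pow_dvd h1
  refine ⟨dvd_iff_isRoot.1 ((dvd_pow_self _ (by norm_num)).trans h),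
    dvd_iff_isRoot.1 ((dvd_pow_self _ (by norm_num)).trans h1), dvd_iff_isRoot.1 (by simpa using h2)⟩

theorem ident (p q : L) {m : ℕ} (h1 : 1 ≤ m) (h3 : m ≤ 3) {u : L[X]} (hu : u.natDegree ≤ 1) :
    (u * (X - C q) ^ m).derivative.derivative.eval p * (p - q) ^ 2 -
      2 * m * (u * (X - C q) ^ m).derivative.eval p * (p - q) +
      m * (m + 1) * (u * (X - C q) ^ m).eval p = 0 := by
  rw [eq_X_add_C_of_natDegree_le_one hu]
  interval_cases m <;> simp [derivative_pow] <;> ring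

theorem zero_of {p q : L} (hpq : p ≠ q) {m : ℕ} {u : L[X]} (hu : u.natDegree ≤ 1)
    (h0 : (u * (X - C q) ^ m).eval p = 0) (h1 : (u * (X - C q) ^ m).derivative.eval p = 0) :
    u = 0 := by
  have hd : (p - q) ^ m ≠ 0 := pow_ne_zero _ (sub_ne_zero.2 hpq)
  have e0 : u.eval p = 0 := by
    simpa [hd, sub_ne_zero.2 hpq] using h0
  rw [derivative_mul, eval_add, eval_mul, eval_mul, e0, zero_mul, add_zero] at h1
  have e1 : u.derivative.eval p = 0 := by
    simpa [hd, sub_ne_zero.2 hpq] using h1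
  rw [eq_X_add_C_of_natDegree_le_one hu] at e0 e1 ⊢
  have a1 : u.coeff 1 = 0 := by simpa using e1
  have a0 : u.coeff 0 = 0 := by simpa [a1] using e0
  simp [a0, a1]

theorem three [CharZero L] {p q r s : L} (hq : p ≠ q) (hqr : q ≠ r) (hqs : q ≠ s) (hrs : r ≠ s)
    {m : ℕ} (h1 : 1 ≤ m) (h3 : m ≤ 3) {u v w : L[X]} (hu : u.natDegree ≤ 1)
    (hv : v.natDegree ≤ 1) (hw : w.natDegree ≤ 1)
    (huv : (X - C p) ^ 3 ∣ u * (X - C q) ^ m - v * (X - C r) ^ m)
    (huw : (X - C p) ^ 3 ∣ u * (X - C q) ^ m - w * (X - C s) ^ m) : u = 0 := by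
  obtain ⟨a0, a1, a2⟩ := jets huv
  obtain ⟨b0, b1, b2⟩ := jets huw
  simp only [derivative_sub, eval_sub, sub_eq_zero] at a0 a1 a2 b0 b1 b2
  have i1 := ident p q h1 h3 hu
  have i2 := ident p r h1 h3 hv
  have i3 := ident p s h1 h3 hw
  rw [← a0, ← a1, ← a2] at i2
  rw [← b0, ← b1, ← b2] at i3
  set E0 := (u * (X - C q) ^ m).eval p
  set E1 := (u * (X - C q) ^ m).derivative.eval p
  set E2 := (u * (X - C q) ^ m).derivative.derivative.eval p
  have hm : (m : L) ≠ 0 := Nat.cast_ne_zero.2 (by omega)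
  have hm1 : (m : L) + 1 ≠ 0 := Nat.cast_add_one_ne_zero m
  have j1 : E2 * ((p - q) + (p - r)) - 2 * m * E1 = 0 := by
    apply mul_left_cancel₀ (sub_ne_zero.2 hqr.symm)
    linear_combination i1 - i2
  have j2 : E2 * ((p - q) + (p - s)) - 2 * m * E1 = 0 := by
    apply mul_left_cancel₀ (sub_ne_zero.2 hqs.symm)
    linear_combination i1 - i3
  have k2 : E2 = 0 := by
    apply mul_left_cancel₀ (sub_ne_zero.2 hrs.symm)
    linear_combination j1 - j2
  have k1 : E1 = 0 := by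
    apply mul_left_cancel₀ (mul_ne_zero (two_ne_zero (α := L)) hm)
    rw [k2] at j1
    linear_combination -j1
  have k0 : E0 = 0 := by
    apply mul_left_cancel₀ (mul_ne_zero hm hm1)
    rw [k2, k1] at i1
    linear_combination i1
  exact zero_of hq hu k0 k1

/-- the congruence at `p 0` for a triple `{0, 1, k}` -/
theorem cong {p : Fin 6 → L} (hp : Function.Injective p) {I : Finset (Fin 6)} {k : Fin 6}
    (h0 : (0 : Fin 6) ∈ I) (hI : I.erase 0 = {1, k}) (hk : (1 : Fin 6) ≠ k) {m : ℕ} (hm : m ≤ 3)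
    {l : Fin 6 → L[X]} (hl : (l 0).natDegree ≤ 1) {h a : L[X]} (hh : h ≠ 0)
    (e : num p (fun _ => 1) I l = h * a) (hd : ∀ i ∈ I, (X - C (p i)) ^ (3 - m) ∣ h)
    (hdeg : h.natDegree ≤ ∑ _i ∈ I, (3 - m)) : ∃ u : L[X], u.natDegree ≤ 1 ∧
      (X - C (p 0)) ^ 3 ∣
        (X - C (p 0)) ^ (3 - m) * a - (X - C (p 1)) ^ m * (u * (X - C (p k)) ^ m) := by
  obtain ⟨r, hr⟩ := prod_dvd hp I (fun _ => 3 - m) hd
  have hr0 : r ≠ 0 := fun h => hh (by rw [hr, h, mul_zero])
  have hQ : (∏ j ∈ I, (X - C (p j)) ^ (3 - m)) ≠ 0 := fun h => hh (by rw [hr, h, zero_mul])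
  have hdr : r.natDegree = 0 := by
    have := congrArg natDegree hr
    rw [natDegree_mul hQ hr0, deg_prod p I fun _ => 3 - m] at this
    omega
  obtain ⟨c, rfl⟩ := natDegree_eq_zero.1 hdr
  have hc : c ≠ 0 := fun h => hr0 (by rw [h, C_0])
  refine ⟨C c⁻¹ * l 0, (natDegree_C_mul_le _ _).trans hl, ?_⟩
  have h1 := num_dvd p (fun _ => 1) I l h0
  have h2 := cop_prod hp I 0 3 fun _ => 3 - m
  rw [e, hr, ← Finset.mul_prod_erase I _ h0] at h1
  rw [hI, Finset.prod_pair hk] at h1 h2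
  rw [Finset.prod_pair hk] at h1
  refine h2.dvd_of_dvd_mul_left ?_
  have e1 : ∀ j, (X - C (p j)) ^ 3 = (X - C (p j)) ^ (3 - m) * (X - C (p j)) ^ m := fun j => by
    rw [← pow_add]; congr 1; omega
  have e2 : C c⁻¹ * C c = (1 : L[X]) := by rw [← C_mul, inv_mul_cancel₀ hc, C_1]
  have h3 := h1.mul_left (C c⁻¹)
  convert h3 using 1
  rw [e1 1, e1 k, C_1]
  linear_combination
    (-((X - C (p 0)) ^ (3 - m) * ((X - C (p 1)) ^ (3 - m) * (X - C (p k)) ^ (3 - m)) * a)) * e2

end Al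

open Al in
theorem algS : AlgS := by
  intro L _ _ p θ hp hθ l hl
  by_contra hcon
  push Not at hcon
  have hNA : ∀ I : Finset (Fin 6), I.card = 3 → num p (fun _ => 1) I (l I) ≠ 0 :=
    fun I hI => num_ne hp I (l I) (hl I hI).1 (hl I hI).2
  have hI0 : ({0, 1, 2} : Finset (Fin 6)).card = 3 := by decide
  classical
  obtain ⟨a, b, g, hab, ha, hb⟩ : ∃ a b g : L[X], IsCoprime a b ∧
      num p (fun _ => 1) {0, 1, 2} (l {0, 1, 2}) = g * a ∧
      num p θ {0, 1, 2} (l {0, 1, 2}) = g * b := by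
    set A := num p (fun _ => 1) {0, 1, 2} (l {0, 1, 2})
    set B := num p θ {0, 1, 2} (l {0, 1, 2})
    have hA : A ≠ 0 := hNA _ hI0
    have hg : EuclideanDomain.gcd A B ≠ 0 := fun h => hA (EuclideanDomain.gcd_eq_zero_iff.1 h).1
    obtain ⟨a, ha⟩ := EuclideanDomain.gcd_dvd_left A B
    obtain ⟨b, hb⟩ := EuclideanDomain.gcd_dvd_right A B
    refine ⟨a, b, _, ⟨EuclideanDomain.gcdA A B, EuclideanDomain.gcdB A B, ?_⟩, ha, hb⟩
    apply mul_left_cancel₀ hg
    have := EuclideanDomain.gcd_eq_gcd_ab A B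
    linear_combination -this - EuclideanDomain.gcdA A B * ha - EuclideanDomain.gcdB A B * hb
  have hg0 : g ≠ 0 := fun h => hNA _ hI0 (by rw [ha, h, zero_mul])
  have ha0 : a ≠ 0 := fun h => hNA _ hI0 (by rw [ha, h, mul_zero])
  have hH : ∀ I : Finset (Fin 6), I.card = 3 → ∃ h : L[X], h ≠ 0 ∧
      num p (fun _ => 1) I (l I) = h * a ∧ num p θ I (l I) = h * b := by
    intro I hI
    have h1 := hcon I _ hI hI0
    rw [ha, hb] at h1
    have h2 : num p (fun _ => 1) I (l I) * b = num p θ I (l I) * a := by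
      apply mul_left_cancel₀ hg0
      linear_combination h1
    obtain ⟨h, hh⟩ := hab.dvd_of_dvd_mul_right (h2 ▸ dvd_mul_left a _)
    refine ⟨h, fun h0 => hNA I hI (by rw [hh, h0, mul_zero]), by rw [hh, mul_comm], ?_⟩
    apply mul_left_cancel₀ ha0
    rw [hh] at h2
    linear_combination -h2
  choose m hm3 hmd hmh using fun i => exists_m (p i) (b - C (θ i) * a)
  set ν := max a.natDegree b.natDegree with hν
  have hK : ∀ I : Finset (Fin 6), I.card = 3 → ∃ h : L[X], h ≠ 0 ∧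
      num p (fun _ => 1) I (l I) = h * a ∧ (∀ i ∈ I, (X - C (p i)) ^ (3 - m i) ∣ h) ∧
      h.natDegree + ν ≤ 7 := by
    intro I hI
    obtain ⟨h, h0, e1, e2⟩ := hH I hI
    refine ⟨h, h0, e1, fun i hi => hmh i h ?_, ?_⟩
    · have d1 := num_dvd p (fun _ => 1) I (l I) hi
      have d2 := num_dvd p θ I (l I) hi
      have d3 := dvd_sub d2 (d1.mul_left (C (θ i)))
      convert d3 using 1
      rw [e1, e2, C_1]
      ring
    · have d1 := num_deg p (fun _ => 1) I (l I) hI (hl I hI).1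
      have d2 := num_deg p θ I (l I) hI (hl I hI).1
      rw [e1, natDegree_mul h0 ha0] at d1
      by_cases hb0 : b = 0
      · rw [hν, hb0, natDegree_zero]
        omega
      · rw [e2, natDegree_mul h0 hb0] at d2
        omega
  have hS : ∀ I : Finset (Fin 6), I.card = 3 → ∑ i ∈ I, (3 - m i) + ν ≤ 7 := by
    intro I hI
    obtain ⟨h, h0, -, hd, hdeg⟩ := hK I hI
    have := sum_le_deg hp I (fun i => 3 - m i) h0 hd
    omega
  have hT : ∀ i j k : Fin 6, i ≠ j → i ≠ k → j ≠ k →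
      (3 - m i) + (3 - m j) + (3 - m k) + ν ≤ 7 := by
    intro i j k hij hik hjk
    have h1 := hS {i, j, k} (Finset.card_eq_three.2 ⟨i, j, k, hij, hik, hjk, rfl⟩)
    rw [Finset.sum_insert (by simp [hij, hik]), Finset.sum_pair hjk] at h1
    omega
  by_cases hν0 : ν = 0
  · have hda : a.natDegree = 0 := by omega
    have hdb : b.natDegree = 0 := by omega
    have key : ∀ i, 1 ≤ m i → b = C (θ i) * a := by
      intro i hi
      by_contra hne
      have h1 := natDegree_le_of_dvd (hmd i) (sub_ne_zero.2 hne)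
      have h2 : (b - C (θ i) * a).natDegree ≤ 0 :=
        (natDegree_sub_le _ _).trans
          (max_le hdb.le ((natDegree_C_mul_le _ _).trans hda.le))
      simp only [natDegree_pow, natDegree_X_sub_C] at h1
      omega
    have uniq : ∀ i j, 1 ≤ m i → 1 ≤ m j → i = j := by
      intro i j hi hj
      have h1 := (key i hi).symm.trans (key j hj)
      exact hθ (C_injective (mul_right_cancel₀ ha0 h1))
    have t1 := hT 0 1 2 (by decide) (by decide) (by decide)
    have t2 := hT 3 4 5 (by decide) (by decide) (by decide)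
    have u1 : 1 ≤ m 0 ∨ 1 ≤ m 1 ∨ 1 ≤ m 2 := by omega
    have u2 : 1 ≤ m 3 ∨ 1 ≤ m 4 ∨ 1 ≤ m 5 := by omega
    rcases u1 with u1 | u1 | u1 <;> rcases u2 with u2 | u2 | u2 <;>
      exact absurd (uniq _ _ u1 u2) (by decide)
  have hW : wronskian a b ≠ 0 := by
    intro h
    obtain ⟨h1, h2⟩ := hab.wronskian_eq_zero_iff.1 h
    have h3 := derivative_eq_zero.1 h1
    have h4 := derivative_eq_zero.1 h2
    omega
  have hWd := wr_deg ha0 hW
  have hWs := sum_le_deg hp univ (fun i => m i - 1) hW fun i _ => wr_dvd (hmd i)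
  rw [Fin.sum_univ_six] at hWs
  have t012 := hT 0 1 2 (by decide) (by decide) (by decide)
  have t345 := hT 3 4 5 (by decide) (by decide) (by decide)
  have t013 := hT 0 1 3 (by decide) (by decide) (by decide)
  have t245 := hT 2 4 5 (by decide) (by decide) (by decide)
  have t014 := hT 0 1 4 (by decide) (by decide) (by decide)
  have t235 := hT 2 3 5 (by decide) (by decide) (by decide)
  have t023 := hT 0 2 3 (by decide) (by decide) (by decide)
  have t145 := hT 1 4 5 (by decide) (by decide) (by decide)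
  have t123 := hT 1 2 3 (by decide) (by decide) (by decide)
  have t045 := hT 0 4 5 (by decide) (by decide) (by decide)
  have b0 := hm3 0
  have b1 := hm3 1
  have b2 := hm3 2
  have b3 := hm3 3
  have b4 := hm3 4
  have b5 := hm3 5
  have q0 : 1 ≤ m 0 := by omega
  have q1 : m 1 = m 0 := by omega
  have q2 : m 2 = m 0 := by omega
  have q3 : m 3 = m 0 := by omega
  have q4 : m 4 = m 0 := by omega
  have qν : 3 * (3 - m 0) + ν = 7 := by omega
  have hC : ∀ k : Fin 6, m k = m 0 → (0 : Fin 6) ≠ k → (1 : Fin 6) ≠ k → ∃ u : L[X],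
      u.natDegree ≤ 1 ∧ (X - C (p 0)) ^ 3 ∣ (X - C (p 0)) ^ (3 - m 0) * a -
        (X - C (p 1)) ^ m 0 * (u * (X - C (p k)) ^ m 0) := by
    intro k hk h0k h1k
    have hI : ({0, 1, k} : Finset (Fin 6)).card = 3 :=
      Finset.card_eq_three.2 ⟨0, 1, k, by decide, h0k, h1k, rfl⟩
    obtain ⟨h, h0, e, hd, hdeg⟩ := hK _ hI
    refine cong hp (I := {0, 1, k}) (by simp) ?_ h1k b0 ((hl _ hI).1 0) h0 e ?_ ?_
    · exact Finset.erase_insert (by simp [h0k])
    · intro i hi
      have h1 := hd i hi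
      simp only [Finset.mem_insert, Finset.mem_singleton] at hi
      rcases hi with rfl | rfl | rfl
      · exact h1
      · rwa [q1] at h1
      · rwa [hk] at h1
    · rw [Finset.sum_const, hI, smul_eq_mul]
      omega
  obtain ⟨u, hu, du⟩ := hC 2 q2 (by decide) (by decide)
  obtain ⟨v, hv, dv⟩ := hC 3 q3 (by decide) (by decide)
  obtain ⟨w, hw, dw⟩ := hC 4 q4 (by decide) (by decide)
  have hne : ∀ i j : Fin 6, i ≠ j → p i ≠ p j := fun i j hij h => hij (hp h)
  have c01 := cop (hne 0 1 (by decide)) 3 (m 0)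
  have hu0 : u = 0 := by
    refine three (hne 0 2 (by decide)) (hne 2 3 (by decide)) (hne 2 4 (by decide))
      (hne 3 4 (by decide)) q0 b0 hu hv hw (c01.dvd_of_dvd_mul_left ?_)
      (c01.dvd_of_dvd_mul_left ?_)
    · convert dvd_sub dv du using 1
      ring
    · convert dvd_sub dw du using 1
      ring
  rw [hu0, zero_mul, mul_zero, sub_zero] at du
  have e1 : (X - C (p 0)) ^ 3 = (X - C (p 0)) ^ (3 - m 0) * (X - C (p 0)) ^ m 0 := by
    rw [← pow_add]; congr 1; omega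
  rw [e1, mul_dvd_mul_iff_left (pow_ne_zero _ (X_sub_C_ne_zero _))] at du
  have d1 : X - C (p 0) ∣ a := (dvd_pow_self _ (by omega)).trans du
  have d2 : X - C (p 0) ∣ b - C (θ 0) * a := (dvd_pow_self _ (by omega)).trans (hmd 0)
  have d3 : X - C (p 0) ∣ b := by
    have := dvd_add d2 (d1.mul_left (C (θ 0)))
    rwa [sub_add_cancel] at this
  exact not_isUnit_X_sub_C _ (hab.isUnit_of_dvd' d1 d3)

end Vale.Agent.N018.H
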