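import Mathlib

/-!
The last step of the polynomial lemma for lines.
-/

namespace Vale.Agent.N018.H.G2

open Polynomial

variable {L : Type} [Field L]

theorem cop (d : L) (hd : d ≠ 0) : IsCoprime (X : L[X]) (X + C d) := by
  refine ⟨-C d⁻¹, C d⁻¹, ?_⟩
  have : C d⁻¹ * C d = (1 : L[X]) := by rw [← C_mul, inv_mul_cancel₀ hd, C_1]
  linear_combination this

theorem quad [CharZero L] (g : L[X]) (c d : L) (hc : c ≠ 0) (u : L[X]) (hu : u.natDegree ≤ 1)
    (m : ℕ) (h1 : 1 ≤ m) (h3 : m ≤ 3) (h : X ^ 3 ∣ C c * g - u * (X + C d) ^ m) :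
    2 * g.coeff 2 * d ^ 2 - 2 * m * g.coeff 1 * d + m * (m + 1) * g.coeff 0 = 0 := by
  rw [X_pow_dvd_iff] at h
  have e0 := h 0 (by norm_num)
  have e1 := h 1 (by norm_num)
  have e2 := h 2 (by norm_num)
  rw [eq_X_add_C_of_natDegree_le_one hu] at e0 e1 e2
  generalize u.coeff 0 = u0 at e0 e1 e2
  generalize u.coeff 1 = u1 at e0 e1 e2
  apply mul_left_cancel₀ hc
  interval_cases m
  · have E : (C u1 * X + C u0) * (X + C d) ^ 1 =
        C u1 * X ^ 2 + C (u1 * d + u0) * X ^ 1 + C (u0 * d) * X ^ 0 := by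
      simp only [C_add, C_mul]; ring
    rw [E] at e0 e1 e2
    simp only [coeff_sub, coeff_add, coeff_C_mul, coeff_X_pow] at e0 e1 e2
    norm_num at e0 e1 e2
    push_cast
    linear_combination 2 * d ^ 2 * e2 - 2 * d * e1 + 2 * e0
  · have E : (C u1 * X + C u0) * (X + C d) ^ 2 =
        C u1 * X ^ 3 + C (2 * u1 * d + u0) * X ^ 2 + C (u1 * d ^ 2 + 2 * u0 * d) * X ^ 1
          + C (u0 * d ^ 2) * X ^ 0 := by
      simp only [C_add, C_mul, C_pow, C_ofNat]; ring
    rw [E] at e0 e1 e2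
    simp only [coeff_sub, coeff_add, coeff_C_mul, coeff_X_pow] at e0 e1 e2
    norm_num at e0 e1 e2
    push_cast
    linear_combination 2 * d ^ 2 * e2 - 4 * d * e1 + 6 * e0
  · have E : (C u1 * X + C u0) * (X + C d) ^ 3 =
        C u1 * X ^ 4 + C (3 * u1 * d + u0) * X ^ 3 + C (3 * u1 * d ^ 2 + 3 * u0 * d) * X ^ 2
          + C (u1 * d ^ 3 + 3 * u0 * d ^ 2) * X ^ 1 + C (u0 * d ^ 3) * X ^ 0 := by
      simp only [C_add, C_mul, C_pow, C_ofNat]; ring
    rw [E] at e0 e1 e2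
    simp only [coeff_sub, coeff_add, coeff_C_mul, coeff_X_pow] at e0 e1 e2
    norm_num at e0 e1 e2
    push_cast
    linear_combination 2 * d ^ 2 * e2 - 6 * d * e1 + 12 * e0

theorem three (A B D : L) (d : Fin 3 → L) (hd : Function.Injective d)
    (h : ∀ l, A * d l ^ 2 - B * d l + D = 0) : A = 0 ∧ B = 0 ∧ D = 0 := by
  have n01 : d 0 - d 1 ≠ 0 := sub_ne_zero.2 fun e => by simpa using hd e
  have n02 : d 0 - d 2 ≠ 0 := sub_ne_zero.2 fun e => by simpa using hd e
  have n12 : d 1 - d 2 ≠ 0 := sub_ne_zero.2 fun e => by simpa using hd e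
  have a1 : A * (d 0 + d 1) - B = 0 := by
    apply mul_left_cancel₀ n01
    linear_combination h 0 - h 1
  have a2 : A * (d 0 + d 2) - B = 0 := by
    apply mul_left_cancel₀ n02
    linear_combination h 0 - h 2
  have a3 : A = 0 := by
    apply mul_left_cancel₀ n12
    linear_combination a1 - a2
  have a4 : B = 0 := by rw [a3] at a1; linear_combination -a1
  refine ⟨a3, a4, ?_⟩
  have := h 0
  rw [a3, a4] at this
  linear_combination this

theorem fin0 [CharZero L] (d1 : L) (d : Fin 3 → L) (hd : Function.Injective d)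
    (h0 : ∀ l, d l ≠ 0) (h1 : d1 ≠ 0) (a : L[X]) (m0 m1 m : ℕ) (hm0 : 1 ≤ m0) (hm1 : m1 ≤ 3)
    (hm : 1 ≤ m) (hm3 : m ≤ 3) (c : Fin 3 → L) (hc : ∀ l, c l ≠ 0) (u : Fin 3 → L[X])
    (hu : ∀ l, (u l).natDegree ≤ 1)
    (h : ∀ l, X ^ 3 ∣ C (c l) * (X ^ (3 - m0) * (X + C d1) ^ (3 - m1) * (X + C (d l)) ^ (3 - m)) * a
      - u l * ((X + C d1) ^ 3 * (X + C (d l)) ^ 3)) : X ∣ a := by
  obtain ⟨s, t, hst⟩ : IsCoprime ((X : L[X]) ^ 3) ((X + C d1) ^ m1) := (cop d1 h1).pow
  set g : L[X] := X ^ (3 - m0) * a * t with hg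
  have key : ∀ l, X ^ 3 ∣ C (c l) * g - u l * (X + C (d l)) ^ m := by
    intro l
    have e1 : (X + C d1 : L[X]) ^ 3 = (X + C d1) ^ (3 - m1) * (X + C d1) ^ m1 := by
      rw [← pow_add]; congr 1; omega
    have e2 : (X + C (d l) : L[X]) ^ 3 = (X + C (d l)) ^ (3 - m) * (X + C (d l)) ^ m := by
      rw [← pow_add]; congr 1; omega
    have hl := h l
    have e3 : C (c l) * (X ^ (3 - m0) * (X + C d1) ^ (3 - m1) * (X + C (d l)) ^ (3 - m)) * a
        - u l * ((X + C d1) ^ 3 * (X + C (d l)) ^ 3) =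
        ((X + C d1) ^ (3 - m1) * (X + C (d l)) ^ (3 - m)) *
          (C (c l) * (X ^ (3 - m0) * a) - u l * (X + C d1) ^ m1 * (X + C (d l)) ^ m) := by
      rw [e1, e2]
      generalize (X + C d1 : L[X]) ^ (3 - m1) = A1
      generalize (X + C d1 : L[X]) ^ m1 = A2
      generalize (X + C (d l) : L[X]) ^ (3 - m) = B1
      generalize (X + C (d l) : L[X]) ^ m = B2
      ring
    rw [e3] at hl
    have hco : IsCoprime ((X : L[X]) ^ 3)
        ((X + C d1) ^ (3 - m1) * (X + C (d l)) ^ (3 - m)) :=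
      IsCoprime.mul_right (cop d1 h1).pow (cop (d l) (h0 l)).pow
    have h2 := hco.dvd_of_dvd_mul_left hl
    have e4 : C (c l) * g - u l * (X + C (d l)) ^ m =
        (C (c l) * (X ^ (3 - m0) * a) - u l * (X + C d1) ^ m1 * (X + C (d l)) ^ m) * t
          - X ^ 3 * (s * u l * (X + C (d l)) ^ m) := by
      rw [hg]
      linear_combination (u l * (X + C (d l)) ^ m) * hst
    rw [e4]
    exact dvd_sub (Dvd.dvd.mul_right h2 t) (Dvd.intro _ rfl)
  have q := fun l => quad g (c l) (d l) (hc l) (u l) (hu l) m hm hm3 (key l)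
  obtain ⟨a2, a1, a0⟩ := three (2 * g.coeff 2) (2 * m * g.coeff 1) (m * (m + 1) * g.coeff 0) d hd
    (fun l => by linear_combination q l)
  have hmL : (m : L) ≠ 0 := Nat.cast_ne_zero.2 (by omega)
  have hmL1 : (m : L) + 1 ≠ 0 := by exact_mod_cast Nat.succ_ne_zero m
  have g3 : (X : L[X]) ^ 3 ∣ g := by
    rw [X_pow_dvd_iff]
    intro k hk
    interval_cases k
    · simpa [hmL, hmL1] using a0
    · simpa [hmL] using a1
    · simpa using a2
  have hct : IsCoprime ((X : L[X]) ^ 3) t := ⟨s, (X + C d1) ^ m1, by rw [← hst]; ring⟩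
  have g4 : (X : L[X]) ^ 3 ∣ X ^ (3 - m0) * a := hct.dvd_of_dvd_mul_right g3
  have e5 : (X : L[X]) ^ 3 = X ^ (3 - m0) * X ^ (3 - (3 - m0)) := by
    rw [← pow_add]; congr 1; omega
  rw [e5] at g4
  have g5 := (mul_dvd_mul_iff_left (pow_ne_zero _ X_ne_zero)).1 g4
  exact (dvd_pow_self X (by omega)).trans g5

theorem fin_step [CharZero L] (p0 p1 : L) (q : Fin 3 → L) (hq : Function.Injective q)
    (h0 : ∀ l, q l ≠ p0) (h1 : p1 ≠ p0) (a : L[X]) (m0 m1 m : ℕ) (hm0 : 1 ≤ m0) (hm1 : m1 ≤ 3)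
    (hm : 1 ≤ m) (hm3 : m ≤ 3) (c : Fin 3 → L) (hc : ∀ l, c l ≠ 0) (u : Fin 3 → L[X])
    (hu : ∀ l, (u l).natDegree ≤ 1)
    (h : ∀ l, (X - C p0) ^ 3 ∣
      C (c l) * ((X - C p0) ^ (3 - m0) * (X - C p1) ^ (3 - m1) * (X - C (q l)) ^ (3 - m)) * a
      - u l * ((X - C p1) ^ 3 * (X - C (q l)) ^ 3)) : (X - C p0) ∣ a := by
  have hT : ∀ z : L, (X - C z : L[X]).comp (X + C p0) = X + C (p0 - z) := by
    intro z
    simp only [sub_comp, X_comp, C_comp, C_sub]; ring
  have hT0 : (X - C p0 : L[X]).comp (X + C p0) = X := by rw [hT]; simp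
  have key := fin0 (p0 - p1) (fun l => p0 - q l) (fun l l' e => hq (by simpa using e))
    (fun l => sub_ne_zero.2 (h0 l).symm) (sub_ne_zero.2 h1.symm) (a.comp (X + C p0)) m0 m1 m
    hm0 hm1 hm hm3 c hc (fun l => (u l).comp (X + C p0))
    (fun l => by
      rw [natDegree_comp, natDegree_X_add_C, mul_one]; exact hu l)
    (fun l => by
      have := map_dvd (compRingHom (X + C p0)) (h l)
      simpa only [coe_compRingHom_apply, sub_comp (p := C (c l) * _ * a), mul_comp, pow_comp,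
        C_comp, hT, sub_self, C_0, add_zero] using this)
  rw [X_dvd_iff, coeff_zero_eq_eval_zero, eval_comp] at key
  rw [dvd_iff_isRoot]
  simpa using key

theorem wr_deg (a b : L[X]) (ν : ℕ) (ha : a.natDegree ≤ ν) (hb : b.natDegree ≤ ν)
    (hW : wronskian a b ≠ 0) : (wronskian a b).natDegree + 2 ≤ 2 * ν := by
  by_cases h1 : a.natDegree < ν
  · have := natDegree_wronskian_lt_add hW
    omega
  have ha0 : a ≠ 0 := by
    rintro rfl
    simp at hW
  have hlc : a.leadingCoeff ≠ 0 := leadingCoeff_ne_zero.2 ha0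
  set b' : L[X] := b - C (b.coeff ν / a.leadingCoeff) * a with hb'
  have hW' : wronskian a b' = wronskian a b := by
    simp only [hb', wronskian, derivative_sub, derivative_mul, derivative_C]
    ring
  have hν : a.natDegree = ν := by omega
  have hd : b'.natDegree ≤ ν := by
    refine (natDegree_sub_le _ _).trans (max_le hb ?_)
    exact (natDegree_C_mul_le _ _).trans ha
  have hc : b'.coeff ν = 0 := by
    simp only [hb', coeff_sub, coeff_C_mul]
    rw [← hν, coeff_natDegree, div_mul_cancel₀ _ hlc, sub_self]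
  have hb0 : b' ≠ 0 := by
    intro e
    rw [e] at hW'
    simp at hW'
    exact hW hW'.symm
  have hlt : b'.natDegree < ν := by
    rcases hd.lt_or_eq with h | h
    · exact h
    · exfalso
      rw [← h, coeff_natDegree] at hc
      exact hb0 (leadingCoeff_eq_zero.1 hc)
  have := natDegree_wronskian_lt_add (hW' ▸ hW : wronskian a b' ≠ 0)
  rw [hW'] at this
  omega

theorem pow_dvd_wr (a b : L[X]) (p θ : L) (m : ℕ) (h : (X - C p) ^ m ∣ b - C θ * a) :
    (X - C p) ^ (m - 1) ∣ wronskian a b := by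
  have e : wronskian a b = a * derivative (b - C θ * a) - derivative a * (b - C θ * a) := by
    simp only [wronskian, derivative_sub, derivative_mul, derivative_C]
    ring
  rw [e]
  refine dvd_sub (Dvd.dvd.mul_left ?_ _) (Dvd.dvd.mul_left ((pow_dvd_pow _ (by omega)).trans h) _)
  exact pow_sub_one_dvd_derivative_of_pow_dvd h

theorem prod_pow_dvd {ι : Type} (s : Finset ι) (p : ι → L) (hp : Function.Injective p)
    (m : ι → ℕ) (W : L[X]) (h : ∀ i ∈ s, (X - C (p i)) ^ m i ∣ W) :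
    ∏ i ∈ s, (X - C (p i)) ^ m i ∣ W := by
  refine Finset.prod_dvd_of_coprime ?_ h
  intro i _ j _ hij
  exact (pairwise_coprime_X_sub_C hp hij).pow

theorem natDegree_prod_pow {ι : Type} (s : Finset ι) (p : ι → L) (m : ι → ℕ) :
    (∏ i ∈ s, (X - C (p i)) ^ m i : L[X]).natDegree = ∑ i ∈ s, m i := by
  rw [natDegree_prod_of_monic _ _ fun i _ => (monic_X_sub_C _).pow _]
  simp

theorem sum_le_natDegree {ι : Type} (s : Finset ι) (p : ι → L) (hp : Function.Injective p)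
    (m : ι → ℕ) (W : L[X]) (hW : W ≠ 0) (h : ∀ i ∈ s, (X - C (p i)) ^ m i ∣ W) :
    ∑ i ∈ s, m i ≤ W.natDegree := by
  rw [← natDegree_prod_pow s p m]
  exact natDegree_le_of_dvd (prod_pow_dvd s p hp m W h) hW

/-- the Wronskian bound -/
theorem wr_bound [CharZero L] {ι : Type} (s : Finset ι) (p θ : ι → L)
    (hp : Function.Injective p) (a b : L[X]) (hab : IsCoprime a b) (ν : ℕ)
    (hν : ν = max a.natDegree b.natDegree) (h1 : 1 ≤ ν) (m : ι → ℕ)
    (h : ∀ i ∈ s, (X - C (p i)) ^ m i ∣ b - C (θ i) * a) :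
    ∑ i ∈ s, (m i - 1) + 2 ≤ 2 * ν := by
  have hW : wronskian a b ≠ 0 := by
    intro e
    rw [hab.wronskian_eq_zero_iff] at e
    have e1 := derivative_eq_zero.1 e.1
    have e2 := derivative_eq_zero.1 e.2
    omega
  have := wr_deg a b ν (by omega) (by omega) hW
  have := sum_le_natDegree s p hp (fun i => m i - 1) _ hW
    fun i hi => pow_dvd_wr a b (p i) (θ i) (m i) (h i hi)
  omega

end Vale.Agent.N018.H.G2
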