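import Vale.Agent.N018.H.Def3
import Vale.Agent.N018.H.AlgFin

/-! # P018: the polynomial lemma for lines, general `(d, k, m)`. -/

namespace Vale.Agent.N018.H

open Finset Polynomial

namespace AG

variable {L : Type} [Field L] {d k : ℕ}

theorem cop_prod {p : Fin d → L} (hp : Function.Injective p) (I : Finset (Fin d)) (i : Fin d) :
    IsCoprime ((X - C (p i)) ^ k) (∏ j ∈ I.erase i, (X - C (p j)) ^ k) :=
  IsCoprime.prod_right fun _ hj =>
    (pairwise_coprime_X_sub_C hp (Finset.ne_of_mem_erase hj).symm).pow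

theorem num_dvd (p w : Fin d → L) (I : Finset (Fin d)) (l : Fin d → L[X]) {i : Fin d}
    (hi : i ∈ I) : (X - C (p i)) ^ k ∣
      numG k p w I l - C (w i) * l i * ∏ j ∈ I.erase i, (X - C (p j)) ^ k := by
  unfold numG
  rw [← Finset.add_sum_erase I _ hi, add_sub_cancel_left]
  refine Finset.dvd_sum fun r hr => Dvd.dvd.mul_left ?_ _
  exact Finset.dvd_prod_of_mem (fun j => (X - C (p j)) ^ k)
    (Finset.mem_erase.2 ⟨(Finset.ne_of_mem_erase hr).symm, hi⟩)

theorem num_deg (p w : Fin d → L) (I : Finset (Fin d)) (l : Fin d → L[X]) {m : ℕ}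
    (hI : I.card = m + 1) (hl : ∀ i, (l i).natDegree ≤ 1) :
    (numG k p w I l).natDegree ≤ 1 + m * k := by
  unfold numG
  refine natDegree_sum_le_of_forall_le _ _ fun i hi => ?_
  refine natDegree_mul_le.trans ?_
  have h1 : (C (w i) * l i).natDegree ≤ 1 := (natDegree_C_mul_le _ _).trans (hl i)
  have h2 := G2.natDegree_prod_pow (I.erase i) p fun _ => k
  rw [Finset.sum_const, Finset.card_erase_of_mem hi, hI, smul_eq_mul, Nat.add_sub_cancel] at h2
  omega

theorem pow_le {p : L} {e : ℕ} {h : L[X]} (h0 : h ≠ 0) (hd : (X - C p) ^ e ∣ h) :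
    e ≤ h.natDegree := by
  simpa only [natDegree_pow, natDegree_X_sub_C, mul_one] using natDegree_le_of_dvd hd h0

theorem num_ne (hk : 2 ≤ k) {p : Fin d → L} (hp : Function.Injective p) (I : Finset (Fin d))
    (l : Fin d → L[X]) (hl : ∀ i, (l i).natDegree ≤ 1) (h0 : ∃ i ∈ I, l i ≠ 0) :
    numG k p (fun _ => 1) I l ≠ 0 := by
  obtain ⟨i, hi, hli⟩ := h0
  intro h
  have h1 := num_dvd (k := k) p (fun _ => 1) I l hi
  rw [h, zero_sub, dvd_neg, C_1, one_mul] at h1
  have h3 := pow_le hli ((cop_prod hp I i).dvd_of_dvd_mul_right h1)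
  have h4 := hl i
  omega

theorem exists_m (k : ℕ) (p : L) (c : L[X]) : ∃ m, m ≤ k ∧ (X - C p) ^ m ∣ c ∧
    ∀ h : L[X], (X - C p) ^ k ∣ h * c → (X - C p) ^ (k - m) ∣ h := by
  by_cases h3 : (X - C p) ^ k ∣ c
  · exact ⟨k, le_rfl, h3, fun h _ => by simp⟩
  have hc : c ≠ 0 := fun h => h3 (h ▸ dvd_zero _)
  obtain ⟨u, hu, hnd⟩ := exists_eq_pow_rootMultiplicity_mul_and_not_dvd c hc p
  set r := rootMultiplicity p c
  have hr : r ≤ k := by
    by_contra hlt
    exact h3 (hu ▸ (pow_dvd_pow _ (by omega)).mul_right u)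
  refine ⟨r, hr, hu ▸ dvd_mul_right _ _, fun h hh => ?_⟩
  have e : (X - C p) ^ k = (X - C p) ^ r * (X - C p) ^ (k - r) := by
    rw [← pow_add]; congr 1; omega
  have e2 : h * c = (X - C p) ^ r * (h * u) := by rw [hu]; ring
  rw [e, e2, mul_dvd_mul_iff_left (pow_ne_zero _ (X_sub_C_ne_zero p))] at hh
  have hcop : IsCoprime (X - C p) u := ((irreducible_X_sub_C p).coprime_iff_not_dvd).2 hnd
  exact (hcop.pow_left (m := k - r)).dvd_of_dvd_mul_right hh

theorem avg {ι : Type} [DecidableEq ι] (f : ι → ℕ) (m : ℕ) (s : Finset ι) : m ≤ s.card →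
    ∃ I ⊆ s, I.card = m ∧ s.card * ∑ i ∈ I, f i ≤ m * ∑ i ∈ s, f i := by
  induction s using Finset.induction_on_max_value f with
  | empty => exact fun h => ⟨∅, Subset.refl _, by simpa using h.antisymm' (Nat.zero_le _), by simp⟩
  | insert a s ha hmax ih =>
    intro h
    rcases h.eq_or_lt with e | h
    · exact ⟨_, Subset.refl _, e.symm, by rw [e]⟩
    rw [card_insert_of_notMem ha] at h
    obtain ⟨I, h1, h2, h3⟩ := ih (by omega)
    refine ⟨I, h1.trans (subset_insert _ _), h2, ?_⟩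
    have h4 := Finset.sum_le_card_nsmul I f (f a) fun x hx => hmax x (h1 hx)
    rw [h2, smul_eq_mul] at h4
    rw [card_insert_of_notMem ha, sum_insert ha, add_mul, mul_add, one_mul, add_comm (m * f a)]
    exact Nat.add_le_add h3 h4

end AG

open AG in
theorem algG : AlgG := by
  intro d k m hk hm hd hnum L _ _ p θ hp hθ l hl
  obtain ⟨m, rfl⟩ : ∃ r, m = r + 1 := ⟨m - 1, by omega⟩
  by_contra hcon
  push Not at hcon
  have hNA : ∀ I : Finset (Fin d), I.card = m + 1 → numG k p (fun _ => 1) I (l I) ≠ 0 :=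
    fun I hI => num_ne hk hp I (l I) (hl I hI).1 (hl I hI).2
  classical
  obtain ⟨I0, -, hI0⟩ := exists_subset_card_eq (s := (univ : Finset (Fin d))) (n := m + 1)
    (by rw [card_univ, Fintype.card_fin]; omega)
  obtain ⟨a, b, g, hab, ha, hb⟩ : ∃ a b g : L[X], IsCoprime a b ∧
      numG k p (fun _ => 1) I0 (l I0) = g * a ∧ numG k p θ I0 (l I0) = g * b := by
    set A := numG k p (fun _ => 1) I0 (l I0)
    set B := numG k p θ I0 (l I0)
    have hA : A ≠ 0 := hNA _ hI0
    have hg : EuclideanDomain.gcd A B ≠ 0 := fun h => hA (EuclideanDomain.gcd_eq_zero_iff.1 h).1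
    obtain ⟨a, ha⟩ := EuclideanDomain.gcd_dvd_left A B
    obtain ⟨b, hb⟩ := EuclideanDomain.gcd_dvd_right A B
    refine ⟨a, b, _, ⟨EuclideanDomain.gcdA A B, EuclideanDomain.gcdB A B, ?_⟩, ha, hb⟩
    apply mul_left_cancel₀ hg
    have := EuclideanDomain.gcd_eq_gcd_ab A B
    linear_combination -this - EuclideanDomain.gcdA A B * ha - EuclideanDomain.gcdB A B * hb
  have hg0 : g ≠ 0 := fun h => hNA _ hI0 (by rw [ha, h, zero_mul])
  have ha0 : a ≠ 0 := fun h => hNA _ hI0 (by rw [ha, h, mul_zero])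
  have hH : ∀ I : Finset (Fin d), I.card = m + 1 → ∃ h : L[X], h ≠ 0 ∧
      numG k p (fun _ => 1) I (l I) = h * a ∧ numG k p θ I (l I) = h * b := by
    intro I hI
    have h1 := hcon I _ hI hI0
    rw [ha, hb] at h1
    have h2 : numG k p (fun _ => 1) I (l I) * b = numG k p θ I (l I) * a := by
      apply mul_left_cancel₀ hg0
      linear_combination h1
    obtain ⟨h, hh⟩ := hab.dvd_of_dvd_mul_right (h2 ▸ dvd_mul_left a _)
    refine ⟨h, fun h0 => hNA I hI (by rw [hh, h0, mul_zero]), by rw [hh, mul_comm], ?_⟩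
    apply mul_left_cancel₀ ha0
    rw [hh] at h2
    linear_combination -h2
  choose μ hm3 hmd hmh using fun i => exists_m k (p i) (b - C (θ i) * a)
  set ν := max a.natDegree b.natDegree with hν
  have hS : ∀ I : Finset (Fin d), I.card = m + 1 → k + ν ≤ 1 + ∑ i ∈ I, μ i := by
    intro I hI
    obtain ⟨h, h0, e1, e2⟩ := hH I hI
    have h1 := G2.sum_le_natDegree I p hp (fun i => k - μ i) h h0 fun i hi => hmh i h (by
      have d1 := num_dvd (k := k) p (fun _ => 1) I (l I) hi
      have d2 := num_dvd (k := k) p θ I (l I) hi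
      have d3 := dvd_sub d2 (d1.mul_left (C (θ i)))
      convert d3 using 1
      rw [e1, e2, C_1]
      ring)
    have h2 : h.natDegree + ν ≤ 1 + m * k := by
      have d1 := num_deg (k := k) p (fun _ => 1) I (l I) hI (hl I hI).1
      have d2 := num_deg (k := k) p θ I (l I) hI (hl I hI).1
      rw [e1, natDegree_mul h0 ha0] at d1
      by_cases hb0 : b = 0
      · rw [hν, hb0, natDegree_zero]
        omega
      · rw [e2, natDegree_mul h0 hb0] at d2
        omega
    have h3 : ∑ i ∈ I, (k - μ i) + ∑ i ∈ I, μ i = m * k + k := by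
      rw [← sum_add_distrib, sum_congr rfl fun i _ => Nat.sub_add_cancel (hm3 i), sum_const, hI,
        smul_eq_mul, add_mul, one_mul]
    omega
  have hν1 : k ≤ ν + 1 := by
    have hc : (univ.filter fun i => b = C (θ i) * a).card ≤ 1 :=
      card_le_one.2 fun i hi j hj => hθ (C_injective (mul_right_cancel₀ ha0
        ((mem_filter.1 hi).2.symm.trans (mem_filter.1 hj).2)))
    have hc2 := card_filter_add_card_filter_not (s := (univ : Finset (Fin d)))
      fun i => b = C (θ i) * a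
    rw [card_univ, Fintype.card_fin] at hc2
    obtain ⟨I, hs, hI⟩ := exists_subset_card_eq
      (s := univ.filter fun i => ¬ b = C (θ i) * a) (n := m + 1) (by omega)
    obtain ⟨i, hi, hli⟩ := (hl I hI).2
    obtain ⟨h, -, e1, e2⟩ := hH I hI
    have h1 := pow_le hli (hmh i (l I i) ((cop_prod hp I i).dvd_of_dvd_mul_right (by
      have d1 := num_dvd (k := k) p (fun _ => 1) I (l I) hi
      have d2 := num_dvd (k := k) p θ I (l I) hi
      have d3 := dvd_sub (d2.mul_left a) (d1.mul_left b)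
      convert d3 using 1
      rw [e1, e2, C_1]
      ring)))
    have h2 := pow_le (sub_ne_zero.2 (mem_filter.1 (hs hi)).2) (hmd i)
    have h3 : (b - C (θ i) * a).natDegree ≤ ν := (natDegree_sub_le _ _).trans
      (max_le (le_max_right _ _) ((natDegree_C_mul_le _ _).trans (le_max_left _ _)))
    have h4 := (hl I hI).1 i
    omega
  have hW := G2.wr_bound univ p θ hp a b hab ν hν (by omega) μ fun i _ => hmd i
  have hW2 : ∑ i, μ i ≤ ∑ i, (μ i - 1) + d := by
    have := sum_le_sum (s := (univ : Finset (Fin d))) (f := μ) (g := fun i => μ i - 1 + 1)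
      fun i _ => by omega
    rwa [sum_add_distrib, sum_const, card_univ, Fintype.card_fin, smul_eq_mul, mul_one] at this
  obtain ⟨I, -, hI, h1⟩ := avg μ (m + 1) univ (by rw [card_univ, Fintype.card_fin]; omega)
  rw [card_univ, Fintype.card_fin] at h1
  have h2 := hS I hI
  obtain ⟨k, rfl⟩ : ∃ r, k = r + 2 := ⟨k - 2, by omega⟩
  obtain ⟨e, he⟩ : ∃ e, ν = k + 1 + e := ⟨ν - (k + 1), by omega⟩
  rw [show 2 * (k + 2) - 4 = 2 * k by omega, show 2 * (k + 2) - 2 = 2 * k + 2 by omega] at hnum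
  have h3 := Nat.mul_le_mul_left d (show 2 * k + 2 + e ≤ ∑ i ∈ I, μ i by omega)
  have h4 := Nat.mul_le_mul_left (m + 1) (show ∑ i, μ i ≤ 2 * k + d + 2 * e by omega)
  have h5 := Nat.mul_le_mul_right e hd
  nlinarith

end Vale.Agent.N018.H
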