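import Mathlib

/-! # P018, pair (6,3): definitions and statements of the elementary packages.

Points are integer vectors. `Thin D m S` says that the Hilbert function of `S` in degree `D` is at
most `m`. -/

namespace Vale.Agent.N018.H

open Finset Polynomial

/-- integer vectors -/
abbrev V (n : ℕ) : Type := Fin n → ℤ

/-- forms of degree `D`, as functions on integer vectors -/
def HP (n D : ℕ) : Submodule ℚ (V n → ℚ) :=
  Submodule.span ℚ {F | ∃ a : Fin n → ℕ, ∑ i, a i = D ∧ F = fun y => ∏ i, (y i : ℚ) ^ a i}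

variable {n : ℕ}

/-- forms of degree `D` separate the points of `T` -/
def Sep (D : ℕ) (T : Finset (V n)) : Prop :=
  ∀ y ∈ T, ∃ F ∈ HP n D, F y ≠ 0 ∧ ∀ y' ∈ T, y' ≠ y → F y' = 0

/-- the Hilbert function of `S` in degree `D` is at most `m` -/
def Thin (D m : ℕ) (S : Finset (V n)) : Prop := ∀ T ⊆ S, Sep D T → T.card ≤ m

/-- rational linear form -/
def dq (h : Fin n → ℚ) (y : V n) : ℚ := ∑ j, h j * (y j : ℚ)

/-- integral linear form -/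
def dz (a y : V n) : ℤ := ∑ j, a j * y j

/-- the rank of a finite set of vectors -/
noncomputable def rk (T : Finset (V n)) : ℕ :=
  Module.finrank ℚ
    (Submodule.span ℚ ((fun (y : V n) (j : Fin n) => (y j : ℚ)) '' (T : Set (V n))))

/-- nonzero, pairwise non proportional vectors -/
def NP (S : Finset (V n)) : Prop :=
  (∀ y ∈ S, y ≠ 0) ∧ ∀ y ∈ S, ∀ y' ∈ S, y ≠ y' → ∃ i j, y i * y' j ≠ y j * y' i

/-- `y` is in the rational span of the vectors `v i` -/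
def InSp {ρ : ℕ} (v : Fin ρ → V n) (y : V n) : Prop :=
  ∃ c : Fin ρ → ℚ, ∀ j, (y j : ℚ) = ∑ i, c i * (v i j : ℚ)

/-- no point of `T` lies in the span of `ρ` nonzero vectors with product of sup norms `< H` -/
def NS (ρ : ℕ) (H : ℝ) (T : Finset (V n)) : Prop :=
  ∀ y ∈ T, ∀ v : Fin ρ → V n, (∀ i, v i ≠ 0) → InSp v y → H ≤ ∏ i, ‖v i‖

/-- `ρ` integral forms, independent on `T`, bounded on `T` by `B i` with `∏ B i ≤ W` -/
def Box (ρ : ℕ) (W : ℝ) (T : Finset (V n)) : Prop :=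
  ∃ (a : Fin ρ → V n) (B : Fin ρ → ℕ), (∀ i, 1 ≤ B i) ∧ (∀ y ∈ T, ∀ i, |dz (a i) y| ≤ B i) ∧
    ∏ i, (B i : ℝ) ≤ W ∧
    ∀ c : Fin ρ → ℚ, c ≠ 0 → ∃ y ∈ T, ∑ i, c i * (dz (a i) y : ℚ) ≠ 0

/-- the coordinate `j0` is positive and maximal -/
def Chart (j0 : Fin n) (S : Finset (V n)) : Prop := ∀ y ∈ S, 0 < y j0 ∧ ∀ j, |y j| ≤ y j0

/-- the points `y / y j0` are `η`-close -/
def Nar (j0 : Fin n) (η : ℝ) (S : Finset (V n)) : Prop :=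
  ∀ y ∈ S, ∀ y' ∈ S, ∀ j, |(y j : ℝ) / y j0 - (y' j : ℝ) / y' j0| ≤ η

/-! ### elementary facts -/

theorem HP_mul {D D' : ℕ} {F G : V n → ℚ} (hF : F ∈ HP n D) (hG : G ∈ HP n D') :
    F * G ∈ HP n (D + D') := by
  have h := Submodule.mul_mem_mul hF hG
  unfold HP at h
  rw [Submodule.span_mul_span] at h
  refine Submodule.span_mono ?_ h
  rintro _ ⟨_, ⟨a, ha, rfl⟩, _, ⟨b, hb, rfl⟩, rfl⟩
  refine ⟨a + b, ?_, ?_⟩
  · simp only [Pi.add_apply, Finset.sum_add_distrib, ha, hb]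
  · funext y
    simp only [Pi.mul_apply, Pi.add_apply, pow_add, Finset.prod_mul_distrib]

theorem HP_one : (1 : V n → ℚ) ∈ HP n 0 :=
  Submodule.subset_span ⟨0, by simp, by funext y; simp⟩

theorem HP_coord (j : Fin n) : (fun y : V n => (y j : ℚ)) ∈ HP n 1 := by
  refine Submodule.subset_span ⟨Pi.single j 1, by simp, ?_⟩
  funext y
  rw [Finset.prod_eq_single j]
  · simp
  · intro i _ hi
    rw [Pi.single_eq_of_ne hi, pow_zero]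
  · intro h
    exact absurd (mem_univ j) h

theorem HP_dq (h : Fin n → ℚ) : (fun y : V n => dq h y) ∈ HP n 1 := by
  have e : (fun y : V n => dq h y) = ∑ j, h j • (fun y : V n => (y j : ℚ)) := by
    funext y
    simp [dq, Finset.sum_apply]
  rw [e]
  exact Submodule.sum_mem _ fun j _ => Submodule.smul_mem _ _ (HP_coord j)

theorem dz_cast (a y : V n) : ((dz a y : ℤ) : ℚ) = dq (fun j => (a j : ℚ)) y := by
  simp [dz, dq]

theorem HP_dz (a : V n) : (fun y : V n => ((dz a y : ℤ) : ℚ)) ∈ HP n 1 := by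
  simp only [dz_cast]
  exact HP_dq _

theorem HP_pow {D : ℕ} {F : V n → ℚ} (hF : F ∈ HP n D) (e : ℕ) : F ^ e ∈ HP n (D * e) := by
  induction e with
  | zero => simpa using HP_one
  | succ e ih =>
    rw [pow_succ, Nat.mul_succ]
    exact HP_mul ih hF

theorem HP_prod {ι : Type*} (s : Finset ι) (F : ι → V n → ℚ) (D : ι → ℕ)
    (h : ∀ i ∈ s, F i ∈ HP n (D i)) : ∏ i ∈ s, F i ∈ HP n (∑ i ∈ s, D i) := by
  classical
  induction s using Finset.induction_on with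
  | empty => simpa using HP_one
  | insert i s hi ih =>
    rw [Finset.prod_insert hi, Finset.sum_insert hi]
    exact HP_mul (h i (mem_insert_self i s)) (ih fun j hj => h j (mem_insert_of_mem hj))

theorem Sep.mono {D : ℕ} {T T' : Finset (V n)} (h : Sep D T) (hT : T' ⊆ T) : Sep D T' := by
  intro y hy
  obtain ⟨F, h1, h2, h3⟩ := h y (hT hy)
  exact ⟨F, h1, h2, fun y' hy' hne => h3 y' (hT hy') hne⟩

theorem Thin.mono {D m : ℕ} {S S' : Finset (V n)} (h : Thin D m S) (hS : S' ⊆ S) : Thin D m S' :=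
  fun T hT hsep => h T (hT.trans hS) hsep

theorem Thin.le {D m m' : ℕ} {S : Finset (V n)} (h : Thin D m S) (hm : m ≤ m') : Thin D m' S :=
  fun T hT hsep => (h T hT hsep).trans hm

theorem NP.mono {S S' : Finset (V n)} (h : NP S) (hS : S' ⊆ S) : NP S' :=
  ⟨fun y hy => h.1 y (hS hy), fun y hy y' hy' => h.2 y (hS hy) y' (hS hy')⟩

theorem NS.mono {ρ : ℕ} {H : ℝ} {S S' : Finset (V n)} (h : NS ρ H S) (hS : S' ⊆ S) : NS ρ H S' :=
  fun y hy => h y (hS hy)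

theorem NS_one (ρ : ℕ) (S : Finset (V n)) : NS ρ 1 S := by
  intro y _ v hv _
  refine le_trans (le_of_eq (Finset.prod_const_one (s := Finset.univ) (ι := Fin ρ)).symm)
    (Finset.prod_le_prod (fun _ _ => zero_le_one) fun i _ => ?_)
  obtain ⟨j, hj⟩ := Function.ne_iff.1 (hv i)
  refine le_trans ?_ (norm_le_pi_norm (v i) j)
  rw [Int.norm_eq_abs]
  exact_mod_cast Int.one_le_abs hj

theorem Chart.mono {j0 : Fin n} {S S' : Finset (V n)} (h : Chart j0 S) (hS : S' ⊆ S) :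
    Chart j0 S' := fun y hy => h y (hS hy)

theorem Nar.mono {j0 : Fin n} {η : ℝ} {S S' : Finset (V n)} (h : Nar j0 η S) (hS : S' ⊆ S) :
    Nar j0 η S' := fun y hy y' hy' => h y (hS hy) y' (hS hy')

theorem Nar.le {j0 : Fin n} {η η' : ℝ} {S : Finset (V n)} (h : Nar j0 η S) (hη : η ≤ η') :
    Nar j0 η' S := fun y hy y' hy' j => (h y hy y' hy' j).trans hη

theorem Box.le {ρ : ℕ} {W W' : ℝ} {T : Finset (V n)} (h : Box ρ W T) (hW : W ≤ W') :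
    Box ρ W' T := by
  obtain ⟨a, B, h1, h2, h3, h4⟩ := h
  exact ⟨a, B, h1, h2, h3.trans hW, h4⟩

theorem rk_mono {S S' : Finset (V n)} (hS : S' ⊆ S) : rk S' ≤ rk S :=
  Submodule.finrank_mono (Submodule.span_mono (Set.image_mono (Finset.coe_subset.2 hS)))

theorem rk_le (S : Finset (V n)) : rk S ≤ n := by
  refine (Submodule.finrank_le _).trans ?_
  simp

/-! ### package A (Hilbert functions) -/

/-- A1: slicing by hyperplanes -/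
def SliceS : Prop := ∀ (n D m : ℕ) (N1 N2 : ℝ), 0 ≤ N1 → 0 ≤ N2 →
  ∀ (𝒜 : Finset (Fin n → ℚ)) (j M : ℕ) (S : Finset (V n)), (∀ y ∈ S, y ≠ 0) →
    M < (j + 1) * (m + 1) → Thin (D + j) M S → (∀ y ∈ S, ∃ h ∈ 𝒜, dq h y = 0) →
    (∀ h ∈ 𝒜, ∀ T ⊆ S, (∀ y ∈ T, dq h y = 0) →
      (Thin D m T → (T.card : ℝ) ≤ N1) ∧ (T.card : ℝ) ≤ N2) →
    (S.card : ℝ) ≤ 𝒜.card * N1 + j * N2

/-- A2: non proportional points -/
def NpS : Prop := ∀ (n m : ℕ) (T : Finset (V n)), NP T → Thin m m T → T.card ≤ m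

/-- A3: a nontrivial combination of more than `m` forms vanishes -/
def KerS : Prop := ∀ (n D m : ℕ) (S : Finset (V n)) (ι : Type) [Fintype ι] (F : ι → V n → ℚ),
  Thin D m S → m < Fintype.card ι → (∀ i, F i ∈ HP n D) →
    ∃ t : ι → ℚ, t ≠ 0 ∧ ∀ y ∈ S, ∑ i, t i * F i y = 0

/-- A4: the Hilbert function of a linear space -/
def RkThinS : Prop := ∀ (n s D : ℕ) (T : Finset (V n)), rk T ≤ s + 1 → Thin D ((D + 1) ^ s) T

/-- A5: ranks -/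
def RkS : Prop := ∀ n : ℕ,
  (∀ (S T : Finset (V n)) (h : Fin n → ℚ), T ⊆ S → (∀ y ∈ T, dq h y = 0) →
    (∃ y ∈ S, dq h y ≠ 0) → rk T < rk S) ∧
  (∀ (ρ : ℕ) (v : Fin ρ → V n) (T : Finset (V n)), (∀ y ∈ T, InSp v y) → rk T ≤ ρ)

/-! ### package B (cells) -/

/-- B: number of narrow cells which meet a thin set -/
def CellS : Prop := ∀ n s C0 : ℕ, ∃ C : ℝ, 1 ≤ C ∧ ∀ (j0 : Fin n) (S : Finset (V n))
  (η η' M : ℝ), (∀ y ∈ S, 0 < y j0) → 0 < η' → η' ≤ η → 0 ≤ M → Nar j0 η S →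
    (∀ D, Thin D (C0 * (D + 1) ^ s) S) → (∀ T ⊆ S, Nar j0 η' T → (T.card : ℝ) ≤ M) →
    (S.card : ℝ) ≤ C * (η / η') ^ s * M

/-! ### package C (geometry of numbers) -/

/-- C1: the second theorem of Minkowski, with a basis -/
def MinkS : Prop := ∀ ρ : ℕ, ∃ C : ℝ, 1 ≤ C ∧ ∀ M : Matrix (Fin ρ) (Fin ρ) ℝ, M.det ≠ 0 →
  ∃ U : Matrix (Fin ρ) (Fin ρ) ℤ, IsUnit U.det ∧
    ∏ i, ‖(U.map (fun z : ℤ => (z : ℝ)) * M) i‖ ≤ C * |M.det|

/-- C2: a reduced basis `v` of a lattice which contains `T`, with dual integral forms `a` -/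
def BasisS : Prop := ∀ n ρ : ℕ, ∃ C : ℝ, 1 ≤ C ∧ ∀ T : Finset (V n), rk T = ρ →
  ∃ (v a : Fin ρ → V n) (J : Fin ρ → Fin n), (∀ y ∈ T, ∀ j, y j = ∑ i, dz (a i) y * v i j) ∧
    (Matrix.of fun i k => v i (J k)).det ≠ 0 ∧
    ∏ i, ‖v i‖ ≤ C * |(((Matrix.of fun i k => v i (J k)).det : ℤ) : ℝ)|

/-- C3: small independent forms -/
def BoxS : Prop := ∀ n ρ : ℕ, ∃ C : ℝ, 1 ≤ C ∧ ∀ (T : Finset (V n)) (W H : ℝ), rk T = ρ → 1 ≤ ρ →
  0 < H → NS ρ H T →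
  (∀ x : Fin ρ → V n, (∀ i, x i ∈ T) → ∀ J : Fin ρ → Fin n,
    |(((Matrix.of fun i k => x i (J k)).det : ℤ) : ℝ)| ≤ W) → Box ρ (C * W / H) T

/-- C4: minors of narrow sets -/
def MinorS : Prop := ∀ (n s : ℕ) (j0 : Fin n) (T : Finset (V n)) (R η : ℝ), 0 ≤ η → Chart j0 T →
  Nar j0 η T → (∀ y ∈ T, (y j0 : ℝ) ≤ R) → ∀ x : Fin (s + 1) → V n, (∀ i, x i ∈ T) →
  ∀ J : Fin (s + 1) → Fin n, |(((Matrix.of fun i k => x i (J k)).det : ℤ) : ℝ)| ≤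
    (s + 1).factorial * R ^ (s + 1) * η ^ s

/-- C5: the number of tuples of small vectors -/
def TupS : Prop := ∀ (n ρ : ℕ) (ε : ℝ), 0 < ε → ∃ C : ℝ, 1 ≤ C ∧ ∀ H : ℝ, 1 ≤ H →
  ∀ 𝒱 : Finset (Fin ρ → V n), (∀ v ∈ 𝒱, (∀ i, v i ≠ 0) ∧ ∏ i, ‖v i‖ ≤ H) →
    (𝒱.card : ℝ) ≤ C * H ^ ((n : ℝ) + ε)

/-! ### packages D, E (coverings by hyperplanes) -/

/-- D: the points of a box lie on few hyperplanes -/
def SiegelS : Prop := ∀ s : ℕ, 1 ≤ s → ∃ C : ℝ, 1 ≤ C ∧ ∀ (B : Fin (s + 1) → ℕ) (A : ℝ), 1 ≤ A →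
  (∀ i, 1 ≤ B i) → ∏ i, (B i : ℝ) ≤ A ^ s →
  ∃ 𝒞 : Finset (Fin (s + 1) → ℚ), (0 : Fin (s + 1) → ℚ) ∉ 𝒞 ∧ (𝒞.card : ℝ) ≤ C * A ∧
    ∀ u : V (s + 1), (∀ i, |u i| ≤ B i) → ∃ c ∈ 𝒞, dq c u = 0

/-- E: the points of a plane curve of degree `e` in a box lie on few lines -/
def JarnikS : Prop := ∀ e : ℕ, ∃ C : ℝ, 1 ≤ C ∧ ∀ (B : Fin 3 → ℕ) (Q : ℝ) (U : Finset (V 3))
  (F : MvPolynomial (Fin 3) ℚ), 1 ≤ Q → (∀ i, 1 ≤ B i) → ∏ i, (B i : ℝ) ≤ Q ^ 3 →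
  (∀ u ∈ U, ∀ i, |u i| ≤ B i) → F ≠ 0 → F.IsHomogeneous e →
  (∀ u ∈ U, MvPolynomial.eval (fun i => (u i : ℚ)) F = 0) →
  ∃ 𝒞 : Finset (Fin 3 → ℚ), (0 : Fin 3 → ℚ) ∉ 𝒞 ∧ (𝒞.card : ℝ) ≤ C * Q ∧
    ∀ u ∈ U, ∃ c ∈ 𝒞, dq c u = 0

/-! ### package F (points on surfaces) -/

/-- F: the number of points of a set whose Hilbert function is that of a surface -/
def EndS : Prop := ∀ n m : ℕ, ∃ C : ℝ, 1 ≤ C ∧ ∀ (S : Finset (V n)) (NL Z : ℝ) (A Q : ℕ → ℝ)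
  (M : ℕ), NP S → 1 ≤ NL → NL ≤ Z → Monotone Q → (∀ ρ, 0 ≤ Q ρ) → (∀ ρ, 3 ≤ ρ → 1 ≤ Q ρ) →
  (∀ ρ, 1 ≤ A ρ) → (∀ T ⊆ S, rk T ≤ 2 → (T.card : ℝ) ≤ NL) →
  (∀ T ⊆ S, 3 ≤ rk T → Box (rk T) (min (A (rk T) ^ (rk T - 1)) (Q (rk T) ^ rk T)) T) →
  (∀ ρ, 3 ≤ ρ → ρ ≤ rk S → A ρ * (NL + Q (ρ - 1)) ≤ Z) →
  M < (2 * m + 1) * (m + 1) ^ 2 → Thin (4 * m) M S → (S.card : ℝ) ≤ C * Z

/-! ### package G (the polynomial lemma for lines) -/

/-- `∑_{i ∈ I} w i * l i * ∏_{j ∈ I, j ≠ i} (X - p j) ^ 3` -/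
noncomputable def num {L : Type} [Field L] (p w : Fin 6 → L) (I : Finset (Fin 6))
    (l : Fin 6 → L[X]) : L[X] :=
  ∑ i ∈ I, C (w i) * l i * ∏ j ∈ I.erase i, (X - C (p j)) ^ 3

/-- G: the fractions attached to the triples are not all equal -/
def AlgS : Prop := ∀ (L : Type) [Field L] [CharZero L] (p θ : Fin 6 → L), Function.Injective p →
  Function.Injective θ → ∀ l : Finset (Fin 6) → Fin 6 → L[X],
  (∀ I : Finset (Fin 6), I.card = 3 → (∀ i, (l I i).natDegree ≤ 1) ∧ ∃ i ∈ I, l I i ≠ 0) →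
  ∃ I I' : Finset (Fin 6), I.card = 3 ∧ I'.card = 3 ∧
    num p (fun _ => 1) I (l I) * num p θ I' (l I') ≠ num p θ I (l I) * num p (fun _ => 1) I' (l I')

end Vale.Agent.N018.H
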