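import Vale.Agent.P018.Bdl.B8
import Vale.Agent.N018.H.Def

/-! # P018, pair (6,3): the number of narrow cells which meet a thin set. -/

namespace Vale.Agent.N018.H

open Finset Vale.Agent.P018 Vale.Agent.P018.K Vale.Agent.P018.K2

namespace Ce

/-- homogenisation -/
theorem homog {n D : ℕ} {ι : Type} (j0 : Fin n) (p : ι → V n) (x : Fin n → ι → ℚ)
    (w : Fin n → Fin n → ℚ) (hx : ∀ i q, dq (w i) (p q) = (p q j0 : ℚ) * x i q) (v : ι → ℚ)
    (hv : v ∈ cnt_P x D) : ∃ F ∈ HP n D, ∀ q, F (p q) = (p q j0 : ℚ) ^ D * v q := by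
  induction hv using Submodule.span_induction with
  | mem v hv =>
    obtain ⟨a, ha, rfl⟩ := hv
    refine ⟨(∏ i, (fun y : V n => dq (w i) y) ^ a i) *
      (fun y : V n => (y j0 : ℚ)) ^ (D - ∑ i, a i), ?_, fun q => ?_⟩
    · have h1 := HP_mul (HP_prod univ (fun i => (fun y : V n => dq (w i) y) ^ a i)
        (fun i => 1 * a i) fun i _ => HP_pow (HP_dq (w i)) (a i))
        (HP_pow (HP_coord j0) (D - ∑ i, a i))
      simp only [one_mul] at h1
      rwa [Nat.add_sub_cancel' ha] at h1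
    · simp only [Pi.mul_apply, Finset.prod_apply, Pi.pow_apply, hx, mul_pow,
        Finset.prod_mul_distrib, Finset.prod_pow_eq_pow_sum, cnt_mon]
      conv_rhs => rw [← Nat.add_sub_cancel' ha, pow_add]
      ring
  | zero => exact ⟨0, Submodule.zero_mem _, fun q => by simp⟩
  | add v v' _ _ h1 h2 =>
    obtain ⟨F, hF, e⟩ := h1
    obtain ⟨F', hF', e'⟩ := h2
    exact ⟨F + F', Submodule.add_mem _ hF hF', fun q => by simp [e, e', mul_add]⟩
  | smul c v _ h1 =>
    obtain ⟨F, hF, e⟩ := h1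
    exact ⟨c • F, Submodule.smul_mem _ _ hF, fun q => by simp [e, mul_left_comm]⟩

end Ce

theorem cellS : CellS := by
  classical
  intro n s C0
  obtain ⟨A, hA⟩ := cells_top n
  have hC0 : (0 : ℝ) ≤ C0 * (7 * (A + 1)) ^ s * 2 ^ n := by positivity
  refine ⟨C0 * (7 * (A + 1)) ^ s * 2 ^ n + 1, by linarith, ?_⟩
  intro j0 S η η' M hpos hη' hη hM hN hthin hcell
  have hη0 : 0 < η := hη'.trans_le hη
  have hr1 : 1 ≤ η / η' := (one_le_div hη').2 hη
  rcases S.eq_empty_or_nonempty with rfl | ⟨b, hb⟩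
  · simp only [card_empty, Nat.cast_zero]
    positivity
  obtain ⟨K, hK⟩ : ∃ K : ℕ, 2 / η' ≤ K := exists_nat_ge _
  rw [div_le_iff₀ hη'] at hK
  obtain ⟨M0, hM0⟩ : ∃ M0 : ℤ, M0 = K * ∏ z ∈ S, z j0 := ⟨_, rfl⟩
  have hP : (1 : ℤ) ≤ ∏ z ∈ S, z j0 := Finset.prod_pos hpos
  have hM2 : 2 ≤ (M0 : ℝ) * η' := by
    have h1 : (K : ℤ) ≤ M0 := by
      rw [hM0]
      exact le_mul_of_one_le_right (Int.natCast_nonneg K) hP
    have h2 : (K : ℝ) ≤ M0 := by exact_mod_cast h1
    nlinarith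
  have hMp : (0 : ℝ) < M0 := by
    by_contra h
    nlinarith
  have hM3 : 2 ≤ (M0 : ℝ) * η := by nlinarith
  obtain ⟨Y, hY⟩ : ∃ Y : V n → V n, ∀ y ∈ S, ∀ j, y j0 * Y y j = M0 * y j := by
    refine ⟨fun y j => K * (∏ z ∈ S.erase y, z j0) * y j, fun y hy j => ?_⟩
    rw [hM0, ← Finset.mul_prod_erase S (fun z => z j0) hy]
    ring
  have hYr : ∀ y ∈ S, ∀ j, (Y y j : ℝ) = M0 * ((y j : ℝ) / y j0) := by
    intro y hy j
    have h1 : (y j0 : ℝ) ≠ 0 := by exact_mod_cast (hpos y hy).ne'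
    have h2 : (y j0 : ℝ) * Y y j = M0 * y j := by exact_mod_cast hY y hy j
    field_simp
    linarith
  obtain ⟨h, hh⟩ : ∃ h : ℕ, h = ⌊(M0 : ℝ) * η'⌋₊ := ⟨_, rfl⟩
  have hh1 : (h : ℝ) ≤ M0 * η' := by
    rw [hh]
    exact Nat.floor_le (by linarith)
  have hh2 : (M0 : ℝ) * η' < h + 1 := by
    rw [hh]
    exact Nat.lt_floor_add_one _
  have hh3 : 1 ≤ h := by
    have : (1 : ℝ) < h := by linarith
    exact_mod_cast this.le
  obtain ⟨N, hNd⟩ : ∃ N : ℕ, N = ⌈6 * (η / η')⌉₊ := ⟨_, rfl⟩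
  have hN1 : 6 * (η / η') ≤ N := by
    rw [hNd]
    exact Nat.le_ceil _
  have hN2 : (N : ℝ) ≤ 7 * (η / η') := by
    have := Nat.ceil_lt_add_one (a := 6 * (η / η')) (by positivity)
    rw [← hNd] at this
    linarith
  have hN3 : 1 ≤ N := by
    have : (1 : ℝ) ≤ N := by linarith
    exact_mod_cast this
  obtain ⟨y0, hy0⟩ : ∃ y0 : V n, y0 = fun j => Y b j - ⌈(M0 : ℝ) * η⌉ := ⟨_, rfl⟩
  have hS : ∀ y ∈ S, ∀ j, y0 j ≤ Y y j ∧ Y y j < y0 j + h * N := by
    intro y hy j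
    have h1 := abs_le.1 (hN y hy b hb j)
    have h2 := Int.le_ceil ((M0 : ℝ) * η)
    have h3 := Int.ceil_lt_add_one ((M0 : ℝ) * η)
    have h4 : (Y y j : ℝ) - Y b j = M0 * ((y j : ℝ) / y j0 - (b j : ℝ) / b j0) := by
      rw [hYr y hy, hYr b hb]
      ring
    have h5 := mul_le_mul_of_nonneg_left h1.1 hMp.le
    have h6 := mul_le_mul_of_nonneg_left h1.2 hMp.le
    have h7 : 3 * (M0 * η) ≤ (h : ℝ) * N := by
      have e : 3 * (M0 * η) = (M0 * η' / 2) * (6 * (η / η')) := by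
        field_simp
        ring
      rw [e]
      exact mul_le_mul (by linarith) hN1 (by positivity) (Nat.cast_nonneg _)
    rw [hy0]
    constructor
    · have : ((Y b j - ⌈(M0 : ℝ) * η⌉ : ℤ) : ℝ) ≤ Y y j := by
        push_cast
        linarith
      exact_mod_cast this
    · have : (Y y j : ℝ) < ((Y b j - ⌈(M0 : ℝ) * η⌉ + h * N : ℤ) : ℝ) := by
        push_cast
        linarith
      exact_mod_cast this
  obtain ⟨φ, hφ⟩ : ∃ φ : V n → V n, φ = fun y j => (Y y j - y0 j) / (h : ℤ) := ⟨_, rfl⟩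
  have hh0 : (0 : ℤ) < h := by exact_mod_cast hh3
  have hφ1 : ∀ q ∈ S, ∀ j, 0 ≤ φ q j ∧ φ q j < N := by
    intro q hq j
    obtain ⟨h1, h2⟩ := hS q hq j
    rw [hφ]
    refine ⟨Int.ediv_nonneg (by linarith only [h1]) hh0.le, ?_⟩
    apply Int.ediv_lt_of_lt_mul hh0
    linarith only [h2]
  have hφ2 : ∀ q j, y0 j + h * φ q j ≤ Y q j ∧ Y q j < y0 j + h * (φ q j + 1) := by
    intro q j
    have h1 := Int.mul_ediv_self_le (x := Y q j - y0 j) (k := (h : ℤ)) hh0.ne'
    have h2 := Int.lt_mul_ediv_self_add (x := Y q j - y0 j) (k := (h : ℤ)) hh0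
    rw [hφ]
    constructor
    · show y0 j + h * ((Y q j - y0 j) / (h : ℤ)) ≤ Y q j
      linarith only [h1]
    · show Y q j < y0 j + h * ((Y q j - y0 j) / (h : ℤ) + 1)
      linarith only [h2]
  -- each cell has at most `M` points
  have hfib : ∀ u ∈ S.image φ, ((S.filter fun y => φ y = u).card : ℝ) ≤ M := by
    intro u _
    refine hcell _ (filter_subset _ _) fun y hy y' hy' j => ?_
    obtain ⟨hy1, hy2⟩ := mem_filter.1 hy
    obtain ⟨hy1', hy2'⟩ := mem_filter.1 hy'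
    have h1 := hφ2 y j
    have h2 := hφ2 y' j
    rw [hy2] at h1
    rw [hy2'] at h2
    have h3 : |Y y j - Y y' j| ≤ h := by
      rw [abs_le]
      constructor <;> linarith [h1.1, h1.2, h2.1, h2.2]
    have h4 : |(Y y j : ℝ) - Y y' j| ≤ h := by exact_mod_cast h3
    rw [hYr y hy1, hYr y' hy1', ← mul_sub, abs_mul, abs_of_pos hMp] at h4
    exact le_of_mul_le_mul_left (h4.trans hh1) hMp
  have hcard : (S.card : ℝ) ≤ (S.image φ).card * M := by
    rw [Finset.card_eq_sum_card_image φ S, Nat.cast_sum]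
    refine (Finset.sum_le_sum hfib).trans (le_of_eq ?_)
    rw [Finset.sum_const, nsmul_eq_mul]
  obtain ⟨T, hT⟩ : ∃ T, T = S.image φ := ⟨_, rfl⟩
  rw [← hT] at hcard
  have hex : ∀ u : V n, ∃ q : V n, u ∈ T → q ∈ S ∧ φ q = u := by
    intro u
    by_cases hu : u ∈ T
    · rw [hT, Finset.mem_image] at hu
      obtain ⟨q, hq, rfl⟩ := hu
      exact ⟨q, fun _ => ⟨hq, rfl⟩⟩
    · exact ⟨0, fun h => absurd h hu⟩
  choose p hp using hex
  have hclass : ∀ c ∈ T.image (fun u : V n => fun j => u j % 2),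
      (T.filter fun u => (fun j => u j % 2) = c).card ≤ C0 * (A * N + 1) ^ s := by
    intro c _
    obtain ⟨U, hU⟩ : ∃ U, U = T.filter fun u => (fun j => u j % 2) = c := ⟨_, rfl⟩
    rw [← hU]
    have hmemU : ∀ u ∈ U, u ∈ T ∧ (fun j => u j % 2) = c := by
      intro u h1
      rw [hU, Finset.mem_filter] at h1
      exact h1
    have hpS : ∀ u ∈ U, p u ∈ S ∧ φ (p u) = u := fun u hu => hp u (hmemU u hu).1
    have htop := hA ℚ (fun i => ((i : ℕ) : ℚ))
      (fun i j hij => Fin.ext (Nat.cast_injective (R := ℚ) hij)) {u // u ∈ U} (fun u => Y (p u.1))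
      (fun u => u.1) y0 h N hh3 hN3 Subtype.val_injective
      (fun u j => by
        have h1 := hφ1 _ (hpS u.1 u.2).1 j
        rw [(hpS u.1 u.2).2] at h1
        exact h1)
      (fun u v j => by
        have h1 : u.1 j % 2 = c j := congrFun (hmemU u.1 u.2).2 j
        have h2 : v.1 j % 2 = c j := congrFun (hmemU v.1 v.2).2 j
        show (2 : ℤ) ∣ u.1 j - v.1 j
        omega)
      (fun u j => by
        have h1 := hφ2 (p u.1) j
        rw [(hpS u.1 u.2).2] at h1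
        exact h1)
    have hinj : Set.InjOn p U := fun u hu v hv huv => by
      rw [← (hpS u hu).2, ← (hpS v hv).2, huv]
    rw [← Finset.card_image_of_injOn hinj]
    refine hthin (A * N) _ (fun y hy => ?_) fun y hy => ?_
    · obtain ⟨u, hu, rfl⟩ := mem_image.1 hy
      exact (hpS u hu).1
    · obtain ⟨u, hu, rfl⟩ := mem_image.1 hy
      obtain ⟨F, hF, e⟩ := Ce.homog (D := A * N) j0 (fun u : {u // u ∈ U} => p u.1)
        (fun (i : Fin n) q => ell ((i : ℕ) : ℚ) (Y (p q.1)))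
        (fun i j => (M0 : ℚ) * ((i : ℕ) : ℚ) ^ (j : ℕ))
        (fun i q => by
          simp only [dq, ell, Finset.mul_sum]
          refine Finset.sum_congr rfl fun j _ => ?_
          have h1 : ((p q.1 j0 : ℤ) : ℚ) * Y (p q.1) j = M0 * p q.1 j := by
            exact_mod_cast hY _ (hpS q.1 q.2).1 j
          linear_combination (-(((i : ℕ) : ℚ) ^ (j : ℕ))) * h1)
        (Pi.single ⟨u, hu⟩ 1) (by rw [htop]; exact Submodule.mem_top)
      refine ⟨F, hF, ?_, fun y' hy' hne => ?_⟩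
      · have h1 := e ⟨u, hu⟩
        simp only [Pi.single_eq_same, mul_one] at h1
        rw [h1]
        exact pow_ne_zero _ (by exact_mod_cast (hpos _ (hpS u hu).1).ne')
      · obtain ⟨v, hv, rfl⟩ := mem_image.1 hy'
        have h1 := e ⟨v, hv⟩
        rw [Pi.single_eq_of_ne (fun h2 => hne (by rw [Subtype.mk.inj h2])), mul_zero] at h1
        exact h1
  have himage : (T.image (fun u : V n => fun j => u j % 2)).card ≤ 2 ^ n := by
    have h1 : T.image (fun u : V n => fun j => u j % 2) ⊆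
        Fintype.piFinset fun _ : Fin n => ({0, 1} : Finset ℤ) := by
      intro b hb
      rw [Finset.mem_image] at hb
      obtain ⟨u, _, rfl⟩ := hb
      rw [Fintype.mem_piFinset]
      intro j
      rw [Finset.mem_insert, Finset.mem_singleton]
      show u j % 2 = 0 ∨ u j % 2 = 1
      omega
    refine (Finset.card_le_card h1).trans ?_
    rw [Fintype.card_piFinset, Finset.prod_const, Finset.card_univ, Fintype.card_fin]
    exact Nat.pow_le_pow_left Finset.card_le_two _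
  have hT1 := (Finset.card_le_mul_card_image (f := fun u : V n => fun j => u j % 2) T
    _ hclass).trans (Nat.mul_le_mul_left _ himage)
  have hT2 : (T.card : ℝ) ≤ C0 * ((A : ℝ) * N + 1) ^ s * 2 ^ n := by exact_mod_cast hT1
  have hT3 : (A : ℝ) * N + 1 ≤ 7 * (A + 1) * (η / η') := by
    have := mul_le_mul_of_nonneg_left hN2 (Nat.cast_nonneg (α := ℝ) A)
    nlinarith
  have hT4 : (T.card : ℝ) ≤ (C0 * (7 * (A + 1)) ^ s * 2 ^ n + 1) * (η / η') ^ s := by
    refine hT2.trans ?_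
    have h1 := pow_le_pow_left₀ (by positivity) hT3 s
    rw [mul_pow] at h1
    have h2 : (0 : ℝ) ≤ (η / η') ^ s := by positivity
    calc (C0 : ℝ) * ((A : ℝ) * N + 1) ^ s * 2 ^ n
        ≤ C0 * ((7 * (A + 1)) ^ s * (η / η') ^ s) * 2 ^ n := by gcongr
      _ ≤ _ := by nlinarith
  exact hcard.trans (mul_le_mul_of_nonneg_right hT4 hM)

end Vale.Agent.N018.H
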