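import Vale.Agent.N018.H.Def

/-! # P018, pair (6,3): package D (the points of a box lie on few hyperplanes). -/

namespace Vale.Agent.N018.H

open Finset

namespace D

/-- the number of coefficient vectors -/
def Nn {r : ℕ} (B : Fin r → ℕ) (a : ℕ) : ℕ := ∏ i, (a / B i + 1)

theorem Nn_succ {r : ℕ} (B : Fin r → ℕ) (a : ℕ) : Nn B (a + 1) ≤ 2 ^ r * Nn B a := by
  unfold Nn
  have h : ∏ i, ((a + 1) / B i + 1) ≤ ∏ i : Fin r, (2 * (a / B i + 1)) := by
    refine Finset.prod_le_prod' fun i _ => ?_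
    have : (a + 1) / B i ≤ a / B i + 1 := by
      rw [Nat.succ_div]
      split_ifs <;> omega
    generalize (a + 1) / B i = x at this
    generalize a / B i = y at this
    omega
  rw [Finset.prod_mul_distrib] at h
  simpa using h

theorem Nn_zero {r : ℕ} (B : Fin r → ℕ) : Nn B 0 = 1 := by simp [Nn]

theorem Nn_ge {r : ℕ} (B : Fin r → ℕ) (hB : ∀ i, 1 ≤ B i) (a : ℕ) :
    (a + 1) ^ r ≤ (∏ i, B i) * Nn B a := by
  unfold Nn
  rw [← Finset.prod_mul_distrib]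
  have h : ∏ _i : Fin r, (a + 1) ≤ ∏ i, B i * (a / B i + 1) :=
    Finset.prod_le_prod' fun i _ => Nat.lt_mul_div_succ a (hB i)
  simpa using h

theorem start {s : ℕ} (hs : 1 ≤ s) (B : Fin (s + 1) → ℕ) (A : ℝ) (hA : 1 ≤ A)
    (hB : ∀ i, 1 ≤ B i) (hP : ∏ i, (B i : ℝ) ≤ A ^ s) :
    2 * (s + 1) * ((2 * s + 3) * ⌈A⌉₊) + 1 < Nn B ((2 * s + 3) * ⌈A⌉₊) := by
  set a := (2 * s + 3) * ⌈A⌉₊ with ha
  have h1 : ((a : ℝ) + 1) ^ (s + 1) ≤ (∏ i, (B i : ℝ)) * Nn B a := by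
    exact_mod_cast Nn_ge B hB a
  have hs0 : (0 : ℝ) ≤ s := Nat.cast_nonneg s
  have h2 : (2 * s + 3) * A ≤ (a : ℝ) + 1 := by
    have := Nat.le_ceil A
    rw [ha]
    push_cast
    nlinarith
  have h3 : ((2 * s + 3) * A) ^ s ≤ ((a : ℝ) + 1) ^ s := pow_le_pow_left₀ (by positivity) h2 s
  have h4 : (2 * s + 3 : ℝ) ≤ (2 * s + 3) ^ s := le_self_pow₀ (by linarith) (by omega)
  have hAs : 0 < A ^ s := by positivity
  have h5 : (2 * s + 3) * A ^ s ≤ ((a : ℝ) + 1) ^ s := by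
    rw [mul_pow] at h3
    exact (mul_le_mul_of_nonneg_right h4 hAs.le).trans h3
  have ha0 : (0 : ℝ) ≤ a := Nat.cast_nonneg a
  have h6 : A ^ s * ((2 * s + 3) * (a + 1)) ≤ A ^ s * Nn B a := by
    calc A ^ s * ((2 * s + 3) * (a + 1)) = (2 * s + 3) * A ^ s * (a + 1) := by ring
      _ ≤ ((a : ℝ) + 1) ^ s * (a + 1) := mul_le_mul_of_nonneg_right h5 (by linarith)
      _ = ((a : ℝ) + 1) ^ (s + 1) := by ring
      _ ≤ _ := h1
      _ ≤ _ := mul_le_mul_of_nonneg_right hP (Nat.cast_nonneg _)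
  have h7 : (2 * s + 3) * (a + 1) ≤ Nn B a := by
    have := le_of_mul_le_mul_left h6 hAs
    exact_mod_cast this
  nlinarith

theorem pigeon {r : ℕ} (B : Fin r → ℕ) (a : ℕ) (h : 2 * r * a + 1 < Nn B a) (u : V r)
    (hu : ∀ i, |u i| ≤ B i) :
    ∃ c : V r, c ≠ 0 ∧ (∀ i, |c i| ≤ ((a / B i : ℕ) : ℤ)) ∧ ∑ i, c i * u i = 0 := by
  classical
  have hmap : ∀ c ∈ Fintype.piFinset fun i => range (a / B i + 1),
      (∑ i, (c i : ℤ) * u i) ∈ Icc (-((r * a : ℕ) : ℤ)) ((r * a : ℕ) : ℤ) := by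
    intro c hc
    rw [mem_Icc, ← abs_le]
    refine (Finset.abs_sum_le_sum_abs _ _).trans ?_
    have : ∀ i ∈ (univ : Finset (Fin r)), |(c i : ℤ) * u i| ≤ (a : ℤ) := by
      intro i _
      have h1 : c i ≤ a / B i := Nat.lt_succ_iff.1 (mem_range.1 (Fintype.mem_piFinset.1 hc i))
      have h2 : c i * B i ≤ a := (Nat.mul_le_mul_right _ h1).trans (Nat.div_mul_le_self a (B i))
      rw [abs_mul, Nat.abs_cast]
      calc (c i : ℤ) * |u i| ≤ c i * B i := mul_le_mul_of_nonneg_left (hu i) (Nat.cast_nonneg _)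
        _ ≤ a := by exact_mod_cast h2
    refine (Finset.sum_le_card_nsmul _ _ _ this).trans (le_of_eq ?_)
    simp
  have hcard : (Icc (-((r * a : ℕ) : ℤ)) ((r * a : ℕ) : ℤ)).card <
      (Fintype.piFinset fun i => range (a / B i + 1)).card := by
    rw [Fintype.card_piFinset, Int.card_Icc]
    simp only [card_range]
    have e : (((r * a : ℕ) : ℤ) + 1 - -((r * a : ℕ) : ℤ)).toNat = 2 * r * a + 1 := by
      have : 2 * r * a = 2 * (r * a) := by ring
      omega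
    rw [e]
    exact h
  obtain ⟨c, hc, c', hc', hne, he⟩ := Finset.exists_ne_map_eq_of_card_lt_of_maps_to hcard hmap
  refine ⟨fun i => (c i : ℤ) - c' i, ?_, fun i => ?_, ?_⟩
  · intro e0
    apply hne
    funext i
    have := congrFun e0 i
    simp only [Pi.zero_apply] at this
    omega
  · have h1 : c i ≤ a / B i := Nat.lt_succ_iff.1 (mem_range.1 (Fintype.mem_piFinset.1 hc i))
    have h2 : c' i ≤ a / B i := Nat.lt_succ_iff.1 (mem_range.1 (Fintype.mem_piFinset.1 hc' i))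
    rw [abs_le]
    beta_reduce
    constructor <;> omega
  · simp only [sub_mul, Finset.sum_sub_distrib]
    exact sub_eq_zero.2 he

end D

open D

theorem siegelS : SiegelS := by
  intro s hs
  classical
  have hs0 : (0 : ℝ) ≤ s := Nat.cast_nonneg s
  refine ⟨4 ^ (s + 1) * ((2 * s + 3) * (2 * s + 3) * 2), ?_, ?_⟩
  · have h1 : (1 : ℝ) ≤ 4 ^ (s + 1) := one_le_pow₀ (by norm_num)
    have h2 : (1 : ℝ) ≤ (2 * s + 3) * (2 * s + 3) * 2 := by nlinarith
    exact one_le_mul_of_one_le_of_one_le h1 h2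
  intro B A hA hB hP
  have hex : ∃ a, 2 * (s + 1) * a + 1 < Nn B a := ⟨_, start hs B A hA hB hP⟩
  have hsp := Nat.find_spec hex
  have hle : Nat.find hex ≤ (2 * s + 3) * ⌈A⌉₊ := Nat.find_min' hex (start hs B A hA hB hP)
  obtain ⟨a, ha⟩ : ∃ a, Nat.find hex = a + 1 := by
    rcases h0 : Nat.find hex with _ | a
    · rw [h0, Nn_zero] at hsp
      omega
    · exact ⟨a, rfl⟩
  have hmin : Nn B a ≤ 2 * (s + 1) * a + 1 := not_lt.1 (Nat.find_min hex (by omega))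
  rw [ha] at hsp hle
  refine ⟨((Fintype.piFinset fun i => Icc (-(((a + 1) / B i : ℕ) : ℤ)) (((a + 1) / B i : ℕ) : ℤ)).image
    fun (c : V (s + 1)) i => (c i : ℚ)).erase 0, notMem_erase _ _, ?_, fun u hu => ?_⟩
  · have h1 : (((Fintype.piFinset fun i =>
        Icc (-(((a + 1) / B i : ℕ) : ℤ)) (((a + 1) / B i : ℕ) : ℤ)).image
        fun (c : V (s + 1)) i => (c i : ℚ)).erase 0).card ≤ 2 ^ (s + 1) * Nn B (a + 1) := by
      refine card_erase_le.trans (card_image_le.trans ?_)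
      rw [Fintype.card_piFinset]
      have h : ∏ i, (Icc (-(((a + 1) / B i : ℕ) : ℤ)) (((a + 1) / B i : ℕ) : ℤ)).card ≤
          ∏ i : Fin (s + 1), (2 * ((a + 1) / B i + 1)) := by
        refine Finset.prod_le_prod' fun i _ => ?_
        rw [Int.card_Icc]
        omega
      rw [Finset.prod_mul_distrib] at h
      simpa [Nn] using h
    have h2 : 2 ^ (s + 1) * Nn B (a + 1) ≤ 4 ^ (s + 1) * ((2 * s + 3) * ((2 * s + 3) * ⌈A⌉₊)) := by
      have h3 : Nn B a ≤ (2 * s + 3) * ((2 * s + 3) * ⌈A⌉₊) := by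
        refine hmin.trans (le_trans ?_ (Nat.mul_le_mul_left _ hle))
        nlinarith
      calc 2 ^ (s + 1) * Nn B (a + 1) ≤ 2 ^ (s + 1) * (2 ^ (s + 1) * Nn B a) :=
            Nat.mul_le_mul_left _ (Nn_succ B a)
        _ = 4 ^ (s + 1) * Nn B a := by rw [← mul_assoc, ← mul_pow]; norm_num
        _ ≤ _ := Nat.mul_le_mul_left _ h3
    have h4 : (⌈A⌉₊ : ℝ) ≤ 2 * A := by
      have := Nat.ceil_lt_add_one (zero_le_one.trans hA)
      linarith
    refine le_trans (Nat.cast_le.2 (h1.trans h2)) ?_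
    push_cast
    have h5 : (0 : ℝ) ≤ 4 ^ (s + 1) * ((2 * s + 3) * (2 * s + 3)) := by positivity
    nlinarith [mul_le_mul_of_nonneg_left h4 h5]
  · obtain ⟨c, c0, c1, c2⟩ := pigeon B (a + 1) hsp u hu
    refine ⟨fun i => (c i : ℚ), mem_erase.2 ⟨?_, mem_image.2 ⟨c, ?_, rfl⟩⟩, ?_⟩
    · intro e0
      apply c0
      funext i
      have := congrFun e0 i
      simpa using this
    · exact Fintype.mem_piFinset.2 fun i => mem_Icc.2 (abs_le.1 (c1 i))
    · unfold dq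
      beta_reduce
      exact_mod_cast c2

end Vale.Agent.N018.H
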