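import Vale.Agent.N018.H.Hf

/-! # P018, pair (6,3): package F (points on surface-like sets). -/

namespace Vale.Agent.N018.H

open Finset

namespace F

variable {n : ℕ}

/-- three indices with a small product -/
theorem three (Q : ℝ) (hQ : 1 ≤ Q) (r : ℕ) : ∀ B : Fin (r + 3) → ℝ, (∀ i, 1 ≤ B i) →
    ∏ i, B i ≤ Q ^ (r + 3) → ∃ e : Fin 3 → Fin (r + 3), Function.Injective e ∧
      ∏ k, B (e k) ≤ Q ^ 3 := by
  induction r with
  | zero => exact fun B _ h => ⟨id, Function.injective_id, h⟩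
  | succ r ih =>
    intro B h1 h
    by_cases hb : ∃ i, Q ≤ B i
    · obtain ⟨i, hi⟩ := hb
      rw [Fin.prod_univ_succAbove B i] at h
      have hp : 0 ≤ ∏ j : Fin (r + 3), B (i.succAbove j) :=
        Finset.prod_nonneg fun j _ => zero_le_one.trans (h1 _)
      have h2 : ∏ j : Fin (r + 3), B (i.succAbove j) ≤ Q ^ (r + 3) := by
        have h3 : Q * ∏ j : Fin (r + 3), B (i.succAbove j) ≤ Q * Q ^ (r + 3) := by
          refine (mul_le_mul_of_nonneg_right hi hp).trans (h.trans (le_of_eq ?_))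
          ring
        exact le_of_mul_le_mul_left h3 (by linarith)
      obtain ⟨e, he, h4⟩ := ih (fun j => B (i.succAbove j)) (fun j => h1 _) h2
      exact ⟨fun k => i.succAbove (e k), Fin.succAbove_right_injective.comp he, h4⟩
    · push Not at hb
      refine ⟨Fin.castLE (by omega), Fin.castLE_injective _, ?_⟩
      have := Finset.prod_le_prod (s := (univ : Finset (Fin 3)))
        (f := fun k => B (Fin.castLE (by omega) k)) (g := fun _ => Q)
        (fun k _ => zero_le_one.trans (h1 _)) (fun k _ => (hb _).le)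
      simpa using this

/-- hyperplanes in the coordinates `a (e k)` give hyperplanes which do not contain `T` -/
theorem forms {r s : ℕ} {T : Finset (V n)} (a : Fin r → V n) (e : Fin s → Fin r)
    (he : Function.Injective e)
    (hind : ∀ c : Fin r → ℚ, c ≠ 0 → ∃ y ∈ T, ∑ i, c i * (dz (a i) y : ℚ) ≠ 0)
    (𝒞 : Finset (Fin s → ℚ)) (h0 : (0 : Fin s → ℚ) ∉ 𝒞)
    (hcov : ∀ y ∈ T, ∃ c ∈ 𝒞, dq c (fun k => dz (a (e k)) y) = 0) :
    ∃ 𝒜 : Finset (Fin n → ℚ), 𝒜.card ≤ 𝒞.card ∧ (∀ y ∈ T, ∃ h ∈ 𝒜, dq h y = 0) ∧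
      ∀ h ∈ 𝒜, ∃ y ∈ T, dq h y ≠ 0 := by
  classical
  let g : (Fin s → ℚ) → Fin n → ℚ := fun c j => ∑ k, c k * (a (e k) j : ℚ)
  have hg : ∀ c y, dq (g c) y = dq c (fun k => dz (a (e k)) y) := by
    intro c y
    simp only [dq, g, dz, Finset.sum_mul, Int.cast_sum, Int.cast_mul, Finset.mul_sum]
    rw [Finset.sum_comm]
    refine Finset.sum_congr rfl fun k _ => Finset.sum_congr rfl fun j _ => ?_
    ring
  refine ⟨𝒞.image g, card_image_le, fun y hy => ?_, fun h hh => ?_⟩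
  · obtain ⟨c, hc, e0⟩ := hcov y hy
    exact ⟨g c, mem_image_of_mem g hc, (hg c y).trans e0⟩
  · obtain ⟨c, hc, rfl⟩ := mem_image.1 hh
    have hc0 : c ≠ 0 := fun e0 => h0 (e0 ▸ hc)
    let c' : Fin r → ℚ := fun i => ∑ k, if e k = i then c k else 0
    have hc' : ∀ k, c' (e k) = c k := by
      intro k
      simp only [c', he.eq_iff]
      simp
    have hc'0 : c' ≠ 0 := by
      intro e0
      apply hc0
      funext k
      rw [← hc' k, e0]
      rfl
    obtain ⟨y, hy, hne⟩ := hind c' hc'0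
    refine ⟨y, hy, ?_⟩
    rw [hg]
    intro e0
    apply hne
    rw [← e0]
    simp only [c', Finset.sum_mul, dq]
    rw [Finset.sum_comm]
    refine Finset.sum_congr rfl fun k _ => ?_
    simp [ite_mul]

/-- the exponents of the monomials of degree `2 m` which are used -/
noncomputable def ex (m : ℕ) (p : Fin (m + 1) × Fin (m + 1)) : Fin 3 →₀ ℕ :=
  Finsupp.equivFunOnFinite.symm ![(p.1 : ℕ), (p.2 : ℕ), m + m - p.1 - p.2]

theorem ex_inj (m : ℕ) : Function.Injective (ex m) := by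
  intro p q h
  have h0 := congrArg (fun f : Fin 3 →₀ ℕ => f 0) h
  have h1 := congrArg (fun f : Fin 3 →₀ ℕ => f 1) h
  simp only [ex, Finsupp.equivFunOnFinite_symm_apply_apply, Matrix.cons_val_zero,
    Matrix.cons_val_one] at h0 h1
  exact Prod.ext (Fin.ext h0) (Fin.ext h1)

theorem ex_sum (m : ℕ) (p : Fin (m + 1) × Fin (m + 1)) : ∑ k, ex m p k = m + m := by
  have h1 := p.1.2
  have h2 := p.2.2
  simp only [ex, Finsupp.equivFunOnFinite_symm_apply_apply, Fin.sum_univ_three,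
    Matrix.cons_val_zero, Matrix.cons_val_one, Matrix.cons_val]
  omega

/-- a plane curve through the image of a thin set -/
theorem curve (hK : KerS) (m : ℕ) (T : Finset (V n)) (b : Fin 3 → V n)
    (hT : Thin (m + m) ((m + 1) ^ 2 - 1) T) :
    ∃ G : MvPolynomial (Fin 3) ℚ, G ≠ 0 ∧ G.IsHomogeneous (m + m) ∧
      ∀ y ∈ T, MvPolynomial.eval (fun k => ((dz (b k) y : ℤ) : ℚ)) G = 0 := by
  classical
  obtain ⟨t, ht0, ht⟩ := hK n (m + m) ((m + 1) ^ 2 - 1) T (Fin (m + 1) × Fin (m + 1))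
    (fun p => ∏ k, (fun y : V n => ((dz (b k) y : ℤ) : ℚ)) ^ ex m p k) hT
    (by
      rw [Fintype.card_prod, Fintype.card_fin, ← sq]
      have : 0 < (m + 1) ^ 2 := by positivity
      omega)
    (fun p => by
      have h1 := HP_prod univ (fun k => (fun y : V n => ((dz (b k) y : ℤ) : ℚ)) ^ ex m p k)
        (fun k => 1 * ex m p k) (fun k _ => HP_pow (HP_dz (b k)) _)
      simpa only [one_mul, ex_sum] using h1)
  refine ⟨∑ p, MvPolynomial.monomial (ex m p) (t p), ?_, ?_, ?_⟩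
  · intro e0
    apply ht0
    funext p
    have := congrArg (MvPolynomial.coeff (ex m p)) e0
    rw [MvPolynomial.coeff_sum, Finset.sum_eq_single p] at this
    · simpa using this
    · intro q _ hq
      rw [MvPolynomial.coeff_monomial, if_neg fun h => hq (ex_inj m h)]
    · intro h
      exact absurd (mem_univ p) h
  · refine MvPolynomial.IsHomogeneous.sum _ _ _ fun p _ => ?_
    refine MvPolynomial.isHomogeneous_monomial _ ?_
    rw [Finsupp.degree_eq_sum]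
    exact ex_sum m p
  · intro y hy
    rw [map_sum, ← ht y hy]
    refine Finset.sum_congr rfl fun p _ => ?_
    rw [MvPolynomial.eval_monomial, Finsupp.prod_fintype _ _ (fun _ => pow_zero _),
      Finset.prod_apply]
    rfl

/-- points on curve-like sets -/
theorem cur (h1 : SliceS) (h2 : NpS) (h3 : KerS) (h4 : RkS) (h6 : JarnikS) (n m ρ : ℕ) :
    ∃ C : ℝ, 1 ≤ C ∧ ∀ (S : Finset (V n)) (NL : ℝ) (Q : ℕ → ℝ), NP S → 1 ≤ NL → Monotone Q →
      (∀ ρ, 0 ≤ Q ρ) → (∀ ρ, 3 ≤ ρ → 1 ≤ Q ρ) → (∀ T ⊆ S, rk T ≤ 2 → (T.card : ℝ) ≤ NL) →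
      (∀ T ⊆ S, 3 ≤ rk T → Box (rk T) (Q (rk T) ^ rk T) T) →
      ∀ T ⊆ S, rk T ≤ ρ → Thin (m + m) ((m + 1) ^ 2 - 1) T → (T.card : ℝ) ≤ C * (NL + Q ρ) := by
  classical
  induction ρ with
  | zero =>
    refine ⟨1, le_rfl, fun S NL Q _ _ _ hQ0 _ hL _ T hT hr _ => ?_⟩
    have := hL T hT (by omega)
    have := hQ0 0
    linarith
  | succ ρ ih =>
    obtain ⟨C, hC, ih⟩ := ih
    obtain ⟨CJ, hCJ, hJ⟩ := h6 (m + m)
    have hm : (0 : ℝ) ≤ m := Nat.cast_nonneg m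
    have e1 : 0 ≤ CJ * m := mul_nonneg (by linarith) hm
    have e2 : 0 ≤ m * C := mul_nonneg hm (by linarith)
    refine ⟨C + CJ * m + m * C, by linarith, ?_⟩
    intro S NL Q hNP hNL hQm hQ0 hQ1 hL hB T hT hr hth
    have q0 := hQ0 ρ
    have q1 : Q ρ ≤ Q (ρ + 1) := hQm (Nat.le_succ ρ)
    have e3 : C * (NL + Q ρ) ≤ C * (NL + Q (ρ + 1)) :=
      mul_le_mul_of_nonneg_left (by linarith) (by linarith)
    have e4 : 0 ≤ NL + Q (ρ + 1) := by linarith
    by_cases hle : rk T ≤ ρ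
    · have := ih S NL Q hNP hNL hQm hQ0 hQ1 hL hB T hT hle hth
      nlinarith [mul_nonneg e1 e4, mul_nonneg e2 e4]
    have hrk : rk T = ρ + 1 := by omega
    by_cases h2' : rk T ≤ 2
    · have := hL T hT h2'
      have e5 : 1 * (NL + Q (ρ + 1)) ≤ C * (NL + Q (ρ + 1)) := mul_le_mul_of_nonneg_right hC e4
      nlinarith [mul_nonneg e1 e4, mul_nonneg e2 e4]
    obtain ⟨r, hr3⟩ : ∃ r, ρ + 1 = r + 3 := ⟨ρ - 2, by omega⟩
    have hb := hB T hT (by omega)
    rw [hrk, hr3] at hb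
    obtain ⟨a, B, b1, b2, b3, b4⟩ := hb
    have hQ : 1 ≤ Q (r + 3) := hQ1 _ (by omega)
    obtain ⟨e, he, hp⟩ := three (Q (r + 3)) hQ r (fun i => (B i : ℝ))
      (fun i => by exact_mod_cast b1 i) b3
    obtain ⟨G, g0, g1, g2⟩ := curve h3 m T (fun k => a (e k)) hth
    obtain ⟨𝒞, c0, c1, c2⟩ := hJ (fun k => B (e k)) (Q (r + 3))
      (T.image fun y k => dz (a (e k)) y) G hQ (fun k => b1 _) hp
      (fun u hu k => by
        obtain ⟨y, hy, rfl⟩ := mem_image.1 hu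
        exact b2 y hy _) g0 g1
      (fun u hu => by
        obtain ⟨y, hy, rfl⟩ := mem_image.1 hu
        exact g2 y hy)
    obtain ⟨𝒜, a1, a2, a3⟩ := forms a e he b4 𝒞 c0
      (fun y hy => c2 _ (mem_image_of_mem (fun y k => dz (a (e k)) y) hy))
    have hsl := h1 n m m m (C * (NL + Q ρ)) hm (mul_nonneg (by linarith) (by linarith)) 𝒜 m
      ((m + 1) ^ 2 - 1) T (hNP.mono hT).1
      (by
        have : 0 < (m + 1) ^ 2 := by positivity
        rw [← sq]
        omega) hth a2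
      (fun h hh T' hT' hz => ⟨fun ht => by exact_mod_cast h2 n m T' (hNP.mono (hT'.trans hT)) ht,
        ih S NL Q hNP hNL hQm hQ0 hQ1 hL hB T' (hT'.trans hT)
          (by
            have := (h4 n).1 T T' h hT' hz (a3 h hh)
            omega) (hth.mono hT')⟩)
    have a1' : (𝒜.card : ℝ) ≤ CJ * Q (ρ + 1) := by
      rw [hr3]
      exact le_trans (by exact_mod_cast a1) c1
    have e6 : (𝒜.card : ℝ) * m ≤ CJ * m * (NL + Q (ρ + 1)) := by
      have := mul_le_mul_of_nonneg_right a1' hm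
      nlinarith [mul_nonneg e1 (zero_le_one.trans hNL)]
    have e7 : (m : ℝ) * (C * (NL + Q ρ)) ≤ m * (C * (NL + Q (ρ + 1))) :=
      mul_le_mul_of_nonneg_left e3 hm
    nlinarith [mul_nonneg (zero_le_one.trans hC) e4]

/-- points on surface-like sets -/
theorem sur (h1 : SliceS) (h2 : NpS) (h3 : KerS) (h4 : RkS) (h5 : SiegelS) (h6 : JarnikS)
    (n m ρ : ℕ) : ∃ C : ℝ, 1 ≤ C ∧ ∀ (S : Finset (V n)) (NL Z : ℝ) (A Q : ℕ → ℝ)
    (M : ℕ), NP S → 1 ≤ NL → NL ≤ Z → Monotone Q → (∀ ρ, 0 ≤ Q ρ) → (∀ ρ, 3 ≤ ρ → 1 ≤ Q ρ) →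
    (∀ ρ, 1 ≤ A ρ) → (∀ T ⊆ S, rk T ≤ 2 → (T.card : ℝ) ≤ NL) →
    (∀ T ⊆ S, 3 ≤ rk T → Box (rk T) (min (A (rk T) ^ (rk T - 1)) (Q (rk T) ^ rk T)) T) →
    (∀ ρ, 3 ≤ ρ → ρ ≤ rk S → A ρ * (NL + Q (ρ - 1)) ≤ Z) →
    M < (2 * m + 1) * (m + 1) ^ 2 → Thin (4 * m) M S →
    ∀ T ⊆ S, rk T ≤ ρ → (T.card : ℝ) ≤ C * Z := by
  classical
  induction ρ with
  | zero =>
    refine ⟨1, le_rfl, fun S NL Z A Q M _ _ hZ _ _ _ _ hL _ _ _ _ T hT hr => ?_⟩
    have := hL T hT (by omega)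
    linarith
  | succ ρ ih =>
    obtain ⟨C, hC, ih⟩ := ih
    obtain ⟨Cc, hCc, hc⟩ := cur h1 h2 h3 h4 h6 n m ρ
    obtain ⟨CS, hCS, hS⟩ := h5 (ρ - 1 + 1) (by omega)
    have hm : (0 : ℝ) ≤ m := Nat.cast_nonneg m
    have e1 : 0 ≤ CS * Cc := mul_nonneg (by linarith) (by linarith)
    have e2 : 0 ≤ (m + m) * C := mul_nonneg (by linarith) (by linarith)
    refine ⟨C + CS * Cc + (m + m) * C, by linarith, ?_⟩
    intro S NL Z A Q M hNP hNL hZ hQm hQ0 hQ1 hA hL hB hAZ hM hth T hT hr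
    have e4 : 0 ≤ Z := by linarith
    by_cases hle : rk T ≤ ρ
    · have := ih S NL Z A Q M hNP hNL hZ hQm hQ0 hQ1 hA hL hB hAZ hM hth T hT hle
      nlinarith [mul_nonneg e1 e4, mul_nonneg e2 e4]
    have hrk : rk T = ρ + 1 := by omega
    by_cases h2' : rk T ≤ 2
    · have := hL T hT h2'
      have e5 : 1 * Z ≤ C * Z := mul_le_mul_of_nonneg_right hC e4
      nlinarith [mul_nonneg e1 e4, mul_nonneg e2 e4]
    obtain ⟨r, rfl⟩ : ∃ r, ρ = r + 1 := ⟨ρ - 1, by omega⟩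
    have hb := (hB T hT (by omega)).le (min_le_left _ _)
    rw [hrk] at hb
    obtain ⟨a, B, b1, b2, b3, b4⟩ := hb
    obtain ⟨𝒞, c0, c1, c2⟩ := hS B (A (r + 1 + 1)) (hA _) b1 b3
    obtain ⟨𝒜, a1, a2, a3⟩ := forms a id Function.injective_id b4 𝒞 c0
      (fun y hy => c2 _ fun i => b2 y hy i)
    have q0 := hQ0 (r + 1)
    have hth' : Thin (m + m + (m + m)) M T := by
      have e : m + m + (m + m) = 4 * m := by ring
      rw [e]
      exact hth.mono hT
    have hsl := h1 n (m + m) ((m + 1) ^ 2 - 1) (Cc * (NL + Q (r + 1))) (C * Z)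
      (mul_nonneg (by linarith) (by linarith)) (mul_nonneg (by linarith) e4) 𝒜 (m + m) M T
      (hNP.mono hT).1
      (by
        have : 0 < (m + 1) ^ 2 := by positivity
        rw [Nat.sub_add_cancel this, ← two_mul]
        exact hM) hth' a2
      (fun h hh T' hT' hz => by
        have hr' : rk T' ≤ r + 1 := by
          have := (h4 n).1 T T' h hT' hz (a3 h hh)
          omega
        exact ⟨fun ht => hc S NL Q hNP hNL hQm hQ0 hQ1 hL
            (fun T hT h3 => (hB T hT h3).le (min_le_right _ _)) T' (hT'.trans hT) hr' ht,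
          ih S NL Z A Q M hNP hNL hZ hQm hQ0 hQ1 hA hL hB hAZ hM hth T' (hT'.trans hT) hr'⟩)
    have a1' : (𝒜.card : ℝ) ≤ CS * A (r + 1 + 1) := le_trans (by exact_mod_cast a1) c1
    have hz := hAZ (r + 1 + 1) (by omega) (hrk ▸ rk_mono hT)
    rw [Nat.add_sub_cancel] at hz
    have e6 : (𝒜.card : ℝ) * (Cc * (NL + Q (r + 1))) ≤ CS * Cc * Z := by
      have t1 := mul_le_mul_of_nonneg_right a1'
        (mul_nonneg (zero_le_one.trans hCc) (add_nonneg (zero_le_one.trans hNL) q0))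
      have t2 := mul_le_mul_of_nonneg_left hz e1
      nlinarith
    push_cast at hsl
    nlinarith [mul_nonneg (zero_le_one.trans hC) e4]

end F

theorem endS' (h1 : SliceS) (h2 : NpS) (h3 : KerS) (h4 : RkS) (h5 : SiegelS) (h6 : JarnikS) :
    EndS := by
  intro n m
  obtain ⟨C, hC, h⟩ := F.sur h1 h2 h3 h4 h5 h6 n m n
  exact ⟨C, hC, fun S NL Z A Q M a1 a2 a3 a4 a5 a6 a7 a8 a9 a10 a11 a12 =>
    h S NL Z A Q M a1 a2 a3 a4 a5 a6 a7 a8 a9 a10 a11 a12 S subset_rfl (rk_le S)⟩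

theorem endS (h5 : SiegelS) (h6 : JarnikS) : EndS := endS' sliceS npS kerS rkS h5 h6

end Vale.Agent.N018.H
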