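import Vale.Agent.N018.H.Def2

/-! # P018, pair (6,3): the criterion from the numerical check. -/

namespace Vale.Agent.N018.H

open Finset Vale.Agent.P018 Vale.Agent.P018.K

namespace J

theorem pow_sum (m Z : ℕ) : (Z : ℝ) ^ (m + 1) / (m + 1) ≤ ∑ x ∈ range (Z + 1), (x : ℝ) ^ m := by
  induction Z with
  | zero =>
    rw [Nat.cast_zero, zero_pow (Nat.succ_ne_zero m), zero_div]
    positivity
  | succ Z ih =>
    rw [sum_range_succ]
    have h := family_pow_sub_le ((Z + 1 : ℕ) : ℝ) Z (Nat.cast_nonneg Z) (by push_cast; linarith) m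
    have e : ((Z + 1 : ℕ) : ℝ) - Z = 1 := by push_cast; ring
    rw [e, mul_one] at h
    have hm : (0 : ℝ) < m + 1 := by positivity
    rw [div_le_iff₀ hm] at ih ⊢
    linarith

theorem list_sum (f : ℕ → ℚ) (n : ℕ) : ((List.range n).map f).sum = ∑ i ∈ range n, f i := by
  induction n with
  | zero => simp
  | succ n ih => rw [List.range_succ, List.map_append, List.sum_append, ih, sum_range_succ]; simp

/-- the upper bound, level by level -/
theorem upper (s : ℕ) (b Λ : ℝ) (hb : 0 < b) (A : ℕ → Finset (Fin s → ℕ)) (n : ℕ) :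
    ∑ t ∈ range n, ∑ α ∈ A t, ((t : ℝ) - Λ - b * ∑ i, (α i : ℝ)) ≤
      (max (n - Λ + s * b) 0) ^ (s + 2) / ((s + 2).factorial * b ^ s) := by
  induction n with
  | zero =>
    rw [sum_range_zero]
    positivity
  | succ n ih =>
    rw [sum_range_succ]
    have hs : (0 : ℝ) ≤ s * b := by positivity
    rcases le_total 0 ((n : ℝ) - Λ) with h | h
    · have h1 := upper_sum s b (n - Λ) hb h (A n)
      have h2 := family_le_pow_sub (n - Λ + s * b + 1) (n - Λ + s * b) (by linarith) (by linarith)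
        (s + 1)
      have e : ((n + 1 : ℕ) : ℝ) - Λ + s * b = n - Λ + s * b + 1 := by push_cast; ring
      rw [max_eq_left (by linarith)] at ih
      rw [e, max_eq_left (by linarith)]
      refine (add_le_add ih h1).trans ?_
      have hf : ((s + 2).factorial : ℝ) = (s + 2) * (s + 1).factorial := by
        rw [Nat.factorial_succ (s + 1)]; push_cast; ring
      have e2 : (n - Λ + s * b) ^ (s + 1) / ((s + 1).factorial * b ^ s) =
          ((s + 2) * (n - Λ + s * b) ^ (s + 1)) / ((s + 2).factorial * b ^ s) := by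
        rw [hf]; field_simp
      rw [e2, ← add_div]
      refine div_le_div_of_nonneg_right ?_ (by positivity)
      push_cast at h2
      have e3 : (s : ℝ) + 1 + 1 = s + 2 := by ring
      rw [e3, add_sub_cancel_left, mul_one] at h2
      linarith
    · have h1 : ∑ α ∈ A n, ((n : ℝ) - Λ - b * ∑ i, (α i : ℝ)) ≤ 0 :=
        sum_nonpos fun α _ => by
          have : 0 ≤ b * ∑ i, (α i : ℝ) := by positivity
          linarith
      refine (add_le_add ih h1).trans ?_
      rw [add_zero]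
      refine div_le_div_of_nonneg_right (pow_le_pow_left₀ (le_max_right _ _)
        (max_le_max_right _ ?_) _) (by positivity)
      push_cast
      linarith

theorem upper' (s N : ℕ) (b Λ : ℝ) (hb : 0 < b) (hΛ : Λ ≤ N) (T' : Finset (ℕ × (Fin s → ℕ)))
    (hT' : ∀ τ ∈ T', τ.1 ≤ N) : ∑ τ ∈ T', ((τ.1 : ℝ) - Λ - b * ∑ i, (τ.2 i : ℝ)) ≤
      (N - Λ + s * b + 1) ^ (s + 2) / ((s + 2).factorial * b ^ s) := by
  have h1 := Finset.sum_finset_product T' (Finset.range (N + 1))
    (fun t => (T'.filter fun τ => τ.1 = t).image Prod.snd)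
    (by
      rintro ⟨t, α⟩
      simp only [Finset.mem_range, Finset.mem_image, Finset.mem_filter, Prod.exists]
      constructor
      · intro hp
        exact ⟨Nat.lt_succ_iff.2 (hT' _ hp), t, α, ⟨hp, rfl⟩, rfl⟩
      · rintro ⟨-, t', α', ⟨hp, rfl⟩, rfl⟩
        exact hp)
    (f := fun τ : ℕ × (Fin s → ℕ) => ((τ.1 : ℝ) - Λ - b * ∑ i, (τ.2 i : ℝ)))
  rw [h1]
  refine (upper s b Λ hb _ (N + 1)).trans_eq ?_
  have hs : (0 : ℝ) ≤ s * b := by positivity
  have e : ((N + 1 : ℕ) : ℝ) - Λ + s * b = N - Λ + s * b + 1 := by push_cast; ring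
  rw [e, max_eq_left (by linarith)]

/-- the index set of one level -/
def idx (r K Z : ℕ) : Finset (Σ _ : Finset (Fin r), Σ _ : ℕ, (Fin r → ℕ) × (Fin r → ℕ)) :=
  univ.sigma fun J => ((range (K + Z + 1)).filter fun n => K ≤ n + J.card).sigma fun n =>
    piAntidiag J n ×ˢ piAntidiag Jᶜ (n + J.card - K)

theorem idx_mem {r K Z : ℕ} {x} (hx : x ∈ idx r K Z) : x.2.1 ≤ K + Z ∧ K ≤ x.2.1 + x.1.card ∧
    ∑ i ∈ x.1, x.2.2.1 i = x.2.1 ∧ (∀ i ∉ x.1, x.2.2.1 i = 0) ∧
    ∑ i ∈ x.1ᶜ, x.2.2.2 i = x.2.1 + x.1.card - K ∧ ∀ i ∉ x.1ᶜ, x.2.2.2 i = 0 := by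
  rw [idx, mem_sigma, mem_sigma, mem_filter, mem_range, mem_product, mem_piAntidiag,
    mem_piAntidiag] at hx
  obtain ⟨-, ⟨h1, h2⟩, ⟨h3, h4⟩, h5, h6⟩ := hx
  exact ⟨by omega, h2, h3, fun i hi => by_contra fun h => hi (h4 i h), h5,
    fun i hi => by_contra fun h => hi (h6 i h)⟩

/-- the exponents of one level -/
def lev (r K Z : ℕ) : Finset (Fin r → ℤ) :=
  (idx r K Z).image fun x => family_e x.1 x.2.2.1 x.2.2.2

theorem lev_card (r K Z : ℕ) : (lev r K Z).card = (idx r K Z).card := by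
  refine card_image_of_injOn ?_
  rintro ⟨J, n, p, c⟩ h1 ⟨J', n', p', c'⟩ h2 h
  obtain ⟨-, -, a3, a4, -, a6⟩ := idx_mem h1
  obtain ⟨-, -, b3, b4, -, b6⟩ := idx_mem h2
  simp only at a3 a4 a6 b3 b4 b6
  obtain ⟨e1, e2, e3⟩ := family_e_inj a4 b4 a6 b6 h
  subst e1 e2 e3
  have e4 : n = n' := a3.symm.trans b3
  rw [e4]

theorem lev_mem {r D y : ℕ} {e : Fin r → ℤ} (he : e ∈ lev r (3 * D) (3 * y)) :
    needs 3 e ≤ D + r + y ∧ ∑ i, e i = -((3 * D : ℕ) : ℤ) := by
  obtain ⟨x, hx, rfl⟩ := mem_image.1 he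
  obtain ⟨h1, h2, h3, -, h5, h6⟩ := idx_mem hx
  have hc := card_le_univ x.1
  rw [Fintype.card_fin] at hc
  refine ⟨family_e_needs 3 (by norm_num) _ _ _ _ (by omega) (by omega), ?_⟩
  have h7 := family_e_sum x.1 x.2.2.1 x.2.2.2 h6
  have h8 : ∑ i, x.2.2.2 i = x.2.1 + x.1.card - 3 * D := by
    rw [← h5]
    exact (sum_subset (subset_univ _) fun i _ hi => h6 i hi).symm
  have h9 : ∑ i, x.2.2.2 i + 3 * D = ∑ i ∈ x.1, x.2.2.1 i + x.1.card := by omega
  have h10 : ((∑ i, x.2.2.2 i + 3 * D : ℕ) : ℝ) = ((∑ i ∈ x.1, x.2.2.1 i + x.1.card : ℕ) : ℝ) := by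
    rw [h9]
  push_cast at h10
  have h11 : ((∑ i, family_e x.1 x.2.2.1 x.2.2.2 i : ℤ) : ℝ) = ((-((3 * D : ℕ) : ℤ) : ℤ) : ℝ) := by
    push_cast
    linarith
  exact_mod_cast h11

/-- the lower bound for the sets `J` with `k` elements -/
noncomputable def g (s K Z k : ℕ) : ℝ :=
  if k = s + 1 then ((K - s : ℕ) : ℝ) ^ s / s.factorial else if k = 0 then 0 else
    ∑ x ∈ range (Z + 1), ((x : ℝ) + K) ^ (k - 1) * (x : ℝ) ^ (s - k) /
      ((k - 1).factorial * (s - k).factorial)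

theorem g_le (s K Z : ℕ) (hK : s + 1 ≤ K) (J : Finset (Fin (s + 1))) : g s K Z J.card ≤
    ∑ n ∈ (range (K + Z + 1)).filter fun n => K ≤ n + J.card,
      ((piAntidiag J n).card : ℝ) * (piAntidiag Jᶜ (n + J.card - K)).card := by
  have hc : Jᶜ.card = s + 1 - J.card := by rw [card_compl, Fintype.card_fin]
  have hle : J.card ≤ s + 1 := by simpa using card_le_univ J
  unfold g
  split_ifs with h1 h2
  · have hJ : J.Nonempty := card_pos.1 (by omega)
    have h0 : Jᶜ = ∅ := card_eq_zero.1 (by omega)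
    have hm : K - (s + 1) ∈ (range (K + Z + 1)).filter fun n => K ≤ n + J.card := by
      rw [mem_filter, mem_range]; omega
    refine le_trans ?_ (single_le_sum (f := fun n => ((piAntidiag J n).card : ℝ) *
      (piAntidiag Jᶜ (n + J.card - K)).card)
      (fun _ _ => mul_nonneg (Nat.cast_nonneg _) (Nat.cast_nonneg _)) hm)
    have h3 := family_card J hJ (K - (s + 1))
    have e1 : K - (s + 1) + J.card - K = 0 := by omega
    have e2 : ((K - (s + 1) : ℕ) : ℝ) + 1 = ((K - s : ℕ) : ℝ) := by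
      rw [show K - s = K - (s + 1) + 1 by omega]; push_cast; ring
    show _ ≤ ((piAntidiag J (K - (s + 1))).card : ℝ) *
      (piAntidiag Jᶜ (K - (s + 1) + J.card - K)).card
    rw [e1, h0, piAntidiag_empty_zero, card_singleton, Nat.cast_one, mul_one]
    rw [h1, Nat.add_sub_cancel, e2] at h3
    rw [div_le_iff₀ (by positivity)]
    linarith
  · exact sum_nonneg fun _ _ => mul_nonneg (Nat.cast_nonneg _) (Nat.cast_nonneg _)
  · have hJ : J.Nonempty := card_pos.1 (by omega)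
    have hJ' : Jᶜ.Nonempty := card_pos.1 (by omega)
    have hsub : (range (Z + 1)).image (fun x => x + K) ⊆
        (range (K + Z + 1)).filter fun n => K ≤ n + J.card := by
      intro n hn
      obtain ⟨x, hx, rfl⟩ := mem_image.1 hn
      rw [mem_range] at hx
      rw [mem_filter, mem_range]; omega
    refine le_trans ?_ (sum_le_sum_of_subset_of_nonneg hsub fun _ _ _ =>
      mul_nonneg (Nat.cast_nonneg _) (Nat.cast_nonneg _))
    rw [sum_image fun a _ b _ h => Nat.add_right_cancel h]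
    refine sum_le_sum fun x _ => ?_
    have h3 := family_card J hJ (x + K)
    have h4 := family_card Jᶜ hJ' (x + K + J.card - K)
    rw [hc, show s + 1 - J.card - 1 = s - J.card by omega] at h4
    have h5 : ((x : ℝ) + K) ^ (J.card - 1) ≤ (((x + K : ℕ) : ℝ) + 1) ^ (J.card - 1) :=
      pow_le_pow_left₀ (by positivity) (by push_cast; linarith) _
    have h6 : (x : ℝ) ^ (s - J.card) ≤ (((x + K + J.card - K : ℕ) : ℝ) + 1) ^ (s - J.card) := by
      refine pow_le_pow_left₀ (by positivity) ?_ _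
      have : x ≤ x + K + J.card - K := by omega
      have h7 : (x : ℝ) ≤ ((x + K + J.card - K : ℕ) : ℝ) := by exact_mod_cast this
      linarith
    rw [div_le_iff₀ (by positivity)]
    refine (mul_le_mul (h5.trans h3) (h6.trans h4) (by positivity) (by positivity)).trans_eq ?_
    ring

theorem idx_card (s K Z : ℕ) (hK : s + 1 ≤ K) :
    ∑ k ∈ range (s + 2), ((s + 1).choose k : ℝ) * g s K Z k ≤ (idx (s + 1) K Z).card := by
  have h := sum_powerset_apply_card (g s K Z) (x := (univ : Finset (Fin (s + 1))))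
  rw [card_univ, Fintype.card_fin, powerset_univ] at h
  simp only [nsmul_eq_mul] at h
  rw [← h, idx, card_sigma, Nat.cast_sum]
  refine sum_le_sum fun J _ => (g_le s K Z hK J).trans_eq ?_
  rw [card_sigma, Nat.cast_sum]
  exact sum_congr rfl fun n _ => by rw [card_product, Nat.cast_mul]

/-- one term of the lower bound -/
theorem term_le (K Y j m : ℕ) :
    ∑ i ∈ range (j + 1), (j.choose i : ℝ) * (K : ℝ) ^ (j - i) * 3 ^ (i + m + 1) *
      (Y : ℝ) ^ (i + m + 2) / (((i + m : ℕ) + 1) * ((i + m : ℕ) + 2)) ≤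
    ∑ y ∈ range (Y + 1), ∑ x ∈ range (3 * y + 1), ((x : ℝ) + K) ^ j * (x : ℝ) ^ m := by
  have e : ∀ x : ℝ, (x + K) ^ j * x ^ m =
      ∑ i ∈ range (j + 1), (j.choose i : ℝ) * (K : ℝ) ^ (j - i) * x ^ (i + m) := fun x => by
    rw [add_pow, sum_mul]
    exact sum_congr rfl fun i _ => by ring
  simp only [e]
  have e2 : ∀ y : ℕ, ∑ x ∈ range (3 * y + 1), ∑ i ∈ range (j + 1),
      (j.choose i : ℝ) * (K : ℝ) ^ (j - i) * (x : ℝ) ^ (i + m) = ∑ i ∈ range (j + 1),
      (j.choose i : ℝ) * (K : ℝ) ^ (j - i) * ∑ x ∈ range (3 * y + 1), (x : ℝ) ^ (i + m) :=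
    fun y => by rw [sum_comm]; simp only [mul_sum]
  simp only [e2]
  rw [sum_comm]
  refine sum_le_sum fun i _ => ?_
  rw [← mul_sum]
  have h1 : ∑ y ∈ range (Y + 1), 3 ^ (i + m + 1) / (((i + m : ℕ) : ℝ) + 1) * (y : ℝ) ^ (i + m + 1) ≤
      ∑ y ∈ range (Y + 1), ∑ x ∈ range (3 * y + 1), (x : ℝ) ^ (i + m) :=
    sum_le_sum fun y _ => le_trans (le_of_eq (by rw [Nat.cast_mul, mul_pow]; push_cast; ring))
      (pow_sum (i + m) (3 * y))
  rw [← mul_sum] at h1
  have h2 := pow_sum (i + m + 1) Y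
  have h3 := (mul_le_mul_of_nonneg_left h2
    (show (0 : ℝ) ≤ 3 ^ (i + m + 1) / (((i + m : ℕ) : ℝ) + 1) by positivity)).trans h1
  refine le_trans (le_of_eq ?_) (mul_le_mul_of_nonneg_left h3 (by positivity))
  push_cast
  field_simp
  ring

theorem nlow_le (s D Tn : ℕ) (hK : s + 1 ≤ 3 * D) : ((Nlow s D Tn : ℚ) : ℝ) ≤
    ∑ y ∈ range (Tn - D - (s + 1) + 1), ((idx (s + 1) (3 * D) (3 * y)).card : ℝ) := by
  refine le_trans ?_ (sum_le_sum fun y _ => idx_card s (3 * D) (3 * y) hK)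
  unfold Nlow
  simp only [list_sum]
  generalize Tn - D - (s + 1) = Y
  generalize 3 * D = K
  have e : ∀ y : ℕ, ∑ k ∈ range (s + 2), ((s + 1).choose k : ℝ) * g s K (3 * y) k =
      ((K - s : ℕ) : ℝ) ^ s / s.factorial + ∑ j ∈ range s, ((s + 1).choose (j + 1) : ℝ) /
        (j.factorial * (s - 1 - j).factorial) *
        ∑ x ∈ range (3 * y + 1), ((x : ℝ) + K) ^ j * (x : ℝ) ^ (s - 1 - j) := fun y => by
    rw [sum_range_succ, sum_range_succ', add_comm]
    have a1 : g s K (3 * y) (s + 1) = ((K - s : ℕ) : ℝ) ^ s / s.factorial := if_pos rfl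
    have a2 : g s K (3 * y) 0 = 0 := by
      unfold g
      rw [if_neg (by omega), if_pos rfl]
    rw [a1, a2, Nat.choose_self, Nat.cast_one, one_mul, mul_zero, add_zero]
    congr 1
    refine sum_congr rfl fun j hj => ?_
    rw [mem_range] at hj
    unfold g
    rw [if_neg (by omega), if_neg (by omega), Nat.add_sub_cancel,
      show s - (j + 1) = s - 1 - j by omega, ← sum_div]
    ring
  simp only [e]
  rw [sum_add_distrib, sum_const, card_range, nsmul_eq_mul, sum_comm]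
  push_cast
  refine add_le_add (le_of_eq (by ring)) (sum_le_sum fun j _ => ?_)
  rw [← mul_sum]
  refine le_trans (le_of_eq ?_) (mul_le_mul_of_nonneg_left (term_le K Y j (s - 1 - j))
    (by positivity))
  rw [mul_sum]
  refine sum_congr rfl fun i _ => ?_
  push_cast
  field_simp

end J

theorem famS : FamS := by
  intro s κ0 β D Tn Λ _ h
  simp only [critOK, Bool.and_eq_true, decide_eq_true_eq] at h
  obtain ⟨⟨⟨⟨⟨h1, h2⟩, h3⟩, h4⟩, h5⟩, h6⟩ := h
  have hb : (0 : ℝ) < (β : ℝ) / 3 := by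
    have : (0 : ℝ) < β := by exact_mod_cast h1
    positivity
  have h4' : (Λ : ℝ) ≤ Tn := by exact_mod_cast h4
  have h5' : (Λ : ℝ) < κ0 * D := by exact_mod_cast h5
  have h6' : ((Tn : ℝ) - Λ + s * (β / 3) + 1) ^ (s + 2) <
      (s + 2).factorial * (β / 3) ^ s * ((Nlow s D Tn : ℚ) : ℝ) * (κ0 * D - Λ) := by
    exact_mod_cast h6
  refine ⟨Tn, 3 * D, Λ, _, ((range (Tn - D - (s + 1) + 1)).sigma
    fun y => J.lev (s + 1) (3 * D) (3 * y)).image fun x => (D + (s + 1) + x.1, x.2), ?_,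
    J.upper' s Tn (β / 3) Λ hb h4', ?_⟩
  · intro p hp
    obtain ⟨x, hx, rfl⟩ := mem_image.1 hp
    rw [mem_sigma, mem_range] at hx
    exact ⟨by have := hx.1; simp only; omega, J.lev_mem hx.2⟩
  · rw [card_image_of_injOn, card_sigma, Nat.cast_sum]
    · simp only [J.lev_card]
      have h7 := J.nlow_le s D Tn h3
      have e : (κ0 : ℝ) / 3 * ((3 * D : ℕ) : ℝ) - Λ = κ0 * D - Λ := by push_cast; ring
      rw [e, div_lt_iff₀ (by positivity)]
      refine h6'.trans_le ?_
      have h8 := mul_le_mul_of_nonneg_right h7 (sub_pos.2 h5').le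
      have h9 := mul_le_mul_of_nonneg_right h8
        (show (0 : ℝ) ≤ (s + 2).factorial * (β / 3) ^ s by positivity)
      exact le_trans (le_of_eq (by ring)) h9
    · rintro ⟨y, e⟩ _ ⟨y', e'⟩ _ h
      simp only [Prod.mk.injEq] at h
      obtain ⟨a, rfl⟩ := h
      have : y = y' := by omega
      rw [this]

end Vale.Agent.N018.H
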