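import Vale.Agent.N018.H.Def

/-! # Reduced bases and small independent forms. -/

namespace Vale.Agent.N018.H.Gn

open Finset Matrix

variable {n ρ : ℕ}

theorem binet {m : Type} [Fintype m] (A : Matrix (Fin ρ) m ℤ) (B : Matrix m (Fin ρ) ℤ) :
    (A * B).det = ∑ J : Fin ρ → m, (∏ i, A i (J i)) * (B.submatrix J id).det := by
  classical
  have e : A * B = fun i => ∑ j, A i j • B j := by
    ext i k; simp [mul_apply]
  have h := (detRowAlternating (n := Fin ρ) (R := ℤ)).toMultilinearMap.map_sum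
    (fun i j => A i j • B j)
  rw [e]
  refine h.trans (sum_congr rfl fun J _ => ?_)
  exact (detRowAlternating (n := Fin ρ) (R := ℤ)).toMultilinearMap.map_smul_univ
    (fun i => A i (J i)) fun i => B (J i)

theorem cast_det (M : Matrix (Fin ρ) (Fin ρ) ℤ) (K : Type) [CommRing K] :
    (M.map fun z : ℤ => (z : K)).det = (M.det : K) := (Int.cast_det M).symm

/-- a spanning independent tuple -/
theorem tuple {T : Finset (V n)} (h : rk T = ρ) : ∃ X : Matrix (Fin ρ) (Fin n) ℤ,
    (∀ k, X k ∈ T) ∧ (X * Xᵀ).det ≠ 0 ∧ ∀ y ∈ T, InSp X y := by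
  subst h
  obtain ⟨f, h1, h2, h3⟩ := Submodule.exists_fun_fin_finrank_span_eq ℚ
    ((fun (y : V n) (j : Fin n) => (y j : ℚ)) '' (T : Set (V n)))
  choose X hX hf using h1
  refine ⟨X, hX, fun hd => ?_, fun y hy => ?_⟩
  · have hd' : ((Matrix.of X * (Matrix.of X)ᵀ).map fun z : ℤ => (z : ℚ)).det = 0 := by
      rw [cast_det]; exact_mod_cast hd
    obtain ⟨c, hc, e⟩ := exists_vecMul_eq_zero_iff.2 hd'
    have e1 : ∑ j, (∑ k, c k * (X k j : ℚ)) ^ 2 = 0 := by
      have := congrArg (fun w => w ⬝ᵥ c) e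
      simp only [zero_dotProduct] at this
      rw [← this]
      simp only [dotProduct, vecMul, map_apply, mul_apply, transpose_apply, of_apply, sq,
        sum_mul, mul_sum]
      push_cast
      simp only [mul_sum, sum_mul]
      rw [sum_comm]
      refine sum_congr rfl fun k _ => ?_
      rw [sum_comm]
      exact sum_congr rfl fun l _ => sum_congr rfl fun j _ => by ring
    have e2 := (sum_eq_zero_iff_of_nonneg fun _ _ => sq_nonneg _).1 e1
    refine hc (funext (Fintype.linearIndependent_iff.1 h3 c ?_))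
    funext j
    have := pow_eq_zero_iff (two_ne_zero) |>.1 (e2 j (mem_univ j))
    simpa [Finset.sum_apply, ← hf] using this
  · have : (fun j => (y j : ℚ)) ∈ Submodule.span ℚ (Set.range f) := by
      rw [h2]; exact Submodule.subset_span ⟨y, hy, rfl⟩
    obtain ⟨c, hc⟩ := (Submodule.mem_span_range_iff_exists_fun ℚ).1 this
    refine ⟨c, fun j => ?_⟩
    have := congrFun hc j
    simp only [Finset.sum_apply, ← hf, Pi.smul_apply, smul_eq_mul] at this
    exact this.symm

/-- the lattice of the integral points of the span has a basis. -/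
theorem sat (X : Matrix (Fin ρ) (Fin n) ℤ) (h : (X * Xᵀ).det ≠ 0) :
    ∃ A g : Matrix (Fin ρ) (Fin n) ℤ, X = (A * Xᵀ)ᵀ * g := by
  classical
  have ex : ∃ N : ℕ, ∃ A : Matrix (Fin ρ) (Fin n) ℤ, (A * Xᵀ).det ≠ 0 ∧ (A * Xᵀ).det.natAbs = N :=
    ⟨_, X, h, rfl⟩
  obtain ⟨A, hA, hN⟩ := Nat.find_spec ex
  have dv : ∀ i j, (A * Xᵀ).det ∣ cramer (A * Xᵀ)ᵀ (Xᵀ j) i := fun i j => by
    rw [cramer_transpose_apply]
    set D := (A * Xᵀ).det with hD
    set E := ((A * Xᵀ).updateRow i (Xᵀ j)).det with hE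
    have e1 : A.updateRow i (Pi.single j 1 + (-(E / D)) • A i) * Xᵀ
        = (A * Xᵀ).updateRow i (Xᵀ j + (-(E / D)) • (A * Xᵀ) i) := by
      ext a k
      by_cases ha : a = i
      · subst ha
        simp [mul_apply, add_mul, sum_add_distrib, Pi.single_apply, mul_sum, mul_assoc]
      · simp [mul_apply, updateRow_ne ha]
    have e2 : (A.updateRow i (Pi.single j 1 + (-(E / D)) • A i) * Xᵀ).det = E % D := by
      rw [e1, det_updateRow_add, det_updateRow_smul, updateRow_eq_self, Int.emod_def]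
      ring
    by_contra hc
    have h1 := Nat.find_min' ex ⟨_, (by rw [e2]; exact fun e => hc (Int.dvd_of_emod_eq_zero e)), rfl⟩
    rw [e2, ← hN] at h1
    have h2 := Int.emod_nonneg E hA
    have h3 := Int.emod_lt_abs E hA
    rw [Int.abs_eq_natAbs] at h3
    omega
  choose g hg using dv
  refine ⟨A, Matrix.of g, ?_⟩
  ext k j
  have := congrFun (mulVec_cramer (A * Xᵀ)ᵀ (Xᵀ j)) k
  simp only [mulVec, dotProduct, hg, det_transpose, Pi.smul_apply, smul_eq_mul] at this
  refine mul_left_cancel₀ hA ?_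
  rw [mul_apply, mul_sum]
  refine this.symm.trans (sum_congr rfl fun i _ => ?_)
  rw [mul_left_comm]
  rfl

/-- reduction of the rows of an integral matrix of full rank. -/
theorem red (hM : MinkS) (ρ : ℕ) : ∃ C : ℝ, 1 ≤ C ∧ ∀ (m : Type) [Fintype m]
    (g : Matrix (Fin ρ) m ℤ), (∃ J, (g.submatrix id J).det ≠ 0) →
    ∃ (U : Matrix (Fin ρ) (Fin ρ) ℤ) (J : Fin ρ → m), IsUnit U.det ∧ (g.submatrix id J).det ≠ 0 ∧
      ∏ i, ‖(U * g) i‖ ≤ C * |((g.submatrix id J).det : ℝ)| := by
  classical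
  obtain ⟨C, hC, hM⟩ := hM ρ
  have one : (1 : ℝ) ≤ (ρ : ℝ) ^ ρ := by
    rcases Nat.eq_zero_or_pos ρ with rfl | h
    · simp
    · exact one_le_pow₀ (by exact_mod_cast h)
  refine ⟨ρ ^ ρ * C, one_le_mul_of_one_le_of_one_le one hC, fun m _ g ⟨J0, h0⟩ => ?_⟩
  obtain ⟨J, -, hJ⟩ := exists_max_image univ (fun J : Fin ρ → m => |(g.submatrix id J).det|)
    ⟨J0, mem_univ _⟩
  have hd : (g.submatrix id J).det ≠ 0 := fun e => by
    have := hJ J0 (mem_univ _)
    rw [e, abs_zero] at this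
    exact h0 (abs_nonpos_iff.1 this)
  obtain ⟨U, hU, hp⟩ := hM ((g.submatrix id J).map fun z : ℤ => (z : ℝ))
    (by rw [cast_det]; exact_mod_cast hd)
  rw [cast_det] at hp
  refine ⟨U, J, hU, hd, ?_⟩
  have key : ∀ i, ‖(U * g) i‖ ≤
      ρ * ‖(U.map (fun z : ℤ => (z : ℝ)) * (g.submatrix id J).map fun z : ℤ => (z : ℝ)) i‖ := by
    intro i
    set R := ‖(U.map (fun z : ℤ => (z : ℝ)) * (g.submatrix id J).map fun z : ℤ => (z : ℝ)) i‖
      with hR
    refine (pi_norm_le_iff_of_nonneg (by positivity)).2 fun j => ?_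
    have c1 : (g.submatrix id J).det * (U * g) i j
        = ∑ k, (U * g.submatrix id J) i k * cramer (g.submatrix id J) (gᵀ j) k := by
      have := congrFun (congrArg (U.mulVec ·) (mulVec_cramer (g.submatrix id J) (gᵀ j))) i
      simp only [mulVec_mulVec, mulVec_smul, Pi.smul_apply, smul_eq_mul] at this
      exact this.symm
    have c2 : ∀ k, |cramer (g.submatrix id J) (gᵀ j) k| ≤ |(g.submatrix id J).det| := fun k => by
      have : (g.submatrix id J).updateCol k (gᵀ j) = g.submatrix id (Function.update J k j) := by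
        ext a b
        by_cases hb : b = k
        · subst hb; simp
        · simp [updateCol_ne hb, Function.update_of_ne hb]
      rw [cramer_apply, this]
      exact hJ _ (mem_univ _)
    have c3 : ∀ k, |((U * g.submatrix id J) i k : ℝ)| ≤ R := fun k => by
      have := norm_le_pi_norm
        ((U.map (fun z : ℤ => (z : ℝ)) * (g.submatrix id J).map fun z : ℤ => (z : ℝ)) i) k
      rw [Real.norm_eq_abs] at this
      refine le_trans (le_of_eq ?_) this
      simp [mul_apply]
    have p : (0 : ℝ) < |((g.submatrix id J).det : ℝ)| := abs_pos.2 (by exact_mod_cast hd)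
    rw [Int.norm_eq_abs]
    refine le_of_mul_le_mul_left ?_ p
    rw [← abs_mul, ← Int.cast_mul, c1, Int.cast_sum]
    refine (abs_sum_le_sum_abs _ _).trans ((sum_le_sum (g := fun _ =>
      R * |((g.submatrix id J).det : ℝ)|) fun k _ => ?_).trans (le_of_eq ?_))
    · rw [Int.cast_mul, abs_mul]
      exact mul_le_mul (c3 k) (by exact_mod_cast c2 k) (abs_nonneg _) (norm_nonneg _)
    · rw [sum_const, card_univ, Fintype.card_fin, nsmul_eq_mul]; ring
  refine (prod_le_prod (fun _ _ => norm_nonneg _) fun i _ => key i).trans ?_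
  rw [prod_mul_distrib, prod_const, card_univ, Fintype.card_fin, mul_assoc]
  exact mul_le_mul_of_nonneg_left hp (by positivity)

theorem abs_unit {U : Matrix (Fin ρ) (Fin ρ) ℤ} (h : IsUnit U.det) (d : ℤ) :
    |((U.det * d : ℤ) : ℝ)| = |(d : ℝ)| := by
  rcases Int.isUnit_iff.1 h with e | e <;> rw [e] <;> simp

end Vale.Agent.N018.H.Gn

namespace Vale.Agent.N018.H

open Finset Matrix Gn

theorem basisS (hM : MinkS) : BasisS := fun n ρ => by
  obtain ⟨C, hC, hr⟩ := red hM ρ
  refine ⟨C, hC, fun T hT => ?_⟩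
  obtain ⟨X, -, h1, h2⟩ := tuple hT
  obtain ⟨A, g, hX⟩ := sat X h1
  obtain ⟨U, J, hU, hJ, hp⟩ := hr (Fin n) g (by
    by_contra hc
    refine h1 ?_
    have : X * Xᵀ = (X * gᵀ) * (A * Xᵀ) := by
      conv_lhs => rw [show Xᵀ = gᵀ * (A * Xᵀ) by
        conv_lhs => rw [hX]
        rw [transpose_mul, transpose_transpose]]
      rw [Matrix.mul_assoc]
    rw [this, det_mul, binet, sum_eq_zero fun J _ => ?_, zero_mul]
    rw [show gᵀ.submatrix J id = (g.submatrix id J)ᵀ from rfl, det_transpose,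
      not_not.1 (not_exists.1 hc J), mul_zero])
  have e : (Matrix.of fun i k => (U * g) i (J k)) = U * g.submatrix id J := by
    ext i k; simp [mul_apply]
  refine ⟨U * g, (U⁻¹)ᵀ * A, J, fun y hy j => ?_, ?_, ?_⟩
  · obtain ⟨c, hc⟩ := h2 y hy
    have e1 : ∑ i, dz (((U⁻¹)ᵀ * A) i) y * (U * g) i j = ∑ i, dz (A i) y * g i j := by
      have : ((A *ᵥ y) ᵥ* U⁻¹) ᵥ* (U * g) = (A *ᵥ y) ᵥ* g := by
        rw [vecMul_vecMul, nonsing_inv_mul_cancel_left U g hU]
      rw [← mulVec_transpose U⁻¹, mulVec_mulVec] at this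
      exact congrFun this j
    rw [e1]
    have e2 : ∀ k, (X k j : ℚ) = ∑ i, (∑ l, (A i l : ℚ) * X k l) * g i j := fun k => by
      conv_lhs => rw [hX]
      simp [mul_apply, mul_comm]
    have : (y j : ℚ) = ((∑ i, dz (A i) y * g i j : ℤ) : ℚ) := by
      simp only [dz]
      push_cast
      simp only [hc, e2 , mul_sum, sum_mul]
      rw [sum_comm]
      refine sum_congr rfl fun i _ => ?_
      rw [sum_comm]
      exact sum_congr rfl fun l _ => sum_congr rfl fun k _ => by ring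
    exact_mod_cast this
  · rw [e, det_mul]
    exact mul_ne_zero hU.ne_zero hJ
  · rw [e, det_mul, abs_unit hU]
    exact hp

theorem boxS (hM : MinkS) (hB : BasisS) : BoxS := fun n ρ => by
  obtain ⟨C, hC, hr⟩ := red hM ρ
  obtain ⟨C', hC', hb⟩ := hB n ρ
  refine ⟨C * C', one_le_mul_of_one_le_of_one_le hC hC', fun T W H hT h1 hH hN hW => ?_⟩
  obtain ⟨v, a, J, hv, hJ, hp⟩ := hb T hT
  obtain ⟨X, hX, hG, -⟩ := tuple hT
  set g : Matrix (Fin ρ) T ℤ := Matrix.of fun i y => dz (a i) y.1 with hg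
  obtain ⟨U, x, hU, hx, hq⟩ := hr T g ⟨fun k => ⟨X k, hX k⟩, fun e => hG (by
    have : X * Xᵀ = (g.submatrix id fun k => ⟨X k, hX k⟩)ᵀ * (Matrix.of v * Xᵀ) := by
      rw [← Matrix.mul_assoc]
      congr 1
      ext k j
      exact hv _ (hX k) j
    rw [this, det_mul, det_transpose, e, zero_mul])⟩
  have hH' : H ≤ ∏ i, ‖v i‖ := hN _ (hX ⟨0, h1⟩) v
    (fun i e => hJ (det_eq_zero_of_row_eq_zero i fun k => congrFun e (J k)))
    ⟨fun i => dz (a i) (X ⟨0, h1⟩), fun j => by rw [hv _ (hX _) j]; push_cast; rfl⟩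
  have e1 : (Matrix.of fun i k => (x i).1 (J k))
      = (g.submatrix id x)ᵀ * Matrix.of fun i k => v i (J k) := by
    ext i k
    exact hv _ (x i).2 (J k)
  have h2 := hW (fun i => (x i).1) (fun i => (x i).2) J
  rw [e1, det_mul, det_transpose, Int.cast_mul, abs_mul] at h2
  have e2 : ∀ i (y : T), dz ((U * Matrix.of a) i) y.1 = (U * g) i y := fun i y => by
    simp only [dz, mul_apply, hg, of_apply, sum_mul, mul_sum, mul_assoc]
    exact sum_comm
  have hd : (U * g.submatrix id x).det ≠ 0 := by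
    rw [det_mul]; exact mul_ne_zero hU.ne_zero hx
  have b1 : ∀ i (y : T), |(U * g) i y| ≤ ⌊‖(U * g) i‖⌋₊ := fun i y => by
    have := norm_le_pi_norm ((U * g) i) y
    rw [Int.norm_eq_abs] at this
    rw [Int.abs_eq_natAbs]
    exact_mod_cast Nat.le_floor (by rwa [Nat.cast_natAbs, Int.cast_abs])
  refine ⟨U * Matrix.of a, fun i => ⌊‖(U * g) i‖⌋₊, fun i => ?_, fun y hy i => ?_, ?_, fun c hc => ?_⟩
  · by_contra hc
    refine hd (det_eq_zero_of_row_eq_zero i fun k => ?_)
    have := b1 i (x k)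
    rw [show ⌊‖(U * g) i‖⌋₊ = 0 from Nat.lt_one_iff.1 (not_le.1 hc)] at this
    exact abs_nonpos_iff.1 this
  · rw [e2 i ⟨y, hy⟩]; exact b1 i _
  · refine (prod_le_prod (fun _ _ => Nat.cast_nonneg _)
      fun i _ => Nat.floor_le (norm_nonneg _)).trans (hq.trans ?_)
    rw [le_div_iff₀ hH]
    have := mul_le_mul_of_nonneg_left (hH'.trans hp) (abs_nonneg ((g.submatrix id x).det : ℝ))
    have h3 := mul_le_mul_of_nonneg_left h2 (zero_le_one.trans hC')
    have h4 := mul_le_mul_of_nonneg_left (this.trans ((le_of_eq (by ring)).trans h3))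
      (zero_le_one.trans hC)
    linarith
  · by_contra hz
    refine hc (eq_zero_of_vecMul_eq_zero
      (M := (U * g.submatrix id x).map fun z : ℤ => (z : ℚ)) (by rw [cast_det]; exact_mod_cast hd) ?_)
    funext k
    have := not_not.1 (not_and.1 (not_exists.1 hz (x k).1) (x k).2)
    simp only [e2] at this
    exact this

end Vale.Agent.N018.H
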