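import Vale.Agent.N018.H.Def

/-! # P018, pair (6,3): minors of narrow sets and the number of tuples of small vectors. -/

namespace Vale.Agent.N018.H

open Finset

namespace G2

theorem det_rows {m : ℕ} (N : Matrix (Fin m) (Fin m) ℝ) (r : Fin m → ℝ)
    (h : ∀ i j, |N i j| ≤ r i) : |N.det| ≤ m.factorial * ∏ i, r i := by
  rw [Matrix.det_apply]
  refine (Finset.abs_sum_le_sum_abs _ _).trans ?_
  have h1 : ∀ σ : Equiv.Perm (Fin m), |Equiv.Perm.sign σ • ∏ i, N (σ i) i| ≤ ∏ i, r i := by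
    intro σ
    have e : |Equiv.Perm.sign σ • ∏ i, N (σ i) i| = |∏ i, N (σ i) i| := by
      rcases Int.units_eq_one_or (Equiv.Perm.sign σ) with h2 | h2 <;> simp [h2]
    rw [e, Finset.abs_prod, ← Equiv.prod_comp σ r]
    exact Finset.prod_le_prod (fun i _ => abs_nonneg _) fun i _ => h _ _
  refine (Finset.sum_le_sum fun σ _ => h1 σ).trans (le_of_eq ?_)
  simp [Fintype.card_perm]

theorem norm_log {n : ℕ} (w : V n) (hw : w ≠ 0) :
    ∃ k : ℕ, (2 : ℝ) ^ k ≤ ‖w‖ ∧ ∀ j, |w j| < 2 ^ (k + 1) := by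
  obtain ⟨j1, hj1⟩ := Function.ne_iff.1 hw
  obtain ⟨j, -, hj⟩ := Finset.exists_max_image (univ : Finset (Fin n)) (fun j => (w j).natAbs)
    ⟨j1, mem_univ _⟩
  have hpos : (w j).natAbs ≠ 0 := by
    have h1 : 0 < (w j1).natAbs := Int.natAbs_pos.2 hj1
    have := hj j1 (mem_univ _)
    omega
  refine ⟨Nat.log 2 (w j).natAbs, ?_, fun i => ?_⟩
  · refine le_trans ?_ (norm_le_pi_norm w j)
    have h1 := Nat.pow_log_le_self 2 hpos
    rw [Int.norm_eq_abs]
    have h2 : ((2 ^ Nat.log 2 (w j).natAbs : ℕ) : ℝ) ≤ ((w j).natAbs : ℝ) := by exact_mod_cast h1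
    rw [Nat.cast_natAbs] at h2
    push_cast at h2
    exact h2
  · have h1 := Nat.lt_pow_succ_log_self (b := 2) (by norm_num) (w j).natAbs
    have h2 := hj i (mem_univ _)
    have h3 : (w i).natAbs < 2 ^ (Nat.log 2 (w j).natAbs + 1) := lt_of_le_of_lt h2 h1
    rw [Int.abs_eq_natAbs]
    exact_mod_cast h3

end G2

theorem minorS : MinorS := by
  intro n s j0 T R η hη hC hN hR x hx J
  have hpos : ∀ i, (0 : ℝ) < x i j0 := fun i => by exact_mod_cast (hC _ (hx i)).1
  have hR0 : 0 ≤ R := (hpos 0).le.trans (hR _ (hx 0))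
  set A : Matrix (Fin (s + 1)) (Fin (s + 1)) ℝ := Matrix.of fun i k => (x i (J k) : ℝ) with hA
  have e1 : (((Matrix.of fun i k => x i (J k)).det : ℤ) : ℝ) = A.det := by
    rw [Int.cast_det]
    rfl
  set c : Fin (s + 1) → ℝ := fun i => if i = 0 then 0 else (x i j0 : ℝ) / x 0 j0 with hc
  set N : Matrix (Fin (s + 1)) (Fin (s + 1)) ℝ := Matrix.of fun i k => A i k - c i * A 0 k with hNd
  have e2 : A.det = N.det := by
    refine Matrix.det_eq_of_forall_row_eq_smul_add_const c 0 (by simp [hc]) fun i j => ?_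
    simp [hNd, hc]
  rw [e1, e2]
  refine (G2.det_rows N (Fin.cons R fun _ => R * η) fun i k => ?_).trans (le_of_eq ?_)
  · refine Fin.cases ?_ (fun i => ?_) i
    · have h1 := (hC _ (hx 0)).2 (J k)
      have h2 : |(x 0 (J k) : ℝ)| ≤ x 0 j0 := by exact_mod_cast h1
      simpa [hNd, hc, hA] using h2.trans (hR _ (hx 0))
    · have h1 := hN _ (hx i.succ) _ (hx 0) (J k)
      have e3 : N i.succ k = (x i.succ j0 : ℝ) *
          ((x i.succ (J k) : ℝ) / x i.succ j0 - (x 0 (J k) : ℝ) / x 0 j0) := by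
        have h2 := (hpos i.succ).ne'
        have h3 := (hpos 0).ne'
        simp only [hNd, hc, hA, Matrix.of_apply, Fin.succ_ne_zero, if_false]
        field_simp
      rw [e3, abs_mul, abs_of_pos (hpos _), Fin.cons_succ]
      exact mul_le_mul (hR _ (hx _)) h1 (abs_nonneg _) hR0
  · rw [Fin.prod_univ_succ]
    simp only [Fin.cons_zero, Fin.cons_succ, Finset.prod_const, card_univ, Fintype.card_fin]
    ring

theorem tupS : TupS := by
  intro n ρ ε hε
  set δ : ℝ := ε / (ρ + 1) with hδ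
  have hδ0 : 0 < δ := by positivity
  have hC1 : (1 : ℝ) ≤ (2 / δ + 1) ^ ρ := one_le_pow₀ (by have : 0 < 2 / δ := by positivity
                                                          linarith)
  have hC2 : (1 : ℝ) ≤ (4 ^ n) ^ ρ := one_le_pow₀ (one_le_pow₀ (by norm_num))
  refine ⟨(2 / δ + 1) ^ ρ * (4 ^ n) ^ ρ, by nlinarith, fun H hH 𝒱 h𝒱 => ?_⟩
  classical
  have hH0 : 0 < H := by linarith
  set L : ℕ := ⌊2 * Real.log H⌋₊ with hL
  set K : Finset (Fin ρ → ℕ) := (Fintype.piFinset fun _ : Fin ρ => range (L + 1)).filter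
    fun k => ∏ i, (2 : ℝ) ^ k i ≤ H with hK
  set Bx : (Fin ρ → ℕ) → Finset (Fin ρ → V n) := fun k => Fintype.piFinset fun i =>
    Fintype.piFinset fun _ : Fin n => Finset.Ico (-(2 : ℤ) ^ (k i + 1)) (2 ^ (k i + 1)) with hBx
  have hsub : 𝒱 ⊆ K.biUnion Bx := by
    intro v hv
    obtain ⟨h1, h2⟩ := h𝒱 v hv
    choose k hk1 hk2 using fun i => G2.norm_log (v i) (h1 i)
    have h3 : ∏ i, (2 : ℝ) ^ k i ≤ H :=
      (Finset.prod_le_prod (fun i _ => by positivity) fun i _ => hk1 i).trans h2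
    refine mem_biUnion.2 ⟨k, mem_filter.2 ⟨Fintype.mem_piFinset.2 fun i => ?_, h3⟩, ?_⟩
    · have h4 : (2 : ℝ) ^ k i ≤ H := by
        refine le_trans ?_ h3
        rw [Finset.prod_pow_eq_pow_sum]
        exact pow_le_pow_right₀ (by norm_num)
          (Finset.single_le_sum (fun i _ => Nat.zero_le _) (mem_univ i))
      have h5 : (k i : ℝ) * Real.log 2 ≤ Real.log H := by
        rw [← Real.log_pow]
        exact Real.log_le_log (by positivity) h4
      have h6 : (k i : ℝ) ≤ 2 * Real.log H := by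
        have := Real.log_two_gt_d9
        have h7 : (0 : ℝ) ≤ k i := Nat.cast_nonneg _
        nlinarith
      exact mem_range.2 (Nat.lt_succ_of_le (Nat.le_floor h6))
    · refine Fintype.mem_piFinset.2 fun i => Fintype.mem_piFinset.2 fun j => ?_
      have := abs_lt.1 (hk2 i j)
      exact Finset.mem_Ico.2 ⟨this.1.le, this.2⟩
  have hfib : ∀ k ∈ K, ((Bx k).card : ℝ) ≤ (4 ^ n) ^ ρ * H ^ n := by
    intro k hk
    have h1 := (mem_filter.1 hk).2
    have e : ((Bx k).card : ℝ) = (4 ^ n) ^ ρ * (∏ i, (2 : ℝ) ^ k i) ^ n := by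
      simp only [hBx, Fintype.card_piFinset, Int.card_Ico, Finset.prod_const, card_univ,
        Fintype.card_fin]
      have e2 : ∀ i, ((2 : ℤ) ^ (k i + 1) - -(2 : ℤ) ^ (k i + 1)).toNat = 4 * 2 ^ k i := by
        intro i
        have : (2 : ℤ) ^ (k i + 1) - -(2 : ℤ) ^ (k i + 1) = ((4 * 2 ^ k i : ℕ) : ℤ) := by
          push_cast
          ring
        rw [this, Int.toNat_natCast]
      simp only [e2]
      push_cast
      simp only [mul_pow, Finset.prod_mul_distrib, Finset.prod_const, card_univ, Fintype.card_fin,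
        Finset.prod_pow]
    rw [e]
    gcongr
  have hKc : (K.card : ℝ) ≤ (2 / δ + 1) ^ ρ * H ^ ε := by
    have h1 : K.card ≤ (L + 1) ^ ρ := by
      refine (card_filter_le _ _).trans (le_of_eq ?_)
      simp [Fintype.card_piFinset]
    have h2 : (K.card : ℝ) ≤ ((L : ℝ) + 1) ^ ρ := by exact_mod_cast h1
    have h3 : (L : ℝ) ≤ 2 * Real.log H :=
      Nat.floor_le (by have := Real.log_nonneg hH; linarith)
    have h4 := Real.log_le_rpow_div hH0.le hδ0
    have h5 : 1 ≤ H ^ δ := Real.one_le_rpow hH hδ0.le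
    have h6 : (L : ℝ) + 1 ≤ (2 / δ + 1) * H ^ δ := by
      have : (2 / δ + 1) * H ^ δ = 2 * (H ^ δ / δ) + H ^ δ := by ring
      linarith
    have h7 : (H ^ δ) ^ ρ ≤ H ^ ε := by
      rw [← Real.rpow_natCast, ← Real.rpow_mul hH0.le]
      refine Real.rpow_le_rpow_of_exponent_le hH ?_
      rw [hδ, div_mul_eq_mul_div, div_le_iff₀ (by positivity)]
      nlinarith
    refine h2.trans ((pow_le_pow_left₀ (by positivity) h6 ρ).trans ?_)
    rw [mul_pow]
    gcongr
  have hcard : (𝒱.card : ℝ) ≤ ∑ k ∈ K, ((Bx k).card : ℝ) := by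
    exact_mod_cast (card_le_card hsub).trans card_biUnion_le
  refine hcard.trans ((Finset.sum_le_sum hfib).trans ?_)
  rw [Finset.sum_const, nsmul_eq_mul, Real.rpow_add hH0, Real.rpow_natCast]
  calc (K.card : ℝ) * ((4 ^ n) ^ ρ * H ^ n)
      ≤ ((2 / δ + 1) ^ ρ * H ^ ε) * ((4 ^ n) ^ ρ * H ^ n) := by gcongr
    _ = _ := by ring

end Vale.Agent.N018.H
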