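import Vale.Agent.N018.H.Def

/-! # P018, pair (6,3), package E: points of a plane curve in a box lie on few lines. -/

namespace Vale.Agent.N018.H

namespace E

open Finset MvPolynomial

/-- `U` is covered by at most `N` lines -/
def Cov (N : ℝ) (U : Finset (V 3)) : Prop :=
  ∃ 𝒞 : Finset (Fin 3 → ℚ), (0 : Fin 3 → ℚ) ∉ 𝒞 ∧ (𝒞.card : ℝ) ≤ N ∧
    ∀ u ∈ U, ∃ c ∈ 𝒞, dq c u = 0

theorem Cov.le {N N' : ℝ} {U : Finset (V 3)} (h : Cov N U) (hN : N ≤ N') : Cov N' U := by
  obtain ⟨𝒞, h1, h2, h3⟩ := h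
  exact ⟨𝒞, h1, h2.trans hN, h3⟩

theorem cov_empty {N : ℝ} (hN : 0 ≤ N) {U : Finset (V 3)} (hU : ∀ u, u ∉ U) : Cov N U :=
  ⟨∅, by simp, by simpa using hN, fun u hu => absurd hu (hU u)⟩

theorem Cov.union {N1 N2 : ℝ} {U U1 U2 : Finset (V 3)} (h1 : Cov N1 U1) (h2 : Cov N2 U2)
    (hU : ∀ u ∈ U, u ∈ U1 ∨ u ∈ U2) : Cov (N1 + N2) U := by
  classical
  obtain ⟨𝒞, a1, a2, a3⟩ := h1
  obtain ⟨𝒟, b1, b2, b3⟩ := h2
  refine ⟨𝒞 ∪ 𝒟, by simp [a1, b1], ?_, fun u hu => ?_⟩
  · have : ((𝒞 ∪ 𝒟).card : ℝ) ≤ 𝒞.card + 𝒟.card := by exact_mod_cast card_union_le 𝒞 𝒟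
    linarith
  · rcases hU u hu with h | h
    · obtain ⟨c, hc, h0⟩ := a3 u h
      exact ⟨c, mem_union_left _ hc, h0⟩
    · obtain ⟨c, hc, h0⟩ := b3 u h
      exact ⟨c, mem_union_right _ hc, h0⟩

theorem cov_biUnion {ι : Type*} (s : Finset ι) (N : ℝ) (W : ι → Finset (V 3))
    (h : ∀ i ∈ s, Cov N (W i)) (U : Finset (V 3)) (hU : ∀ u ∈ U, ∃ i ∈ s, u ∈ W i) :
    Cov (s.card * N) U := by
  classical
  induction s using Finset.induction_on generalizing U with
  | empty => exact cov_empty (by simp) fun u hu => by simpa using hU u hu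
  | insert a s ha ih =>
    have h1 := h a (mem_insert_self a s)
    have h2 := ih (fun i hi => h i (mem_insert_of_mem hi)) (U.filter fun u => u ∉ W a)
      (fun u hu => by
        obtain ⟨hu1, hu2⟩ := mem_filter.1 hu
        obtain ⟨i, hi, hui⟩ := hU u hu1
        rcases mem_insert.1 hi with rfl | hi
        · exact absurd hui hu2
        · exact ⟨i, hi, hui⟩)
    refine (h1.union h2 fun u hu => ?_).le (le_of_eq ?_)
    · by_cases hw : u ∈ W a
      · exact Or.inl hw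
      · exact Or.inr (mem_filter.2 ⟨hu, hw⟩)
    · rw [card_insert_of_notMem ha]
      push_cast
      ring

/-- cross product -/
def cr (a b : V 3) : V 3 :=
  ![a 1 * b 2 - a 2 * b 1, a 2 * b 0 - a 0 * b 2, a 0 * b 1 - a 1 * b 0]

/-- determinant -/
def dt (a b c : V 3) : ℤ := ∑ i, cr a b i * c i

theorem dt_eq (a b c : V 3) : dt a b c = (a 1 * b 2 - a 2 * b 1) * c 0 +
    (a 2 * b 0 - a 0 * b 2) * c 1 + (a 0 * b 1 - a 1 * b 0) * c 2 := by
  simp [dt, cr, Fin.sum_univ_three]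

theorem cov_of_cr {U : Finset (V 3)} (a w : V 3) (hw : cr a w ≠ 0) (h : ∀ u ∈ U, dt a w u = 0) :
    Cov 1 U := by
  refine ⟨{fun j => (cr a w j : ℚ)}, ?_, by simp, fun u hu => ⟨_, mem_singleton_self _, ?_⟩⟩
  · rw [mem_singleton]
    intro h0
    apply hw
    funext j
    have := congrFun h0 j
    simp only [Pi.zero_apply] at this
    exact_mod_cast this.symm
  · rw [← dz_cast]
    exact_mod_cast h u hu

theorem cov_one {U : Finset (V 3)} (a : V 3) (k : Fin 3) (ha : a k ≠ 0)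
    (h : ∀ u ∈ U, ∀ u' ∈ U, dt a u u' = 0) : Cov 1 U := by
  by_cases hc : ∃ w ∈ U, cr a w ≠ 0
  · obtain ⟨w, hw, hw0⟩ := hc
    exact cov_of_cr a w hw0 (h w hw)
  · push Not at hc
    have hex : ∃ w : V 3, cr a w ≠ 0 := by
      by_contra hcon
      push Not at hcon
      have h0 := hcon ![1, 0, 0]
      have h1 := hcon ![0, 1, 0]
      have e1 := congrFun h0 1
      have e2 := congrFun h0 2
      have e3 := congrFun h1 2
      simp [cr] at e1 e2 e3
      apply ha
      fin_cases k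
      · exact e3
      · exact e2
      · exact e1
    obtain ⟨w, hw⟩ := hex
    refine cov_of_cr a w hw fun u hu => ?_
    have h0 := hc u hu
    have e0 := congrFun h0 0
    have e1 := congrFun h0 1
    have e2 := congrFun h0 2
    simp only [cr, Matrix.cons_val_zero, Matrix.cons_val_one, Matrix.cons_val, Pi.zero_apply]
      at e0 e1 e2
    rw [dt_eq]
    linear_combination (-w 0) * e0 - w 1 * e1 - w 2 * e2

theorem abs_dt_le (B : Fin 3 → ℕ) (a b c : V 3) (ha : ∀ i, |a i| ≤ B i) (hb : ∀ i, |b i| ≤ B i)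
    (hc : ∀ i, |c i| ≤ B i) : |dt a b c| ≤ 6 * ((B 0 : ℤ) * B 1 * B 2) := by
  have key : ∀ (x y z : ℤ) (p q r : ℕ), |x| ≤ p → |y| ≤ q → |z| ≤ r →
      |x * y * z| ≤ (p : ℤ) * q * r := by
    intro x y z p q r hx hy hz
    rw [abs_mul, abs_mul]
    gcongr
  have h1 := abs_le.1 (key _ _ _ _ _ _ (hc 0) (ha 1) (hb 2))
  have h2 := abs_le.1 (key _ _ _ _ _ _ (hc 0) (hb 1) (ha 2))
  have h3 := abs_le.1 (key _ _ _ _ _ _ (hb 0) (hc 1) (ha 2))
  have h4 := abs_le.1 (key _ _ _ _ _ _ (ha 0) (hc 1) (hb 2))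
  have h5 := abs_le.1 (key _ _ _ _ _ _ (ha 0) (hb 1) (hc 2))
  have h6 := abs_le.1 (key _ _ _ _ _ _ (hb 0) (ha 1) (hc 2))
  rw [dt_eq, abs_le]
  constructor <;> nlinarith [h1.1, h1.2, h2.1, h2.2, h3.1, h3.2, h4.1, h4.2, h5.1, h5.2, h6.1, h6.2]

/-! ### homogeneous polynomials -/

theorem eval_smul_hom {R : Type*} [CommRing R] {F : MvPolynomial (Fin 3) R} {e : ℕ}
    (hF : F.IsHomogeneous e) (a : R) (x : Fin 3 → R) :
    eval (a • x) F = a ^ e * eval x F := by
  rw [eval_eq', eval_eq', Finset.mul_sum]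
  refine Finset.sum_congr rfl fun d hd => ?_
  have h1 : ∑ i, d i = e := by
    by_contra hne
    refine (mem_support_iff.1 hd) (hF.coeff_eq_zero ?_)
    rwa [Finsupp.degree_eq_sum]
  simp only [Pi.smul_apply, smul_eq_mul, mul_pow, Finset.prod_mul_distrib,
    Finset.prod_pow_eq_pow_sum, h1]
  ring

theorem euler {R : Type*} [CommRing R] {F : MvPolynomial (Fin 3) R} {e : ℕ}
    (hF : F.IsHomogeneous e) (x : Fin 3 → R) :
    ∑ i, eval x (pderiv i F) * x i = e * eval x F := by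
  have h := congrArg (eval x) hF.sum_X_mul_pderiv
  simp only [map_sum, map_mul, eval_X, nsmul_eq_mul, map_natCast] at h
  rw [← h]
  exact Finset.sum_congr rfl fun i _ => mul_comm _ _

theorem taylor2 (F : MvPolynomial (Fin 3) ℤ) (x w : V 3) (l : ℤ) :
    ∃ r : ℤ, eval (x + l • w) F = eval x F + l * ∑ i, eval x (pderiv i F) * w i + l ^ 2 * r := by
  induction F using MvPolynomial.induction_on with
  | C a => exact ⟨0, by simp⟩
  | add p q hp hq =>
    obtain ⟨r, hr⟩ := hp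
    obtain ⟨s, hs⟩ := hq
    refine ⟨r + s, ?_⟩
    simp only [map_add, hr, hs, add_mul, Finset.sum_add_distrib]
    ring
  | mul_X p j hp =>
    obtain ⟨r, hr⟩ := hp
    refine ⟨r * x j + (∑ i, eval x (pderiv i p) * w i) * w j + l * r * w j, ?_⟩
    have h1 : ∑ i, eval x (pderiv i (p * X j)) * w i =
        (∑ i, eval x (pderiv i p) * w i) * x j + eval x p * w j := by
      have h2 : ∀ i, eval x (pderiv i (p * X j)) * w i =
          eval x (pderiv i p) * w i * x j + (if j = i then eval x p * w i else 0) := by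
        intro i
        rw [pderiv_mul]
        by_cases hij : j = i
        · subst hij
          simp only [pderiv_X_self, map_add, map_mul, eval_X, if_true, mul_one]
          ring
        · simp only [pderiv_X_of_ne hij, map_mul, eval_X, if_neg hij, mul_zero, add_zero]
          ring
      simp only [h2, Finset.sum_add_distrib, Finset.sum_ite_eq, mem_univ, if_true,
        Finset.sum_mul]
    rw [h1, map_mul, map_mul, hr, eval_X, eval_X]
    simp only [Pi.add_apply, Pi.smul_apply, smul_eq_mul]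
    ring

/-- two points in the same class -/
theorem tangent {F : MvPolynomial (Fin 3) ℤ} {e : ℕ} (hF : F.IsHomogeneous e) {l : ℤ}
    (hl : Prime l) (a u : V 3) (k : Fin 3) (ha : eval a F = 0) (hu : eval u F = 0)
    (huk : ¬ l ∣ u k) (hc : ∀ j, l ∣ a k * u j - u k * a j) :
    ∃ w : V 3, a k • u = u k • a + l • w ∧ l ∣ ∑ i, eval a (pderiv i F) * w i := by
  choose w hw using hc
  have h1 : a k • u = u k • a + l • w := by
    funext j
    simp only [Pi.add_apply, Pi.smul_apply, smul_eq_mul]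
    linear_combination hw j
  refine ⟨w, h1, ?_⟩
  obtain ⟨r, hr⟩ := taylor2 F (u k • a) w l
  rw [← h1, eval_smul_hom hF, eval_smul_hom hF, ha, hu] at hr
  have h2 : ∑ i, eval (u k • a) (pderiv i F) * w i =
      u k ^ (e - 1) * ∑ i, eval a (pderiv i F) * w i := by
    rw [Finset.mul_sum]
    refine Finset.sum_congr rfl fun i _ => ?_
    rw [eval_smul_hom hF.pderiv, mul_assoc]
  rw [h2] at hr
  have h3 : l * (u k ^ (e - 1) * ∑ i, eval a (pderiv i F) * w i + l * r) = 0 := by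
    linear_combination -hr
  have h4 := (mul_eq_zero.1 h3).resolve_left hl.ne_zero
  have h5 : l ∣ u k ^ (e - 1) * ∑ i, eval a (pderiv i F) * w i := ⟨-r, by linear_combination h4⟩
  exact (hl.dvd_or_dvd h5).resolve_left fun h => huk (hl.dvd_of_dvd_pow h)

/-- three points in the same class -/
theorem cube_dvd {F : MvPolynomial (Fin 3) ℤ} {e : ℕ} (hF : F.IsHomogeneous e) {l : ℤ}
    (hl : Prime l) (a u u' : V 3) (k i : Fin 3) (ha : eval a F = 0) (hu : eval u F = 0)
    (hu' : eval u' F = 0) (hak : ¬ l ∣ a k) (huk : ¬ l ∣ u k) (huk' : ¬ l ∣ u' k)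
    (hg : ¬ l ∣ eval a (pderiv i F)) (hc : ∀ j, l ∣ a k * u j - u k * a j)
    (hc' : ∀ j, l ∣ a k * u' j - u' k * a j) : l ^ 3 ∣ dt a u u' := by
  obtain ⟨w, h1, h2⟩ := tangent hF hl a u k ha hu huk hc
  obtain ⟨w', h1', h2'⟩ := tangent hF hl a u' k ha hu' huk' hc'
  have h0 := euler hF a
  rw [ha, mul_zero] at h0
  set g : Fin 3 → ℤ := fun i => eval a (pderiv i F) with hgdef
  have h3 : g i * dt a w w' = (∑ j, g j * a j) * cr w w' i + (∑ j, g j * w j) * cr w' a i +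
      (∑ j, g j * w' j) * cr a w i := by
    rw [dt_eq]
    simp only [Fin.sum_univ_three]
    fin_cases i <;> simp [cr] <;> ring
  have h4 : l ∣ g i * dt a w w' := by
    rw [h3, h0, zero_mul, zero_add]
    exact dvd_add (h2.mul_right _) (h2'.mul_right _)
  obtain ⟨s, hs⟩ := (hl.dvd_or_dvd h4).resolve_left hg
  have h5 : a k ^ 2 * dt a u u' = l ^ 2 * dt a w w' := by
    have e1 : dt a (a k • u) (a k • u') = a k ^ 2 * dt a u u' := by
      simp only [dt_eq, Pi.smul_apply, smul_eq_mul]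
      ring
    have e2 : dt a (u k • a + l • w) (u' k • a + l • w') = l ^ 2 * dt a w w' := by
      simp only [dt_eq, Pi.add_apply, Pi.smul_apply, smul_eq_mul]
      ring
    rw [← e1, ← e2, h1, h1']
  have h6 : l ^ 3 ∣ a k ^ 2 * dt a u u' := ⟨s, by rw [h5, hs]; ring⟩
  exact hl.pow_dvd_of_dvd_mul_left 3 (fun h => hak (hl.dvd_of_dvd_pow h)) h6

/-! ### counting modulo a prime -/

theorem count_zero (l : ℕ) [hl : Fact l.Prime] {G : MvPolynomial (Fin 3) (ZMod l)} {e : ℕ}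
    (hG : G.IsHomogeneous e) (hG0 : G ≠ 0) (k : Fin 3) :
    (((univ : Finset (Fin 3 → ZMod l)).filter fun x => x k = 1 ∧ eval x G = 0).card : ℝ) ≤
      2 * e * l := by
  classical
  set Z := (univ : Finset (Fin 3 → ZMod l)).filter fun x => x k = 1 ∧ eval x G = 0 with hZ
  have hsz := schwartz_zippel_totalDegree hG0 (univ : Finset (ZMod l))
  rw [Fintype.piFinset_univ, card_univ, ZMod.card, hG.totalDegree hG0] at hsz
  set A := (univ : Finset (Fin 3 → ZMod l)).filter fun f => eval f G = 0 with hA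
  have hl2 : 2 ≤ l := hl.out.two_le
  have hlq : (0 : ℚ≥0) < l := by exact_mod_cast (by omega : 0 < l)
  have h1 : A.card ≤ e * l ^ 2 := by
    rw [div_le_div_iff₀ (by positivity) hlq] at hsz
    have h2 : (A.card : ℚ≥0) * l ≤ (e * l ^ 2) * l := by
      refine hsz.trans (le_of_eq ?_)
      ring
    have h3 := le_of_mul_le_mul_right h2 hlq
    exact_mod_cast h3
  have h2 : (Z ×ˢ (univ.erase (0 : ZMod l))).card ≤ A.card := by
    refine card_le_card_of_injOn (fun p => p.2 • p.1) ?_ ?_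
    · intro p hp
      have hp1 := (mem_filter.1 (mem_product.1 (mem_coe.1 hp)).1).2
      simp only [hA, coe_filter, mem_univ, true_and, Set.mem_ofPred_eq]
      rw [eval_smul_hom hG, hp1.2, mul_zero]
    · intro p hp p' hp' hpp
      have hp1 := (mem_filter.1 (mem_product.1 (mem_coe.1 hp)).1).2
      have hp2 := (mem_erase.1 (mem_product.1 (mem_coe.1 hp)).2).1
      have hp1' := (mem_filter.1 (mem_product.1 (mem_coe.1 hp')).1).2
      have e1 : p.2 = p'.2 := by
        have := congrFun hpp k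
        simpa [hp1.1, hp1'.1] using this
      refine Prod.ext ?_ e1
      funext j
      have := congrFun hpp j
      simp only [Pi.smul_apply, smul_eq_mul, ← e1] at this
      exact mul_left_cancel₀ hp2 this
  rw [card_product, card_erase_of_mem (mem_univ _), card_univ, ZMod.card] at h2
  have h3 : Z.card * (l - 1) ≤ (2 * e * l) * (l - 1) := by
    refine (h2.trans h1).trans ?_
    obtain ⟨m, rfl⟩ : ∃ m, l = m + 2 := ⟨l - 2, by omega⟩
    have : m + 2 - 1 = m + 1 := by omega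
    rw [this]
    nlinarith [Nat.zero_le (e * m * m), Nat.zero_le (e * m)]
  have h4 := Nat.le_of_mul_le_mul_right h3 (by omega)
  exact_mod_cast h4

theorem eval_cast (l : ℕ) (F : MvPolynomial (Fin 3) ℤ) (u : V 3) :
    eval (fun i => (u i : ZMod l)) (map (Int.castRingHom (ZMod l)) F) =
      ((eval u F : ℤ) : ZMod l) := by
  rw [eval_map]
  exact (eval₂_comp (Int.castRingHom (ZMod l)) u F).symm

theorem eval_castQ (F : MvPolynomial (Fin 3) ℤ) (u : V 3) :
    eval (fun i => (u i : ℚ)) (map (Int.castRingHom ℚ) F) = ((eval u F : ℤ) : ℚ) := by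
  rw [eval_map]
  exact (eval₂_comp (Int.castRingHom ℚ) u F).symm

/-- the points which are smooth modulo `l` -/
theorem cov_prime (l : ℕ) (hl : l.Prime) {F : MvPolynomial (Fin 3) ℤ} {e : ℕ}
    (hF : F.IsHomogeneous e) (B : Fin 3 → ℕ) (hB : 6 * ((B 0 : ℤ) * B 1 * B 2) < (l : ℤ) ^ 3)
    (k : Fin 3) (U : Finset (V 3)) (hU : ∀ u ∈ U, ∀ i, |u i| ≤ B i)
    (h0 : ∀ u ∈ U, eval u F = 0) (hk : ∀ u ∈ U, ¬ (l : ℤ) ∣ u k)
    (hg : ∀ u ∈ U, ∃ i, ¬ (l : ℤ) ∣ eval u (pderiv i F)) : Cov (2 * e * l) U := by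
  classical
  have : Fact l.Prime := ⟨hl⟩
  have hlp : Prime (l : ℤ) := Nat.prime_iff_prime_int.1 hl
  rcases U.eq_empty_or_nonempty with rfl | ⟨u0, hu0⟩
  · exact cov_empty (by positivity) (by simp)
  set G := map (Int.castRingHom (ZMod l)) F with hGdef
  have hG : G.IsHomogeneous e := hF.map _
  have hG0 : G ≠ 0 := by
    intro h
    obtain ⟨i, hi⟩ := hg u0 hu0
    apply hi
    rw [← ZMod.intCast_zmod_eq_zero_iff_dvd, ← eval_cast, ← pderiv_map, ← hGdef, h]
    simp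
  have hk' : ∀ u ∈ U, ((u k : ℤ) : ZMod l) ≠ 0 := fun u hu h =>
    hk u hu ((ZMod.intCast_zmod_eq_zero_iff_dvd _ _).1 h)
  set cls : V 3 → Fin 3 → ZMod l := fun u => ((u k : ℤ) : ZMod l)⁻¹ • fun i => ((u i : ℤ) : ZMod l)
    with hcls
  have hcov := cov_biUnion
    ((univ : Finset (Fin 3 → ZMod l)).filter fun x => x k = 1 ∧ eval x G = 0) 1
    (fun x => U.filter fun u => cls u = x) (fun x _ => ?_) U (fun u hu => ?_)
  · refine hcov.le ?_
    rw [mul_one]
    exact count_zero l hG hG0 k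
  · rcases (U.filter fun u => cls u = x).eq_empty_or_nonempty with he | ⟨a, ha⟩
    · exact cov_empty zero_le_one (by rw [he]; simp)
    obtain ⟨ha1, ha2⟩ := mem_filter.1 ha
    have hcong : ∀ u ∈ U.filter fun u => cls u = x, ∀ j, (l : ℤ) ∣ a k * u j - u k * a j := by
      intro u hu j
      obtain ⟨hu1, hu2⟩ := mem_filter.1 hu
      have e1 := congrFun (ha2.trans hu2.symm) j
      simp only [hcls, Pi.smul_apply, smul_eq_mul] at e1
      rw [← ZMod.intCast_zmod_eq_zero_iff_dvd]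
      push_cast
      have e2 := hk' a ha1
      have e3 := hk' u hu1
      field_simp at e1
      linear_combination -e1
    obtain ⟨i, hi⟩ := hg a ha1
    refine cov_one a k (fun h => hk a ha1 (by rw [h]; exact dvd_zero _)) fun u hu u' hu' => ?_
    have hu1 := (mem_filter.1 hu).1
    have hu1' := (mem_filter.1 hu').1
    have hd := cube_dvd hF hlp a u u' k i (h0 a ha1) (h0 u hu1) (h0 u' hu1') (hk a ha1) (hk u hu1)
      (hk u' hu1') hi (hcong u hu) (hcong u' hu')
    refine Int.eq_zero_of_abs_lt_dvd hd ?_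
    exact (abs_dt_le B a u u' (hU a ha1) (hU u hu1) (hU u' hu1')).trans_lt hB
  · refine ⟨cls u, mem_filter.2 ⟨mem_univ _, ?_, ?_⟩, mem_filter.2 ⟨hu, rfl⟩⟩
    · simp only [hcls, Pi.smul_apply, smul_eq_mul]
      exact inv_mul_cancel₀ (hk' u hu)
    · simp only [hcls]
      rw [eval_smul_hom hG, hGdef, eval_cast, h0 u hu]
      simp

/-! ### a curve of small height -/

theorem siegel0 {β : Type} [Fintype β] (m : ℕ) (A : Matrix (Fin m) β ℤ) (K : ℕ) (hK : 1 ≤ K)
    (hm : m < Fintype.card β) (hA : ∀ i j, |A i j| ≤ K) :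
    ∃ t : β → ℤ, t ≠ 0 ∧ A.mulVec t = 0 ∧
      ∀ j, |t j| ≤ ((Fintype.card β * K) ^ Fintype.card β : ℕ) := by
  have hb : 1 ≤ Fintype.card β * K := Nat.mul_pos (by omega) hK
  rcases Nat.eq_zero_or_pos m with rfl | hm0
  · obtain ⟨b⟩ := Fintype.card_pos_iff.1 hm
    refine ⟨fun _ => 1, fun h => one_ne_zero (congrFun h b), funext fun i => i.elim0, fun j => ?_⟩
    rw [abs_one]
    exact_mod_cast Nat.one_le_pow _ _ hb
  obtain ⟨t, h1, h2, h3⟩ := Int.Matrix.exists_ne_zero_int_vec_norm_le A (by simpa using hm)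
    (by simpa using hm0)
  have hn := (Matrix.norm_le_iff (r := (K : ℝ)) (by positivity) (A := A)).2 fun i j => by
    rw [Int.norm_eq_abs]
    exact_mod_cast hA i j
  refine ⟨t, h1, h2, fun j => ?_⟩
  have hK' : (1 : ℝ) ≤ K := by exact_mod_cast hK
  have hm' : (m : ℝ) + 1 ≤ Fintype.card β := by exact_mod_cast hm
  have hm0' : (0 : ℝ) ≤ m := by positivity
  rw [Fintype.card_fin] at h3
  have he : (m : ℝ) / (Fintype.card β - m) ≤ Fintype.card β :=
    (div_le_self hm0' (by linarith)).trans (by linarith)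
  have he0 : 0 ≤ (m : ℝ) / (Fintype.card β - m) := div_nonneg hm0' (by linarith)
  have h4 : ‖t‖ ≤ ((Fintype.card β : ℝ) * K) ^ (Fintype.card β : ℝ) := by
    refine h3.trans ((Real.rpow_le_rpow (by positivity) ?_ he0).trans
      (Real.rpow_le_rpow_of_exponent_le ?_ he))
    · exact mul_le_mul_of_nonneg_left (max_le hK' hn) (by positivity)
    · exact_mod_cast hb
  have h5 := (norm_le_pi_norm t j).trans h4
  rw [Int.norm_eq_abs, Real.rpow_natCast] at h5
  exact_mod_cast h5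

theorem int_kernel {β ι : Type} [Fintype β] (U : Finset ι) (r : ι → β → ℤ) (K : ℕ) (hK : 1 ≤ K)
    (hr : ∀ u ∈ U, ∀ a, |r u a| ≤ K) (c : β → ℚ) (hc : c ≠ 0)
    (h0 : ∀ u ∈ U, ∑ a, (r u a : ℚ) * c a = 0) :
    ∃ t : β → ℤ, t ≠ 0 ∧ (∀ u ∈ U, ∑ a, r u a * t a = 0) ∧
      ∀ j, |t j| ≤ ((Fintype.card β * K) ^ Fintype.card β : ℕ) := by
  classical
  set s : Set (β → ℚ) := (fun u a => (r u a : ℚ)) '' (U : Set ι) with hs
  have hne : Submodule.span ℚ s ≠ ⊤ := by
    intro htop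
    have hle : Submodule.span ℚ s ≤ LinearMap.ker (Fintype.linearCombination ℚ c) := by
      refine Submodule.span_le.2 ?_
      rintro _ ⟨u, hu, rfl⟩
      simpa [Fintype.linearCombination_apply] using h0 u hu
    apply hc
    funext a
    have h1 := hle (htop ▸ Submodule.mem_top (x := Pi.single a 1))
    simpa using h1
  have hlt := Submodule.finrank_lt hne
  rw [Module.finrank_fintype_fun_eq_card] at hlt
  obtain ⟨f, hf1, hf2, -⟩ := Submodule.exists_fun_fin_finrank_span_eq ℚ s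
  choose x hx1 hx2 using hf1
  obtain ⟨t, h1, h2, h3⟩ := siegel0 _ (Matrix.of fun i a => r (x i) a) K hK hlt
    fun i a => hr (x i) (hx1 i) a
  refine ⟨t, h1, fun u hu => ?_, h3⟩
  have hle : Submodule.span ℚ s ≤
      LinearMap.ker (Fintype.linearCombination ℚ fun a => (t a : ℚ)) := by
    rw [← hf2]
    refine Submodule.span_le.2 ?_
    rintro _ ⟨i, rfl⟩
    have h4 := congrFun h2 i
    simp only [Matrix.mulVec, dotProduct, Matrix.of_apply, Pi.zero_apply] at h4
    rw [← hx2 i]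
    simp only [SetLike.mem_coe, LinearMap.mem_ker, Fintype.linearCombination_apply, smul_eq_mul]
    exact_mod_cast h4
  have h5 := hle (Submodule.subset_span ⟨u, hu, rfl⟩)
  simp only [LinearMap.mem_ker, Fintype.linearCombination_apply, smul_eq_mul] at h5
  exact_mod_cast h5

theorem abs_mono_le (u : V 3) (R : ℕ) (hR : 1 ≤ R) (hu : ∀ i, |u i| ≤ R) (a : Fin 3 → ℕ) (e : ℕ)
    (ha : ∑ i, a i ≤ e) : |∏ i, u i ^ a i| ≤ ((R ^ e : ℕ) : ℤ) := by
  rw [Finset.abs_prod]
  have h1 : ∏ i, |u i ^ a i| ≤ ∏ i, (R : ℤ) ^ a i := by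
    refine Finset.prod_le_prod (fun i _ => abs_nonneg _) fun i _ => ?_
    rw [abs_pow]
    exact pow_le_pow_left₀ (abs_nonneg _) (hu i) _
  refine h1.trans ?_
  rw [Finset.prod_pow_eq_pow_sum]
  exact_mod_cast Nat.pow_le_pow_right hR ha

theorem nat_bound (N e q : ℕ) (hq : 2 ≤ q) :
    N * ((N * (q ^ 3) ^ e) ^ N * e * (q ^ 3) ^ e) * q ^ 3 <
      q ^ (N + (N + 3 * e) * N + e + 3 * e + 3 + 1) := by
  have hpow : ∀ n : ℕ, n ≤ q ^ n := fun n =>
    (Nat.lt_two_pow_self (n := n)).le.trans (Nat.pow_le_pow_left hq n)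
  calc N * ((N * (q ^ 3) ^ e) ^ N * e * (q ^ 3) ^ e) * q ^ 3
      ≤ q ^ N * ((q ^ N * (q ^ 3) ^ e) ^ N * q ^ e * (q ^ 3) ^ e) * q ^ 3 := by
        gcongr
        · exact hpow N
        · exact hpow N
        · exact hpow e
    _ = q ^ (N + (N + 3 * e) * N + e + 3 * e + 3) := by
        rw [← pow_mul, ← pow_add, ← pow_mul, ← pow_add, ← pow_add, ← pow_add, ← pow_add]
        congr 1
        ring
    _ < _ := Nat.pow_lt_pow_right (by omega) (Nat.lt_succ_self _)

theorem height (e : ℕ) : ∃ M : ℕ, ∀ (q : ℕ) (U : Finset (V 3)) (F : MvPolynomial (Fin 3) ℚ),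
    2 ≤ q → (∀ u ∈ U, ∀ i, |u i| ≤ ((q ^ 3 : ℕ) : ℤ)) → F ≠ 0 → F.IsHomogeneous e →
    (∀ u ∈ U, eval (fun i => (u i : ℚ)) F = 0) →
    ∃ G : MvPolynomial (Fin 3) ℤ, G ≠ 0 ∧ G.IsHomogeneous e ∧ (∀ u ∈ U, eval u G = 0) ∧
      ∀ u ∈ U, ∀ i k, |eval u (pderiv i G) * u k| < (q : ℤ) ^ M := by
  classical
  set Mon : Finset (Fin 3 →₀ ℕ) := (univ : Finset (Fin 3)).finsuppAntidiag e with hMon
  have hmem : ∀ a : Fin 3 →₀ ℕ, a ∈ Mon ↔ ∑ i, a i = e := by
    intro a
    simp [hMon]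
  set N := Fintype.card Mon with hN
  refine ⟨N + (N + 3 * e) * N + e + 3 * e + 3 + 1, fun q U F hq hU hF0 hF h0 => ?_⟩
  have hq3 : 1 ≤ q ^ 3 := Nat.one_le_pow _ _ (by omega)
  have hsupp : F.support ⊆ Mon := by
    intro d hd
    rw [hmem]
    by_contra hne
    refine (mem_support_iff.1 hd) (hF.coeff_eq_zero ?_)
    rwa [Finsupp.degree_eq_sum]
  obtain ⟨t, ht0, ht1, ht2⟩ := int_kernel U (fun u (a : Mon) => ∏ i, u i ^ a.1 i) ((q ^ 3) ^ e)
    (Nat.one_le_pow _ _ hq3)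
    (fun u hu a => abs_mono_le u _ hq3 (hU u hu) _ e ((hmem a.1).1 a.2).le)
    (fun a => coeff a.1 F) (by
      intro h
      obtain ⟨d, hd⟩ := support_nonempty.2 hF0
      exact mem_support_iff.1 hd (congrFun h ⟨d, hsupp hd⟩)) (by
      intro u hu
      have h1 := h0 u hu
      rw [eval_eq', Finset.sum_subset hsupp (by
        intro d _ hd
        rw [notMem_support_iff.1 hd, zero_mul]), ← Finset.sum_coe_sort] at h1
      rw [← h1]
      refine Finset.sum_congr rfl fun a _ => ?_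
      push_cast
      ring)
  refine ⟨∑ a : Mon, monomial a.1 (t a), ?_, ?_, fun u hu => ?_, fun u hu i k => ?_⟩
  · intro h
    apply ht0
    funext a
    have h1 := congrArg (coeff a.1) h
    rw [coeff_sum, Finset.sum_eq_single a] at h1
    · simpa using h1
    · intro b _ hb
      rw [coeff_monomial, if_neg fun h => hb (Subtype.ext h)]
    · intro h
      exact absurd (mem_univ a) h
  · refine IsHomogeneous.sum _ _ _ fun a _ => isHomogeneous_monomial _ ?_
    rw [Finsupp.degree_eq_sum]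
    exact (hmem a.1).1 a.2
  · rw [map_sum, ← ht1 u hu]
    refine Finset.sum_congr rfl fun a _ => ?_
    rw [eval_monomial, Finsupp.prod_fintype _ _ (by simp), mul_comm]
  · have hterm : ∀ a : Mon, |eval u (pderiv i (monomial a.1 (t a)))| ≤
        (((N * (q ^ 3) ^ e) ^ N * e * (q ^ 3) ^ e : ℕ) : ℤ) := by
      intro a
      have ha := (hmem a.1).1 a.2
      rw [pderiv_monomial, eval_monomial, Finsupp.prod_fintype _ _ (by simp), abs_mul, abs_mul]
      have h1 := abs_mono_le u _ hq3 (hU u hu) (fun j => (a.1 - Finsupp.single i 1 : Fin 3 →₀ ℕ) j)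
        e (le_trans (Finset.sum_le_sum fun j _ => by simp) ha.le)
      have h2 : |((a.1 i : ℕ) : ℤ)| ≤ (e : ℤ) := by
        rw [Nat.abs_cast]
        have := Finset.single_le_sum (f := fun j => a.1 j) (fun j _ => Nat.zero_le _) (mem_univ i)
        exact_mod_cast this.trans ha.le
      have h3 := ht2 a
      rw [Nat.cast_mul, Nat.cast_mul]
      exact mul_le_mul (mul_le_mul h3 h2 (abs_nonneg _) (Int.natCast_nonneg _)) h1 (abs_nonneg _)
        (mul_nonneg (Int.natCast_nonneg _) (Int.natCast_nonneg _))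
    have hsum : |eval u (pderiv i (∑ a : Mon, monomial a.1 (t a)))| ≤
        ((N * ((N * (q ^ 3) ^ e) ^ N * e * (q ^ 3) ^ e) : ℕ) : ℤ) := by
      rw [map_sum, map_sum]
      refine (Finset.abs_sum_le_sum_abs _ _).trans ?_
      refine (Finset.sum_le_card_nsmul _ _ _ fun a _ => hterm a).trans (le_of_eq ?_)
      rw [card_univ, nsmul_eq_mul, ← hN, ← Nat.cast_mul]
    have hnat := nat_bound N e q hq
    rw [abs_mul]
    have h4 := mul_le_mul hsum (hU u hu k) (abs_nonneg _) (Int.natCast_nonneg _)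
    refine h4.trans_lt ?_
    rw [← Nat.cast_mul, ← Nat.cast_pow]
    exact Nat.cast_lt.2 hnat

/-! ### primes -/

theorem exists_primes (M Q : ℕ) (hQ : 1 ≤ Q) : ∃ ℓ : Fin M → ℕ, Function.Injective ℓ ∧
    ∀ i, (ℓ i).Prime ∧ Q < ℓ i ∧ ℓ i ≤ 2 ^ M * Q := by
  have h := fun n : ℕ => fun hn : n ≠ 0 => Nat.exists_prime_lt_and_le_two_mul n hn
  choose! p hp using h
  obtain ⟨a, ha0, has⟩ : ∃ a : ℕ → ℕ, a 0 = Q ∧ ∀ i, a (i + 1) = p (a i) :=
    ⟨fun i => p^[i] Q, rfl, fun i => Function.iterate_succ_apply' p i Q⟩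
  have hpos : ∀ i, a i ≠ 0 := by
    intro i
    induction i with
    | zero => rw [ha0]; omega
    | succ i ih => rw [has]; exact (hp (a i) ih).1.ne_zero
  have hmono : StrictMono a := by
    refine strictMono_nat_of_lt_succ fun i => ?_
    rw [has]
    exact (hp (a i) (hpos i)).2.1
  have hup : ∀ i, a i ≤ 2 ^ i * Q := by
    intro i
    induction i with
    | zero => rw [ha0]; simp
    | succ i ih =>
      rw [has]
      have := (hp (a i) (hpos i)).2.2
      calc p (a i) ≤ 2 * a i := this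
        _ ≤ 2 * (2 ^ i * Q) := by omega
        _ = 2 ^ (i + 1) * Q := by ring
  refine ⟨fun i => a (i + 1), ?_, fun i => ⟨?_, ?_, ?_⟩⟩
  · intro i j hij
    have := hmono.injective hij
    exact Fin.ext (by omega)
  · change (a (i + 1)).Prime
    rw [has]
    exact (hp (a i) (hpos i)).1
  · have := hmono (show 0 < (i : ℕ) + 1 by omega)
    rwa [ha0] at this
  · refine (hup (i + 1)).trans (Nat.mul_le_mul_right _ ?_)
    exact Nat.pow_le_pow_right (by norm_num) (by omega)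

theorem exists_good (M Q : ℕ) (ℓ : Fin M → ℕ) (hinj : Function.Injective ℓ)
    (hℓ : ∀ i, (ℓ i).Prime ∧ Q < ℓ i) (b : ℤ) (hb : b ≠ 0) (hbQ : |b| < (Q : ℤ) ^ M) :
    ∃ i, ¬ ((ℓ i : ℤ) ∣ b) := by
  by_contra hcon
  push Not at hcon
  have h1 : ∏ i, (ℓ i : ℤ) ∣ b := by
    refine Finset.prod_dvd_of_coprime ?_ fun i _ => hcon i
    intro i _ j _ hij
    have h2 : Nat.Coprime (ℓ i) (ℓ j) :=
      (Nat.coprime_primes (hℓ i).1 (hℓ j).1).2 fun h => hij (hinj h)
    exact Nat.isCoprime_iff_coprime.2 h2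
  have h2 : ∏ i, (ℓ i : ℤ) ≤ |b| :=
    Int.le_of_dvd (abs_pos.2 hb) ((dvd_abs _ _).2 h1)
  have h3 : (Q : ℤ) ^ M ≤ ∏ i, (ℓ i : ℤ) := by
    have : ∏ _i : Fin M, (Q : ℤ) ≤ ∏ i, (ℓ i : ℤ) := by
      refine Finset.prod_le_prod (fun i _ => by positivity) fun i _ => ?_
      have := (hℓ i).2
      exact_mod_cast this.le
    simpa using this
  exact absurd hbQ (not_lt.2 (h3.trans h2))

/-! ### the induction -/

theorem main (e : ℕ) : ∃ C : ℝ, 1 ≤ C ∧ ∀ (B : Fin 3 → ℕ) (Q : ℝ) (U : Finset (V 3))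
    (F : MvPolynomial (Fin 3) ℚ), 1 ≤ Q → (∀ i, 1 ≤ B i) → ∏ i, (B i : ℝ) ≤ Q ^ 3 →
    (∀ u ∈ U, ∀ i, |u i| ≤ B i) → F ≠ 0 → F.IsHomogeneous e →
    (∀ u ∈ U, eval (fun i => (u i : ℚ)) F = 0) → Cov (C * Q) U := by
  classical
  induction e with
  | zero =>
    refine ⟨1, le_rfl, fun B Q U F hQ _ _ _ hF0 hF h0 => cov_empty (by linarith) fun u hu => ?_⟩
    rw [← totalDegree_zero_iff_isHomogeneous, totalDegree_eq_zero_iff_eq_C] at hF
    have h1 := h0 u hu
    rw [hF, eval_C] at h1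
    rw [h1, map_zero] at hF
    exact hF0 hF
  | succ e ih =>
    obtain ⟨C, hC, ih⟩ := ih
    obtain ⟨M, hM⟩ := height (e + 1)
    refine ⟨1 + C + (M * 3) * (2 * (e + 1 : ℕ) * (2 ^ M * 3)), ?_,
      fun B Q U F hQ hB1 hB hU hF0 hF h0 => ?_⟩
    · have : (0 : ℝ) ≤ (M * 3) * (2 * (e + 1 : ℕ) * (2 ^ M * 3)) := by positivity
      linarith
    set q := ⌈2 * Q⌉₊ with hq
    have hq1 : 2 * Q ≤ q := Nat.le_ceil _
    have hq2 : (q : ℝ) ≤ 3 * Q := by
      have := Nat.ceil_lt_add_one (show 0 ≤ 2 * Q by linarith)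
      linarith
    have hq3 : 2 ≤ q := by
      have : (2 : ℝ) ≤ q := by linarith
      exact_mod_cast this
    have hB8 : 8 * (B 0 * B 1 * B 2) ≤ q ^ 3 := by
      rw [Fin.prod_univ_three] at hB
      have h1 : (2 * Q) ^ 3 ≤ (q : ℝ) ^ 3 := pow_le_pow_left₀ (by linarith) hq1 3
      have h2 : 8 * ((B 0 : ℝ) * B 1 * B 2) ≤ (q : ℝ) ^ 3 := by nlinarith
      exact_mod_cast h2
    have hBq : ∀ i, B i ≤ q ^ 3 := by
      intro i
      have h1 := Finset.single_le_prod' (f := B) (fun j _ => hB1 j) (mem_univ i)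
      rw [Fin.prod_univ_three] at h1
      omega
    obtain ⟨G, hG0, hG, hGU, hGM⟩ := hM q U F hq3
      (fun u hu i => (hU u hu i).trans (by exact_mod_cast hBq i)) hF0 hF h0
    obtain ⟨i0, hi0⟩ : ∃ i, pderiv i G ≠ 0 := by
      by_contra hcon
      push Not at hcon
      have h1 := hG.sum_X_mul_pderiv
      simp only [hcon, mul_zero, Finset.sum_const_zero] at h1
      exact hG0 ((smul_eq_zero.1 h1.symm).resolve_left (Nat.succ_ne_zero e))
    obtain ⟨ℓ, hℓ1, hℓ2⟩ := exists_primes M q (by omega)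
    have c1 : Cov 1 (U.filter fun u => u = 0) := by
      refine cov_one ![1, 0, 0] 0 (by simp) fun u hu u' _ => ?_
      rw [(mem_filter.1 hu).2, dt_eq]
      simp
    have c2 : Cov (C * Q) (U.filter fun u => eval u (pderiv i0 G) = 0) := by
      refine ih B Q _ (map (Int.castRingHom ℚ) (pderiv i0 G)) hQ hB1 hB
        (fun u hu => hU u (mem_filter.1 hu).1) ?_ (IsHomogeneous.map hG.pderiv _) fun u hu => ?_
      · intro h
        apply hi0
        refine map_injective (Int.castRingHom ℚ) Int.cast_injective ?_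
        rw [h, map_zero]
      · rw [eval_castQ, (mem_filter.1 hu).2, Int.cast_zero]
    have c3 := cov_biUnion (univ : Finset (Fin M × Fin 3)) (2 * (e + 1 : ℕ) * (2 ^ M * 3) * Q)
      (fun p => U.filter fun u => ¬ (ℓ p.1 : ℤ) ∣ eval u (pderiv i0 G) * u p.2) (fun p _ => ?_)
      (U.filter fun u => u ≠ 0 ∧ eval u (pderiv i0 G) ≠ 0) (fun u hu => ?_)
    · have c4 := (c1.union c2 (U := U.filter fun u => u = 0 ∨ eval u (pderiv i0 G) = 0)
        fun u hu => by
          obtain ⟨h1, h2⟩ := mem_filter.1 hu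
          exact h2.imp (fun h => mem_filter.2 ⟨h1, h⟩) fun h => mem_filter.2 ⟨h1, h⟩).union c3
        (U := U) fun u hu => by
          by_cases h : u = 0 ∨ eval u (pderiv i0 G) = 0
          · exact Or.inl (mem_filter.2 ⟨hu, h⟩)
          · exact Or.inr (mem_filter.2 ⟨hu, not_or.1 h⟩)
      refine c4.le ?_
      rw [card_univ, Fintype.card_prod, Fintype.card_fin, Fintype.card_fin, Nat.cast_mul]
      have : ((3 : ℕ) : ℝ) = 3 := by norm_num
      rw [this]
      nlinarith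
    · obtain ⟨p1, p2, p3⟩ := hℓ2 p.1
      refine (cov_prime (ℓ p.1) p1 hG B ?_ p.2
        (U.filter fun u => ¬ (ℓ p.1 : ℤ) ∣ eval u (pderiv i0 G) * u p.2)
        (fun u hu => hU u (mem_filter.1 hu).1)
        (fun u hu => hGU u (mem_filter.1 hu).1)
        (fun u hu h => (mem_filter.1 hu).2 (h.mul_left _))
        (fun u hu => ⟨i0, fun h => (mem_filter.1 hu).2 (h.mul_right _)⟩)).le ?_
      · have h1 : q ^ 3 < ℓ p.1 ^ 3 := Nat.pow_lt_pow_left p2 (by norm_num)
        have h2 : 6 * (B 0 * B 1 * B 2) < ℓ p.1 ^ 3 := by omega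
        exact_mod_cast h2
      · have h1 : (ℓ p.1 : ℝ) ≤ 2 ^ M * q := by exact_mod_cast p3
        have h2 : (ℓ p.1 : ℝ) ≤ 2 ^ M * 3 * Q := by
          refine h1.trans ?_
          rw [mul_assoc]
          exact mul_le_mul_of_nonneg_left hq2 (by positivity)
        rw [mul_assoc (2 * ((e + 1 : ℕ) : ℝ))]
        exact mul_le_mul_of_nonneg_left h2 (by positivity)
    · obtain ⟨h1, h2, h3⟩ := mem_filter.1 hu
      obtain ⟨k, hk⟩ := Function.ne_iff.1 h2
      obtain ⟨j, hj⟩ := exists_good M q ℓ hℓ1 (fun i => ⟨(hℓ2 i).1, (hℓ2 i).2.1⟩) _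
        (mul_ne_zero h3 hk) (hGM u h1 i0 k)
      exact ⟨(j, k), mem_univ _, mem_filter.2 ⟨h1, hj⟩⟩

end E

/-- package E -/
theorem jarnikS : JarnikS := fun e => E.main e

end Vale.Agent.N018.H
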