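import Vale.Agent.N018.H.Def2

/-! # P018, pair (6,3), package H2: the number of points on a short piece of a line. -/

namespace Vale.Agent.N018.H

open Finset Polynomial NumberField Vale.Agent.P018 Vale.Agent.P018.K

namespace LN

lemma num_deg {L : Type} [Field L] (p w : Fin 6 → L) {I : Finset (Fin 6)} (hI : I.card = 3)
    {l : Fin 6 → L[X]} (hl : ∀ i, (l i).natDegree ≤ 1) : (num p w I l).natDegree ≤ 7 := by
  unfold num
  refine natDegree_sum_le_of_forall_le _ _ fun i hi => natDegree_mul_le.trans ?_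
  have h1 : (C (w i) * l i).natDegree ≤ 1 := (natDegree_C_mul_le _ _).trans (hl i)
  have h2 : (∏ j ∈ I.erase i, (X - C (p j)) ^ 3).natDegree ≤ 6 := by
    refine (natDegree_prod_le _ _).trans ?_
    refine (sum_le_card_nsmul _ _ 3 fun j _ => ?_).trans ?_
    · exact natDegree_pow_le_of_le 3 (natDegree_X_sub_C_le (p j))
    · rw [card_erase_of_mem hi, hI]
      simp
  omega

lemma num_eval {L : Type} [Field L] (p w : Fin 6 → L) (I : Finset (Fin 6))
    (l : Fin 6 → L[X]) (x : L) :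
    (num p w I l).eval x = ∑ i ∈ I, w i * (l i).eval x * ∏ j ∈ I.erase i, (x - p j) ^ 3 := by
  unfold num
  rw [eval_finsetSum]
  refine sum_congr rfl fun i _ => ?_
  simp only [eval_mul, eval_C, eval_prod, eval_pow, eval_sub, eval_X]

/-- the algebraic core -/
lemma alg_count (hA : AlgS) {L Y : Type} [Field L] [CharZero L] [DecidableEq Y] {θ : Fin 6 → L}
    (hθ : Function.Injective θ) (T : Finset Y) (u : Fin 2 → Y → L) (lam : Fin 6 → Fin 2 → L)
    (n : Y → L) (γ π : Y → Fin 6 → L) {c : L} (hc : c ≠ 0)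
    (hπ : ∀ y ∈ T, ∀ i, π y i = u 0 y * lam i 0 + u 1 y * lam i 1)
    (hπ0 : ∀ y ∈ T, ∀ i, π y i ≠ 0)
    (hnp : ∀ y ∈ T, ∀ y' ∈ T, y ≠ y' → ∀ i j, i ≠ j → π y i * π y' j ≠ π y j * π y' i)
    (hγ : ∀ y ∈ T, ∀ i, c * (n y - θ i) = π y i ^ 3 * γ y i)
    (hker : ∀ I : Finset (Fin 6), I.card = 3 → ∃ β : Fin 6 → Fin 2 → L, (∃ i ∈ I, β i ≠ 0) ∧
      ∀ y ∈ T, ∑ i ∈ I, γ y i * (β i 0 * u 0 y + β i 1 * u 1 y) = 0) : T.card ≤ 15 := by
  classical
  by_cases h1 : T.card ≤ 1
  · omega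
  obtain ⟨x1, hx1, x2, hx2, hne⟩ := one_lt_card.1 (not_le.1 h1)
  choose! β hβ0 hβ using hker
  obtain ⟨d, hd⟩ : ∃ d : Y → Y → L, ∀ y y', d y y' = u 0 y * u 1 y' - u 1 y * u 0 y' :=
    ⟨_, fun _ _ => rfl⟩
  have hd0 : ∀ y ∈ T, ∀ y' ∈ T, y ≠ y' → d y y' ≠ 0 := by
    intro y hy y' hy' h h0
    refine hnp y hy y' hy' h 0 1 (by decide) ?_
    rw [hd] at h0
    rw [hπ y hy, hπ y hy, hπ y' hy', hπ y' hy']
    linear_combination (lam 0 0 * lam 1 1 - lam 0 1 * lam 1 0) * h0
  have hD := hd0 x1 hx1 x2 hx2 hne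
  obtain ⟨p, hp⟩ : ∃ p : Fin 6 → L, ∀ i, p i = -π x2 i / π x1 i := ⟨_, fun _ => rfl⟩
  have hpi : Function.Injective p := by
    intro i j hij
    by_contra hc'
    refine hnp x1 hx1 x2 hx2 hne i j hc' ?_
    rw [hp, hp, div_eq_div_iff (hπ0 x1 hx1 i) (hπ0 x1 hx1 j)] at hij
    linear_combination hij
  obtain ⟨l, hl⟩ : ∃ l : Finset (Fin 6) → Fin 6 → L[X], ∀ I i, l I i =
      C ((β I i 0 * u 0 x1 + β I i 1 * u 1 x1) / π x1 i ^ 3) * X +
        C ((β I i 0 * u 0 x2 + β I i 1 * u 1 x2) / π x1 i ^ 3) := ⟨_, fun _ _ => rfl⟩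
  have hl1 : ∀ I i, (l I i).natDegree ≤ 1 := fun I i => by
    rw [hl]
    exact natDegree_linear_le
  obtain ⟨I, I', hI, hI', hQ⟩ := hA L p θ hpi hθ l fun I hI => ⟨hl1 I, by
    obtain ⟨i, hi, hb⟩ := hβ0 I hI
    refine ⟨i, hi, fun h0 => hb ?_⟩
    rw [hl] at h0
    have a1 := congrArg (fun q : L[X] => q.coeff 1) h0
    have a0 := congrArg (fun q : L[X] => q.coeff 0) h0
    have h3 := pow_ne_zero 3 (hπ0 x1 hx1 i)
    simp only [coeff_add, coeff_C_mul, coeff_X_one, coeff_X_zero, coeff_C_zero, coeff_zero,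
      mul_one, mul_zero, zero_add, coeff_C_succ, add_zero, div_eq_zero_iff, h3, or_false] at a1 a0
    rw [hd] at hD
    funext j
    fin_cases j
    · refine mul_right_cancel₀ hD ?_
      simp only [Fin.zero_eta, Pi.zero_apply]
      linear_combination (u 1 x2) * a1 - (u 1 x1) * a0
    · refine mul_right_cancel₀ hD ?_
      simp only [Fin.mk_one, Pi.zero_apply]
      linear_combination (u 0 x1) * a0 - (u 0 x2) * a1⟩
  obtain ⟨x, hx⟩ : ∃ x : Y → L, ∀ y, x y = d y x2 / d x1 y := ⟨_, fun _ => rfl⟩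
  have hrel : ∀ I : Finset (Fin 6), I.card = 3 → ∀ y ∈ T.erase x1,
      (num p θ I (l I)).eval (x y) = n y * (num p (fun _ => 1) I (l I)).eval (x y) := by
    intro I hI y hy
    obtain ⟨hy1, hy⟩ := mem_erase.1 hy
    have ht := hd0 x1 hx1 y hy hy1.symm
    obtain ⟨t, htd⟩ : ∃ t : L, t = d x1 y / d x1 x2 := ⟨_, rfl⟩
    have ht0 : t ≠ 0 := by rw [htd]; exact div_ne_zero ht hD
    have hu : ∀ j, u j y = t * (u j x1 * x y + u j x2) := by
      intro j
      rw [htd, hx]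
      field_simp
      rw [hd, hd, hd]
      fin_cases j
      · simp only [Fin.zero_eta]
        ring
      · simp only [Fin.mk_one]
        ring
    have hπy : ∀ i, π y i = t * π x1 i * (x y - p i) := by
      intro i
      have h3 := hπ0 x1 hx1 i
      rw [hp, hπ y hy, hu 0, hu 1]
      field_simp
      rw [hπ x1 hx1, hπ x2 hx2]
      ring
    rw [num_eval, num_eval, mul_sum, ← sub_eq_zero, ← sum_sub_distrib]
    refine mul_left_cancel₀ hc ?_
    rw [mul_zero, mul_sum]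
    have h4 := hβ I hI y hy
    have h5 : ∀ i ∈ I, c * (θ i * (l I i).eval (x y) * ∏ j ∈ I.erase i, (x y - p j) ^ 3 -
        n y * (1 * (l I i).eval (x y) * ∏ j ∈ I.erase i, (x y - p j) ^ 3)) =
        (-(t ^ 2 * ∏ j ∈ I, (x y - p j) ^ 3)) *
          (γ y i * (β I i 0 * u 0 y + β I i 1 * u 1 y)) := by
      intro i hi
      have h3 := hπ0 x1 hx1 i
      have h6 := hγ y hy i
      rw [hπy] at h6
      have h7 : (l I i).eval (x y) * (t * π x1 i ^ 3) = β I i 0 * u 0 y + β I i 1 * u 1 y := by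
        rw [hl, hu 0, hu 1]
        simp only [eval_add, eval_mul, eval_C, eval_X]
        field_simp
        ring
      rw [← mul_prod_erase I _ hi, ← h7]
      linear_combination
        (-((l I i).eval (x y) * ∏ j ∈ I.erase i, (x y - p j) ^ 3)) * h6
    rw [sum_congr rfl h5, ← mul_sum, h4, mul_zero]
  have hxi : Set.InjOn x (T.erase x1 : Finset Y) := by
    intro y hy y' hy' h
    obtain ⟨hy1, hy⟩ := mem_erase.1 (mem_coe.1 hy)
    obtain ⟨hy1', hy'⟩ := mem_erase.1 (mem_coe.1 hy')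
    by_contra hc'
    refine mul_ne_zero (hd0 y hy y' hy' hc') hD ?_
    rw [hx, hx, div_eq_div_iff (hd0 x1 hx1 y hy hy1.symm) (hd0 x1 hx1 y' hy' hy1'.symm)] at h
    simp only [hd] at h ⊢
    linear_combination h
  have hQ0 := sub_ne_zero.2 hQ
  have hdeg : (num p (fun _ => 1) I (l I) * num p θ I' (l I') -
      num p θ I (l I) * num p (fun _ => 1) I' (l I')).natDegree ≤ 14 := by
    refine (natDegree_sub_le _ _).trans (max_le ?_ ?_)
    · refine natDegree_mul_le.trans ?_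
      have a1 := num_deg p (fun _ => 1) hI (hl1 I)
      have a2 := num_deg p θ hI' (hl1 I')
      omega
    · refine natDegree_mul_le.trans ?_
      have a1 := num_deg p θ hI (hl1 I)
      have a2 := num_deg p (fun _ => 1) hI' (hl1 I')
      omega
  have hcard := card_le_degree_of_subset_roots (Z := (T.erase x1).image x)
    (p := num p (fun _ => 1) I (l I) * num p θ I' (l I') -
      num p θ I (l I) * num p (fun _ => 1) I' (l I')) (by
    intro z hz
    have hz' : z ∈ (T.erase x1).image x := hz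
    obtain ⟨y, hy, rfl⟩ := mem_image.1 hz'
    rw [mem_roots hQ0, IsRoot, eval_sub, eval_mul, eval_mul, hrel I hI y hy, hrel I' hI' y hy]
    ring)
  rw [card_image_of_injOn hxi, card_erase_of_mem hx1] at hcard
  omega

end LN

open LN in
theorem lineS (hB : BasisS) (hL : LineDetS) (hA : AlgS) (hR : RkThinS) (hN : NpS) : LineS := by
  classical
  intro L _ _ θ hθ A0 Cs hA0
  obtain ⟨C1, hC1, hbas⟩ := hB 6 2
  obtain ⟨K, hK0, hdet⟩ := hL L θ A0 Cs C1 hA0 hC1
  refine ⟨K, hK0, ?_⟩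
  intro X R η H c nn j0 T hX hR1 hη0 hη1 hXη hH hK hc0 hc hD hNar hrk hNS
  by_cases h1 : rk T ≤ 0 + 1
  · have h2 := hN 6 1 T hD.np (by simpa using hR 6 0 1 T h1)
    omega
  obtain ⟨v, a, J, hu, hΔ, hv⟩ := hbas T (by omega)
  rcases T.eq_empty_or_nonempty with hT | ⟨y0, hy0⟩
  · rw [hT]
    simp
  have hv0 : ∀ i, v i ≠ 0 := by
    intro i h0
    refine hΔ (Matrix.det_eq_zero_of_row_eq_zero i fun k => ?_)
    rw [Matrix.of_apply, h0]
    rfl
  have hHv : H ≤ ∏ i, ‖v i‖ := hNS y0 hy0 v hv0 ⟨fun i => (dz (a i) y0 : ℚ), fun j => by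
    rw [hu y0 hy0 j]
    push_cast
    rfl⟩
  have hγ' := hD.hγ
  choose! γ hγ using hγ'
  have hz := hdet X R η H c nn j0 T v (fun i y => dz (a i) y) J γ hX hR1 hη0 hη1 hXη hH hK hc hD
    hNar hu hΔ hv hHv hγ
  obtain ⟨ι, hι⟩ : ∃ ι : 𝓞 L →+* L, ι = algebraMap (𝓞 L) L := ⟨_, rfl⟩
  have hιi : Function.Injective ι := by rw [hι]; exact RingOfIntegers.coe_injective
  refine (alg_count hA (θ := fun i => ι (θ i)) (hιi.comp hθ) T
    (fun j y => (dz (a j) y : L)) (fun i j => ι (ell (θ i) (v j))) (fun y => (nn y : L))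
    (fun y i => ι (γ y i)) (fun y i => ι (ell (θ i) y)) (c := (c : L) ^ 3)
    (pow_ne_zero 3 (by exact_mod_cast hc0)) ?_ ?_ ?_ ?_ ?_).trans (by norm_num)
  · intro y hy i
    simp only [sizes_map_ell]
    unfold ell
    rw [mul_sum, mul_sum, ← sum_add_distrib]
    refine sum_congr rfl fun j _ => ?_
    rw [hu y hy j, Fin.sum_univ_two]
    push_cast
    ring
  · intro y hy i h0
    obtain ⟨N, hN1, hN2⟩ := hD.hN y hy
    have h2 : ell (θ i) y = 0 := hιi (by rw [map_zero]; exact h0)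
    rw [prod_eq_zero (mem_univ i) h2] at hN1
    have h3 : N = 0 := by exact_mod_cast hN1.symm
    rw [h3] at hN2
    have h4 : (0 : ℝ) < R ^ 6 := by positivity
    simp only [Int.cast_zero, abs_zero] at hN2
    linarith
  · intro y hy y' hy' hne i j hij h0
    refine hD.npi y hy y' hy' hne i j hij (hιi ?_)
    rw [map_mul, map_mul]
    exact h0
  · intro y hy i
    have h2 := congrArg ι (hγ y hy i)
    simpa only [map_mul, map_pow, map_sub, map_intCast] using h2
  · intro I hI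
    obtain ⟨e, he⟩ : ∃ e : Fin 3 ↪ Fin 6, univ.map e = I :=
      ⟨(I.orderEmbOfFin hI).toEmbedding, map_orderEmbOfFin_univ I hI⟩
    obtain ⟨α, hα0, hα⟩ := exists_kernel (I := T) (J := Fin 3 × Fin 2) (K := L)
      (fun y f => ι (γ y (e f.1)) * (dz (a f.2) y : L)) (fun φ => by
        have h2 := congrArg ι (hz e (fun q => (φ q : V 6)) fun q => (φ q).2)
        rw [RingHom.map_det, map_zero] at h2
        refine Eq.trans (congrArg Matrix.det ?_) h2
        ext q f
        simp only [Matrix.of_apply, RingHom.mapMatrix_apply, Matrix.map_apply, map_mul,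
          map_intCast])
    refine ⟨Function.extend e (fun k j => α (k, j)) 0, ?_, fun y hy => ?_⟩
    · obtain ⟨f, hf⟩ := Function.ne_iff.1 hα0
      refine ⟨e f.1, he ▸ mem_map_of_mem e (mem_univ _), fun h0 => hf ?_⟩
      rw [e.injective.extend_apply] at h0
      exact congrFun h0 f.2
    · rw [← he, sum_map, ← hα ⟨y, hy⟩, Fintype.sum_prod_type]
      refine sum_congr rfl fun k _ => ?_
      rw [e.injective.extend_apply, Fin.sum_univ_two]
      ring

end Vale.Agent.N018.H
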