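import Vale.Agent.N018.H.Def2

/-! # P018, pair (6,3), package H1: the determinant of a short piece of a line vanishes. -/

namespace Vale.Agent.N018.H

open Finset Polynomial NumberField Vale.Agent.P018 Vale.Agent.P018.K

namespace LD

/-- six distinct slots -/
lemma sum_inj {Q : Type} [DecidableEq Q] (S : Finset Q) (m : Q → ℕ)
    (hm : ∀ f ∈ S, ∀ g ∈ S, m f = m g → f = g) :
    ∑ i ∈ range S.card, i ≤ ∑ f ∈ S, m f := by
  have hinj : Set.InjOn (fun f => (m f : ℤ)) S := fun f hf g hg h =>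
    hm f hf g hg (Int.natCast_inj.1 h)
  have h1 := Finset.sum_range_le_sum (s := S.image fun f => (m f : ℤ)) (c := 0) (by
    intro x hx
    obtain ⟨f, _, rfl⟩ := mem_image.1 hx
    exact Int.natCast_nonneg _)
  rw [card_image_of_injOn hinj, sum_image hinj] at h1
  simp only [zero_add] at h1
  have h2 : ((∑ i ∈ range S.card, i : ℕ) : ℤ) ≤ ((∑ f ∈ S, m f : ℕ) : ℤ) := by
    push_cast
    exact h1
  exact Int.ofNat_le.1 h2

lemma slots {X η : ℝ} (hX : 1 ≤ X) (hη0 : 0 < η) (hη1 : η ≤ 1) (hXη : 1 ≤ X * η ^ 3)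
    (φ : Fin 3 × Fin 2 → Fin 2 × Fin 8) (hφ : Function.Injective φ) :
    ∏ f, (X ^ ((φ f).1 : ℕ) * η ^ ((φ f).2 : ℕ)) ≤ X ^ 6 * max (η ^ 15) (η ^ 10 / X) := by
  classical
  have hX0 : 0 < X := by linarith only [hX]
  set S0 := univ.filter fun f => (φ f).1 = 0 with hS0
  set S1 := univ.filter fun f => ¬ (φ f).1 = 0 with hS1
  have hcard : S0.card + S1.card = 6 := by
    rw [hS0, hS1, card_filter_add_card_filter_not]
    simp
  have e1 : ∑ f, ((φ f).1 : ℕ) = S1.card := by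
    rw [hS1, card_filter]
    refine sum_congr rfl fun f _ => ?_
    generalize (φ f).1 = a
    revert a
    decide
  have e0 : ∑ i ∈ range S0.card, i ≤ ∑ f ∈ S0, ((φ f).2 : ℕ) := by
    refine sum_inj S0 _ fun f hf g hg h => hφ (Prod.ext ?_ (Fin.ext h))
    rw [(mem_filter.1 hf).2, (mem_filter.1 hg).2]
  have e2 : ∑ i ∈ range S1.card, i ≤ ∑ f ∈ S1, ((φ f).2 : ℕ) := by
    refine sum_inj S1 _ fun f hf g hg h => hφ (Prod.ext ?_ (Fin.ext h))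
    have a1 := (mem_filter.1 hf).2
    have a2 := (mem_filter.1 hg).2
    revert a1 a2
    generalize (φ f).1 = a
    generalize (φ g).1 = b
    revert a b
    decide
  have e3 : ∑ f, ((φ f).2 : ℕ) = ∑ f ∈ S0, ((φ f).2 : ℕ) + ∑ f ∈ S1, ((φ f).2 : ℕ) := by
    rw [hS0, hS1, sum_filter_add_sum_filter_not]
  rw [prod_mul_distrib, prod_pow_eq_pow_sum, prod_pow_eq_pow_sum, e1]
  have e4 : η ^ ∑ f, ((φ f).2 : ℕ) ≤
      η ^ (∑ i ∈ range S0.card, i + ∑ i ∈ range S1.card, i) :=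
    pow_le_pow_of_le_one hη0.le hη1 (by omega)
  refine (mul_le_mul_of_nonneg_left e4 (by positivity)).trans ?_
  have hA : X ^ 6 * η ^ 15 ≤ X ^ 6 * max (η ^ 15) (η ^ 10 / X) :=
    mul_le_mul_of_nonneg_left (le_max_left _ _) (by positivity)
  have hB : X ^ 5 * η ^ 10 ≤ X ^ 6 * max (η ^ 15) (η ^ 10 / X) := by
    refine le_trans (le_of_eq ?_) (mul_le_mul_of_nonneg_left (le_max_right _ _) (by positivity))
    field_simp
  have h4 : X ^ 4 * η ^ 7 ≤ X ^ 5 * η ^ 10 := by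
    calc X ^ 4 * η ^ 7 = X ^ 4 * η ^ 7 * 1 := (mul_one _).symm
      _ ≤ X ^ 4 * η ^ 7 * (X * η ^ 3) := mul_le_mul_of_nonneg_left hXη (by positivity)
      _ = X ^ 5 * η ^ 10 := by ring
  have h3 : X ^ 3 * η ^ 6 ≤ X ^ 4 * η ^ 7 := by
    have h5 : η ^ 3 ≤ η := by
      calc η ^ 3 ≤ η ^ 1 := pow_le_pow_of_le_one hη0.le hη1 (by norm_num)
        _ = η := pow_one η
    have h6 : 1 ≤ X * η := hXη.trans (mul_le_mul_of_nonneg_left h5 hX0.le)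
    calc X ^ 3 * η ^ 6 = X ^ 3 * η ^ 6 * 1 := (mul_one _).symm
      _ ≤ X ^ 3 * η ^ 6 * (X * η) := mul_le_mul_of_nonneg_left h6 (by positivity)
      _ = X ^ 4 * η ^ 7 := by ring
  have hp : ∀ a b : ℕ, a ≤ b → ∀ e : ℕ, X ^ a * η ^ e ≤ X ^ b * η ^ e := fun a b h e =>
    mul_le_mul_of_nonneg_right (pow_le_pow_right₀ hX h) (by positivity)
  generalize S0.card = k0 at hcard
  generalize S1.card = k1 at hcard
  obtain rfl : k0 = 6 - k1 := by omega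
  have hk : k1 ≤ 6 := by omega
  interval_cases k1
  · exact (hp 0 6 (by norm_num) 15).trans hA
  · exact (hp 1 5 (by norm_num) 10).trans hB
  · exact (hp 2 4 (by norm_num) 7).trans (h4.trans hB)
  · exact h3.trans (h4.trans hB)
  · exact h4.trans hB
  · exact hB
  · exact hA

lemma coeff_step {A : ℝ} {α β : ℂ} (hα : ‖α‖ ≤ A) (hβ : ‖β‖ ≤ A) {p : ℂ[X]}
    {B : ℝ} (hB : ∀ s, ‖p.coeff s‖ ≤ B) (s : ℕ) :
    ‖(p * (C α + C β * X)).coeff s‖ ≤ B * (2 * A) := by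
  have hB0 : 0 ≤ B := (norm_nonneg _).trans (hB 0)
  have hA0 : 0 ≤ A := (norm_nonneg _).trans hα
  have e : p * (C α + C β * X) = p * C α + C β * (p * X) := by ring
  rw [e, coeff_add, coeff_mul_C, coeff_C_mul]
  have h1 : ‖(p * X).coeff s‖ ≤ B := by
    cases s with
    | zero => rw [mul_coeff_zero, coeff_X_zero, mul_zero, norm_zero]; exact hB0
    | succ s => rw [coeff_mul_X]; exact hB s
  have h2 : ‖p.coeff s * α‖ ≤ B * A := by
    rw [norm_mul]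
    exact mul_le_mul (hB s) hα (norm_nonneg _) hB0
  have h3 : ‖β * (p * X).coeff s‖ ≤ A * B := by
    rw [norm_mul]
    exact mul_le_mul hβ h1 (norm_nonneg _) hA0
  refine (norm_add_le _ _).trans ?_
  linarith only [h2, h3]

lemma coeff_prod {A : ℝ} {ι : Type} [DecidableEq ι] {α β : ι → ℂ} (hα : ∀ i, ‖α i‖ ≤ A)
    (hβ : ∀ i, ‖β i‖ ≤ A) {p : ℂ[X]} {B : ℝ} (hB : ∀ s, ‖p.coeff s‖ ≤ B) (S : Finset ι) :
    ∀ s, ‖(p * ∏ i ∈ S, (C (α i) + C (β i) * X) ^ 3).coeff s‖ ≤ B * ((2 * A) ^ 3) ^ S.card := by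
  induction S using Finset.induction_on with
  | empty => intro s; simpa using hB s
  | insert i S hi ih =>
    intro s
    have e : p * ∏ j ∈ insert i S, (C (α j) + C (β j) * X) ^ 3 =
        (p * ∏ j ∈ S, (C (α j) + C (β j) * X) ^ 3) * (C (α i) + C (β i) * X) *
          (C (α i) + C (β i) * X) * (C (α i) + C (β i) * X) := by
      rw [Finset.prod_insert hi]
      ring
    rw [e, card_insert_of_notMem hi]
    refine (coeff_step (hα i) (hβ i) (coeff_step (hα i) (hβ i)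
      (coeff_step (hα i) (hβ i) ih)) s).trans (le_of_eq ?_)
    ring

/-- the polynomial in the parameter of the line -/
noncomputable def Pl (μ ν : Fin 2 → ℂ) (τ ω : Fin 3 → ℂ) (f : Fin 3 × Fin 2) : ℂ[X] :=
  (C (μ f.2) + C (ν f.2) * X) * ∏ i ∈ univ.erase f.1, (C (τ i) + C (ω i) * X) ^ 3

lemma lin_deg (a b : ℂ) : (C a + C b * X : ℂ[X]).natDegree ≤ 1 := by
  compute_degree

lemma Pl_deg (μ ν : Fin 2 → ℂ) (τ ω : Fin 3 → ℂ) (f : Fin 3 × Fin 2) :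
    (Pl μ ν τ ω f).natDegree < 8 := by
  unfold Pl
  refine Nat.lt_succ_of_le (natDegree_mul_le.trans ?_)
  have h1 := lin_deg (μ f.2) (ν f.2)
  have h2 : (∏ i ∈ univ.erase f.1, (C (τ i) + C (ω i) * X : ℂ[X]) ^ 3).natDegree ≤ 6 := by
    refine (natDegree_prod_le _ _).trans ?_
    refine (sum_le_card_nsmul _ _ 3 fun i _ => ?_).trans ?_
    · have h3 := natDegree_pow_le_of_le 3 (lin_deg (τ i) (ω i))
      simpa using h3
    · rw [card_erase_of_mem (mem_univ _)]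
      simp
  omega

lemma Pl_coeff {A : ℝ} {b : Fin 2 → ℝ} {μ ν : Fin 2 → ℂ} {τ ω : Fin 3 → ℂ}
    (hμ : ∀ j, ‖μ j‖ ≤ b j) (hν : ∀ j, ‖ν j‖ ≤ b j) (hτ : ∀ i, ‖τ i‖ ≤ A) (hω : ∀ i, ‖ω i‖ ≤ A)
    (f : Fin 3 × Fin 2) (s : ℕ) : ‖(Pl μ ν τ ω f).coeff s‖ ≤ b f.2 * (2 * A) ^ 6 := by
  unfold Pl
  have hb : 0 ≤ b f.2 := (norm_nonneg _).trans (hμ _)
  refine (coeff_prod hτ hω (B := b f.2) (fun s => ?_) _ s).trans (le_of_eq ?_)
  · rcases s with _ | _ | s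
    · simpa using hμ f.2
    · simpa using hν f.2
    · simpa [coeff_X, coeff_C] using hb
  · rw [card_erase_of_mem (mem_univ _)]
    simp only [card_univ, Fintype.card_fin]
    ring

lemma Pl_eval (μ ν : Fin 2 → ℂ) (τ ω : Fin 3 → ℂ) (f : Fin 3 × Fin 2) (x : ℂ) :
    (μ f.2 + ν f.2 * x) * ∏ i ∈ univ.erase f.1, (τ i + ω i * x) ^ 3 =
      ∑ m : Fin 8, (Pl μ ν τ ω f).coeff m * x ^ (m : ℕ) := by
  rw [Fin.sum_univ_eq_sum_range (fun m => (Pl μ ν τ ω f).coeff m * x ^ m),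
    ← eval_eq_sum_range' (Pl_deg μ ν τ ω f)]
  unfold Pl
  simp only [eval_mul, eval_add, eval_C, eval_X, eval_prod, eval_pow]

/-- points of an affine line in the plane -/
lemma line_par {Q : Type} [Fintype Q] [Nonempty Q] (μ : Q → Fin 2 → ℝ) (a : Fin 2 → ℝ)
    (h : ∀ q, μ q 0 * a 0 + μ q 1 * a 1 = 1) (q0 : Q) :
    ∃ (q1 : Q) (s : Q → ℝ), (∀ q, |s q| ≤ 1) ∧
      ∀ q j, μ q j = μ q0 j + s q * (μ q1 j - μ q0 j) := by
  have hN : 0 < a 0 ^ 2 + a 1 ^ 2 := by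
    by_contra hc
    have h0 : a 0 = 0 := by nlinarith [sq_nonneg (a 0), sq_nonneg (a 1)]
    have h1 : a 1 = 0 := by nlinarith [sq_nonneg (a 0), sq_nonneg (a 1)]
    have := h q0
    rw [h0, h1] at this
    simp at this
  -- parameter
  obtain ⟨r, hr⟩ : ∃ r : Q → ℝ, ∀ q, μ q 0 = μ q0 0 + r q * a 1 ∧ μ q 1 = μ q0 1 - r q * a 0 := by
    refine ⟨fun q => ((μ q 0 - μ q0 0) * a 1 - (μ q 1 - μ q0 1) * a 0) / (a 0 ^ 2 + a 1 ^ 2),
      fun q => ⟨?_, ?_⟩⟩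
    · field_simp
      linear_combination (a 0) * (h q - h q0)
    · field_simp
      linear_combination (a 1) * (h q - h q0)
  obtain ⟨q1, -, hq1⟩ := exists_max_image univ (fun q => |r q|) univ_nonempty
  by_cases hz : r q1 = 0
  · refine ⟨q1, fun _ => 0, fun _ => by simp, fun q j => ?_⟩
    have h1 : r q = 0 := by
      have := hq1 q (mem_univ _)
      simp only [hz, abs_zero] at this
      exact abs_nonpos_iff.1 this
    obtain ⟨e0, e1⟩ := hr q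
    rw [h1] at e0 e1
    fin_cases j
    · simpa using e0
    · simpa using e1
  · refine ⟨q1, fun q => r q / r q1, fun q => ?_, fun q j => ?_⟩
    · rw [abs_div, div_le_one (abs_pos.2 hz)]
      exact hq1 q (mem_univ _)
    · obtain ⟨e0, e1⟩ := hr q
      obtain ⟨f0, f1⟩ := hr q1
      fin_cases j
      · simp only [Fin.zero_eta]
        rw [e0, f0]
        field_simp
        ring
      · simp only [Fin.mk_one]
        rw [e1, f1]
        field_simp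
        ring

/-- a real combination of the powers of `z` -/
lemma pow_comb {z : ℂ} {A M : ℝ} (hA : 1 ≤ A) (hz : ‖z‖ ≤ A) {t : Fin 6 → ℝ}
    (ht : ∀ j, |t j| ≤ M) : ‖∑ j, (t j : ℂ) * z ^ (j : ℕ)‖ ≤ 6 * A ^ 6 * M := by
  have hM : 0 ≤ M := (abs_nonneg _).trans (ht 0)
  refine (norm_sum_le _ _).trans ?_
  refine (sum_le_card_nsmul _ _ (M * A ^ 6) fun j _ => ?_).trans (le_of_eq ?_)
  · rw [norm_mul, norm_pow, Complex.norm_real, Real.norm_eq_abs]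
    have h4 : ‖z‖ ^ (j : ℕ) ≤ A ^ 6 :=
      (pow_le_pow_left₀ (norm_nonneg _) hz _).trans (pow_le_pow_right₀ hA j.2.le)
    exact mul_le_mul (ht j) h4 (by positivity) hM
  · simp only [card_univ, Fintype.card_fin, nsmul_eq_mul]
    push_cast
    ring

/-- Cramer's rule in the plane -/
lemma cramer2 (v : Fin 2 → V 6) (J : Fin 2 → Fin 6) {Δ : ℤ}
    (hΔ : Δ = (Matrix.of fun i k => v i (J k)).det) (h0 : Δ ≠ 0) {μ : Fin 2 → ℝ} {M : ℝ}
    (h : ∀ j, |∑ i, μ i * (v i j : ℝ)| ≤ M) :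
    |μ 0| ≤ 2 * ‖v 1‖ / |(Δ : ℝ)| * M ∧ |μ 1| ≤ 2 * ‖v 0‖ / |(Δ : ℝ)| * M := by
  have hM : 0 ≤ M := (abs_nonneg _).trans (h 0)
  rw [Matrix.det_fin_two] at hΔ
  simp only [Matrix.of_apply] at hΔ
  have hΔ' : (Δ : ℝ) = v 0 (J 0) * v 1 (J 1) - v 0 (J 1) * v 1 (J 0) := by exact_mod_cast hΔ
  have hp : 0 < |(Δ : ℝ)| := abs_pos.2 (by exact_mod_cast h0)
  have hv : ∀ i j, |(v i j : ℝ)| ≤ ‖v i‖ := fun i j => by
    have := norm_le_pi_norm (v i) j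
    rwa [Int.norm_eq_abs] at this
  have a0 := h (J 0)
  have a1 := h (J 1)
  rw [Fin.sum_univ_two] at a0 a1
  have key : ∀ x y p q N : ℝ, |x| ≤ M → |y| ≤ M → |p| ≤ N → |q| ≤ N → |x * p - y * q| ≤ 2 * N * M := by
    intro x y p q N hx hy hp hq
    have hN : 0 ≤ N := (abs_nonneg _).trans hp
    refine (abs_sub _ _).trans ?_
    rw [abs_mul, abs_mul]
    have := mul_le_mul hx hp (abs_nonneg _) hM
    have := mul_le_mul hy hq (abs_nonneg _) hM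
    linarith
  constructor
  · rw [div_mul_eq_mul_div, le_div_iff₀ hp, ← abs_mul]
    refine le_trans (le_of_eq ?_) (key _ _ _ _ _ a0 a1 (hv 1 (J 1)) (hv 1 (J 0)))
    rw [hΔ']
    congr 1
    ring
  · rw [div_mul_eq_mul_div, le_div_iff₀ hp, ← abs_mul]
    refine le_trans (le_of_eq ?_) (key _ _ _ _ _ a1 a0 (hv 0 (J 0)) (hv 0 (J 1)))
    rw [hΔ']
    congr 1
    ring

/-- the determinant estimate over `ℂ` -/
lemma core {A X η : ℝ} (hA : 1 ≤ A) (hX : 1 ≤ X) (hη0 : 0 < η) (hη1 : η ≤ 1)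
    (hXη : 1 ≤ X * η ^ 3) {b : Fin 2 → ℝ} {c : ℂ} {θ τ ω : Fin 3 → ℂ}
    {n x : Fin 3 × Fin 2 → ℂ} {μ ν : Fin 2 → ℂ} (hc : ‖c‖ ≤ A) (hθ : ∀ i, ‖θ i‖ ≤ A)
    (hn : ∀ q, ‖n q‖ ≤ A * X) (hx : ∀ q, ‖x q‖ ≤ η) (hμ : ∀ j, ‖μ j‖ ≤ b j)
    (hν : ∀ j, ‖ν j‖ ≤ b j) (hτ : ∀ i, ‖τ i‖ ≤ A) (hω : ∀ i, ‖ω i‖ ≤ A) :
    ‖(Matrix.of fun q f : Fin 3 × Fin 2 => c * (n q - θ f.1) *
      ((μ f.2 + ν f.2 * x q) * ∏ i ∈ univ.erase f.1, (τ i + ω i * x q) ^ 3)).det‖ ≤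
      16 ^ 6 * (720 * ((A ^ 3 * (2 * A) ^ 6) ^ 6 * (b 0 * b 1) ^ 3 *
        (X ^ 6 * max (η ^ 15) (η ^ 10 / X)))) := by
  have hA0 : 0 < A := by linarith only [hA]
  have hX0 : 0 < X := by linarith only [hX]
  have hb : ∀ j, 0 ≤ b j := fun j => (norm_nonneg _).trans (hμ j)
  have hmax : 0 ≤ max (η ^ 15) (η ^ 10 / X) := le_max_of_le_left (by positivity)
  have e : (Matrix.of fun q f : Fin 3 × Fin 2 => c * (n q - θ f.1) *
      ((μ f.2 + ν f.2 * x q) * ∏ i ∈ univ.erase f.1, (τ i + ω i * x q) ^ 3)) =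
      Matrix.of fun q f : Fin 3 × Fin 2 => ∑ t : Fin 2 × Fin 8,
        (n q ^ (t.1 : ℕ) * x q ^ (t.2 : ℕ)) *
          (c * (if t.1 = 0 then -θ f.1 else 1) * (Pl μ ν τ ω f).coeff t.2) := by
    ext q f
    simp only [Matrix.of_apply]
    rw [Pl_eval, Fintype.sum_prod_type, Fin.sum_univ_two, ← sum_add_distrib, mul_sum]
    refine sum_congr rfl fun m _ => ?_
    simp only [Fin.val_zero, Fin.val_one, if_true, one_ne_zero, if_false]
    ring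
  rw [e]
  have hb0 := hb 0
  have hb1 := hb 1
  refine (dets_generic _ _ ((A ^ 3 * (2 * A) ^ 6) ^ 6 * (b 0 * b 1) ^ 3 *
    (X ^ 6 * max (η ^ 15) (η ^ 10 / X))) (by positivity) fun φ σ hφ => ?_).trans (le_of_eq ?_)
  · have h1 : ∀ f : Fin 3 × Fin 2,
        ‖n (σ f) ^ ((φ f).1 : ℕ) * x (σ f) ^ ((φ f).2 : ℕ)‖ *
          ‖c * (if (φ f).1 = 0 then -θ f.1 else 1) * (Pl μ ν τ ω f).coeff (φ f).2‖ ≤
        ((A ^ 3 * (2 * A) ^ 6) * b f.2) * (X ^ ((φ f).1 : ℕ) * η ^ ((φ f).2 : ℕ)) := by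
      intro f
      have hbf := hb f.2
      have a1 : ‖n (σ f) ^ ((φ f).1 : ℕ)‖ ≤ A * X ^ ((φ f).1 : ℕ) := by
        rw [norm_pow]
        refine (pow_le_pow_left₀ (norm_nonneg _) (hn _) _).trans ?_
        rw [mul_pow]
        refine mul_le_mul_of_nonneg_right ?_ (by positivity)
        calc A ^ ((φ f).1 : ℕ) ≤ A ^ 1 := pow_le_pow_right₀ hA (by have := (φ f).1.2; omega)
          _ = A := pow_one A
      have a2 : ‖x (σ f) ^ ((φ f).2 : ℕ)‖ ≤ η ^ ((φ f).2 : ℕ) := by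
        rw [norm_pow]
        exact pow_le_pow_left₀ (norm_nonneg _) (hx _) _
      have a3 : ‖(if (φ f).1 = 0 then -θ f.1 else 1 : ℂ)‖ ≤ A := by
        split_ifs
        · rw [norm_neg]; exact hθ _
        · rw [norm_one]; exact hA
      have a4 := Pl_coeff hμ hν hτ hω f (φ f).2
      rw [norm_mul, norm_mul, norm_mul]
      refine (mul_le_mul (mul_le_mul a1 a2 (norm_nonneg _) (by positivity))
        (mul_le_mul (mul_le_mul hc a3 (norm_nonneg _) hA0.le) a4 (norm_nonneg _) (by positivity))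
        (by positivity) (by positivity)).trans (le_of_eq ?_)
      ring
    refine (prod_le_prod (fun f _ => by positivity) fun f _ => h1 f).trans ?_
    rw [prod_mul_distrib, prod_mul_distrib, prod_const]
    have h2 : ∏ f : Fin 3 × Fin 2, b f.2 = (b 0 * b 1) ^ 3 := by
      rw [Fintype.prod_prod_type]
      simp only [Fin.prod_univ_two, prod_const, card_univ, Fintype.card_fin]
    rw [h2]
    have h3 : (univ : Finset (Fin 3 × Fin 2)).card = 6 := by simp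
    rw [h3]
    exact mul_le_mul_of_nonneg_left (slots hX hη0 hη1 hXη φ hφ) (by positivity)
  · simp only [Fintype.card_prod, Fintype.card_fin]
    norm_num [Nat.factorial]

end LD

open LD in
theorem lineDetS : LineDetS := by
  intro L _ _ θ A0 Cs C1 hA0 hC1
  obtain ⟨A1, hA1, hθ, -, hsz⟩ := exists_size L (d := 6) (by norm_num) θ
  obtain ⟨A, hA⟩ : ∃ A : ℝ, A = A0 + (Cs : ℝ) ^ 3 + 6 * A1 ^ 6 := ⟨_, rfl⟩
  have hA16 : A1 ≤ A1 ^ 6 := le_self_pow₀ hA1 (by norm_num)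
  have hCs : (0 : ℝ) ≤ (Cs : ℝ) ^ 3 := by positivity
  have hAa : A0 ≤ A := by rw [hA]; linarith
  have hAb : (Cs : ℝ) ^ 3 ≤ A := by rw [hA]; linarith
  have hAc : 6 * A1 ^ 6 ≤ A := by rw [hA]; linarith
  have hAd : A1 ≤ A := by linarith
  have hA' : 1 ≤ A := hA0.trans hAa
  have hApos : 0 < A := by linarith
  have hA1pos : 0 < A1 := by linarith
  have hC1pos : 0 < C1 := by linarith
  refine ⟨(2 ^ 7 * A1 ^ 9) ^ 6 * (16 ^ 6 * (720 * ((A ^ 3 * (2 * A) ^ 6) ^ 6 *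
    (4 * C1 ^ 2) ^ 3))), by positivity, ?_⟩
  intro X R η H c nn j0 T v u J γ hX hR hη0 hη1 hXη hH hK hc hD hNar hu hΔ hv hHv hγ I φ hφ
  have hR0 : 0 < R := by linarith
  have hX0 : 0 < X := by linarith
  refine eq_zero_of_conj_lt_one L _ fun σ => ?_
  obtain ⟨ψ, hψ⟩ : ∃ ψ : 𝓞 L →+* ℂ, ψ = σ.comp (algebraMap (𝓞 L) L) := ⟨_, rfl⟩
  have hψa : ∀ z : 𝓞 L, σ (z : L) = ψ z := fun z => by rw [hψ]; rfl
  rw [hψa, RingHom.map_det]
  obtain ⟨Δ, hΔdef⟩ : ∃ Δ : ℤ, Δ = (Matrix.of fun i k => v i (J k)).det := ⟨_, rfl⟩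
  rw [← hΔdef] at hΔ hv
  have hΔp : 0 < |(Δ : ℝ)| := abs_pos.2 (by exact_mod_cast hΔ)
  -- the leading coordinate
  obtain ⟨Y, hY⟩ : ∃ Y : Fin 3 × Fin 2 → ℝ, ∀ q, Y q = (φ q j0 : ℝ) := ⟨_, fun _ => rfl⟩
  have hYp : ∀ q, 0 < Y q := fun q => by
    rw [hY]
    exact_mod_cast (hD.ch _ (hφ q)).1
  have hY2 : ∀ q, Y q ≤ 2 * R := fun q => by rw [hY]; exact hD.hy _ (hφ q)
  have hyY : ∀ q j, |(φ q j : ℝ)| ≤ Y q := fun q j => by
    rw [hY]
    exact_mod_cast (hD.ch _ (hφ q)).2 j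
  -- coordinates on the line
  obtain ⟨μ, hμ⟩ : ∃ μ : Fin 3 × Fin 2 → Fin 2 → ℝ, ∀ q j, μ q j = (u j (φ q) : ℝ) / Y q :=
    ⟨_, fun _ _ => rfl⟩
  have hcomb : ∀ q j, ∑ i, μ q i * (v i j : ℝ) = (φ q j : ℝ) / Y q := by
    intro q j
    rw [hu _ (hφ q) j]
    push_cast
    rw [sum_div]
    refine sum_congr rfl fun i _ => ?_
    rw [hμ]
    ring
  obtain ⟨q1, s, hs, hpar⟩ := line_par μ (fun i => (v i j0 : ℝ)) (fun q => by
    have h1 := hcomb q j0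
    rw [Fin.sum_univ_two, ← hY, div_self (hYp q).ne'] at h1
    exact h1) (0, 0)
  obtain ⟨q0, hq0⟩ : ∃ q0 : Fin 3 × Fin 2, q0 = (0, 0) := ⟨_, rfl⟩
  rw [← hq0] at hpar
  have ht1 : ∀ q j, |(φ q j : ℝ) / Y q| ≤ 1 := fun q j => by
    rw [abs_div, abs_of_pos (hYp q), div_le_one (hYp q)]
    exact hyY q j
  have ht2 : ∀ j, |((φ q1 j : ℝ) / Y q1 - (φ q0 j : ℝ) / Y q0) / η| ≤ 1 := fun j => by
    rw [abs_div, abs_of_pos hη0, div_le_one hη0, hY, hY]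
    exact hNar _ (hφ q1) _ (hφ q0) j
  have hpt : ∀ q j, (φ q j : ℝ) / Y q = (φ q0 j : ℝ) / Y q0 +
      ((φ q1 j : ℝ) / Y q1 - (φ q0 j : ℝ) / Y q0) / η * (η * s q) := by
    intro q j
    rw [← hcomb, ← hcomb, ← hcomb, Fin.sum_univ_two, Fin.sum_univ_two, Fin.sum_univ_two,
      hpar q 0, hpar q 1]
    field_simp
    ring
  obtain ⟨b, hb0, hb1⟩ : ∃ b : Fin 2 → ℝ, b 0 = 2 * ‖v 1‖ / |(Δ : ℝ)| ∧
      b 1 = 2 * ‖v 0‖ / |(Δ : ℝ)| := ⟨![_, _], rfl, rfl⟩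
  have hbμ : ∀ j, ‖((μ q0 j : ℝ) : ℂ)‖ ≤ b j := by
    have h1 := cramer2 v J hΔdef hΔ (μ := μ q0) (M := 1) fun j => by
      rw [hcomb]
      exact ht1 q0 j
    rw [mul_one, mul_one, ← hb0, ← hb1] at h1
    intro j
    rw [Complex.norm_real, Real.norm_eq_abs]
    fin_cases j
    · exact h1.1
    · exact h1.2
  have hbν : ∀ j, ‖(((μ q1 j - μ q0 j) / η : ℝ) : ℂ)‖ ≤ b j := by
    have h1 := cramer2 v J hΔdef hΔ (μ := fun j => (μ q1 j - μ q0 j) / η) (M := 1) fun j => by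
      refine le_trans (le_of_eq ?_) (ht2 j)
      rw [← hcomb, ← hcomb, Fin.sum_univ_two, Fin.sum_univ_two, Fin.sum_univ_two]
      congr 1
      ring
    rw [mul_one, mul_one, ← hb0, ← hb1] at h1
    intro j
    rw [Complex.norm_real, Real.norm_eq_abs]
    fin_cases j
    · exact h1.1
    · exact h1.2
  have hθ' : ∀ i, ‖ψ (θ i)‖ ≤ A1 := fun i => by rw [← hψa]; exact hθ σ i
  obtain ⟨τ, hτ⟩ : ∃ τ : Fin 3 → ℂ, ∀ i,
      τ i = ∑ j, (((φ q0 j : ℝ) / Y q0 : ℝ) : ℂ) * ψ (θ (I i)) ^ (j : ℕ) := ⟨_, fun _ => rfl⟩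
  obtain ⟨ω, hω⟩ : ∃ ω : Fin 3 → ℂ, ∀ i, ω i =
      ∑ j, ((((φ q1 j : ℝ) / Y q1 - (φ q0 j : ℝ) / Y q0) / η : ℝ) : ℂ) * ψ (θ (I i)) ^ (j : ℕ) :=
    ⟨_, fun _ => rfl⟩
  have hτb : ∀ i, ‖τ i‖ ≤ A := fun i => by
    rw [hτ]
    refine (pow_comb hA1 (hθ' _) (ht1 q0)).trans ?_
    rw [mul_one]
    exact hAc
  have hωb : ∀ i, ‖ω i‖ ≤ A := fun i => by
    rw [hω]
    refine (pow_comb hA1 (hθ' _) ht2).trans ?_
    rw [mul_one]
    exact hAc
  have hπ : ∀ q i, ψ (ell (θ (I i)) (φ q)) = (Y q : ℂ) * (τ i + ω i * ((η * s q : ℝ) : ℂ)) := by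
    intro q i
    rw [sizes_map_ell, hτ, hω, sum_mul, ← sum_add_distrib, mul_sum]
    unfold ell
    refine sum_congr rfl fun j _ => ?_
    have h1 := hpt q j
    rw [div_eq_iff (hYp q).ne'] at h1
    have h2 : ((φ q j : ℤ) : ℂ) = (((φ q j : ℤ) : ℝ) : ℂ) := by norm_cast
    rw [h2, h1]
    push_cast
    ring
  have hμu : ∀ q j, ((u j (φ q) : ℤ) : ℂ) = (Y q : ℂ) *
      (((μ q0 j : ℝ) : ℂ) + (((μ q1 j - μ q0 j) / η : ℝ) : ℂ) * ((η * s q : ℝ) : ℂ)) := by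
    intro q j
    have h1 : (u j (φ q) : ℝ) = Y q * (μ q0 j + (μ q1 j - μ q0 j) / η * (η * s q)) := by
      have h3 := hpar q j
      rw [hμ q j, div_eq_iff (hYp q).ne'] at h3
      rw [h3]
      field_simp
    have h2 : ((u j (φ q) : ℤ) : ℂ) = (((u j (φ q) : ℤ) : ℝ) : ℂ) := by norm_cast
    rw [h2, h1]
    push_cast
    ring
  have hcore := core hA' hX hη0 hη1 hXη (b := b) (c := (c : ℂ) ^ 3) (θ := fun i => ψ (θ (I i)))
    (τ := τ) (ω := ω) (n := fun q => (nn (φ q) : ℂ)) (x := fun q => ((η * s q : ℝ) : ℂ))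
    (μ := fun j => ((μ q0 j : ℝ) : ℂ)) (ν := fun j => (((μ q1 j - μ q0 j) / η : ℝ) : ℂ))
    (by
      rw [norm_pow, Complex.norm_intCast]
      refine le_trans (pow_le_pow_left₀ (abs_nonneg _) ?_ 3) hAb
      exact_mod_cast hc)
    (fun i => (hθ' _).trans hAd)
    (fun q => by
      rw [Complex.norm_intCast]
      exact (hD.hn _ (hφ q)).trans (mul_le_mul_of_nonneg_right hAa hX0.le))
    (fun q => by
      rw [Complex.norm_real, Real.norm_eq_abs, abs_mul, abs_of_pos hη0]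
      exact mul_le_of_le_one_right hη0.le (hs q))
    hbμ hbν hτb hωb
  -- the row factors
  obtain ⟨r, hr⟩ : ∃ r : Fin 3 × Fin 2 → ℂ, ∀ q,
      r q = (∏ i, ψ (ell (θ (I i)) (φ q)) ^ 3) / (Y q : ℂ) ^ 7 := ⟨_, fun _ => rfl⟩
  have hmat : (Matrix.of fun q f : Fin 3 × Fin 2 => (c : ℂ) ^ 3 *
      ((nn (φ q) : ℂ) - ψ (θ (I f.1))) * ((((μ q0 f.2 : ℝ) : ℂ) +
        (((μ q1 f.2 - μ q0 f.2) / η : ℝ) : ℂ) * ((η * s q : ℝ) : ℂ)) *
        ∏ i ∈ univ.erase f.1, (τ i + ω i * ((η * s q : ℝ) : ℂ)) ^ 3)) =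
      Matrix.of fun q f : Fin 3 × Fin 2 => r q * (ψ.mapMatrix (Matrix.of fun q f : Fin 3 × Fin 2 =>
        γ (φ q) (I f.1) * ((u f.2 (φ q) : ℤ) : 𝓞 L))) q f := by
    ext q f
    simp only [Matrix.of_apply, RingHom.mapMatrix_apply, Matrix.map_apply, map_mul, map_intCast]
    have h1 := congrArg ψ (hγ _ (hφ q) (I f.1))
    simp only [map_mul, map_pow, map_sub, map_intCast] at h1
    have hYc : (Y q : ℂ) ≠ 0 := by exact_mod_cast (hYp q).ne'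
    have h2 : ∏ i ∈ univ.erase f.1, ψ (ell (θ (I i)) (φ q)) ^ 3 =
        (Y q : ℂ) ^ 6 * ∏ i ∈ univ.erase f.1, (τ i + ω i * ((η * s q : ℝ) : ℂ)) ^ 3 := by
      simp only [hπ, mul_pow]
      rw [prod_mul_distrib, prod_const, card_erase_of_mem (mem_univ _)]
      simp only [card_univ, Fintype.card_fin]
      ring
    rw [h1, hr, ← mul_prod_erase univ _ (mem_univ f.1), h2, hμu]
    field_simp
  rw [hmat, Matrix.det_mul_column, norm_mul, norm_prod] at hcore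
  have hrl : ∀ q, R ^ 2 / (2 ^ 7 * A1 ^ 9) ≤ ‖r q‖ := by
    intro q
    obtain ⟨N, hN1, hN2⟩ := hD.hN _ (hφ q)
    have h1 : ∀ i, R / A1 ≤ ‖ψ (ell (θ (I i)) (φ q))‖ := fun i => by
      have h2 := (hsz σ (I i) (φ q) R N hR (fun j => (hyY q j).trans (hY2 q)) hN1 hN2).2
      rwa [← coe_ell, hψa] at h2
    have h3 : (R / A1) ^ 9 ≤ ∏ i, ‖ψ (ell (θ (I i)) (φ q)) ^ 3‖ := by
      calc (R / A1) ^ 9 = ∏ _i : Fin 3, (R / A1) ^ 3 := by
            rw [prod_const, card_univ, Fintype.card_fin]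
            ring
        _ ≤ _ := prod_le_prod (fun _ _ => by positivity) fun i _ => by
            rw [norm_pow]
            exact pow_le_pow_left₀ (by positivity) (h1 i) 3
    have hq := hYp q
    rw [hr, norm_div, norm_prod, norm_pow, Complex.norm_real, Real.norm_eq_abs, abs_of_pos hq]
    calc R ^ 2 / (2 ^ 7 * A1 ^ 9) = (R / A1) ^ 9 / (2 * R) ^ 7 := by
          field_simp
      _ ≤ _ := div_le_div₀ (prod_nonneg fun _ _ => norm_nonneg _) h3 (by positivity)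
          (pow_le_pow_left₀ hq.le (hY2 q) 7)
  have hrp : (R ^ 2 / (2 ^ 7 * A1 ^ 9)) ^ 6 ≤ ∏ q, ‖r q‖ := by
    calc (R ^ 2 / (2 ^ 7 * A1 ^ 9)) ^ 6 = ∏ _q : Fin 3 × Fin 2, R ^ 2 / (2 ^ 7 * A1 ^ 9) := by
          rw [prod_const]
          simp
      _ ≤ _ := prod_le_prod (fun _ _ => by positivity) fun q _ => hrl q
  have hbb : b 0 * b 1 ≤ 4 * C1 ^ 2 / H := by
    rw [Fin.prod_univ_two] at hv hHv
    rw [hb0, hb1, div_mul_div_comm, div_le_div_iff₀ (by positivity) hH]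
    have hP : 0 ≤ ‖v 0‖ * ‖v 1‖ := by positivity
    have h1 := mul_le_mul hv (hHv.trans hv) hH.le (by positivity)
    nlinarith [h1]
  have hb00 : 0 ≤ b 0 * b 1 := by rw [hb0, hb1]; positivity
  have hmax : 0 ≤ X ^ 6 * max (η ^ 15) (η ^ 10 / X) :=
    mul_nonneg (by positivity) (le_max_of_le_left (by positivity))
  generalize X ^ 6 * max (η ^ 15) (η ^ 10 / X) = E at hK hcore hmax
  generalize (ψ.mapMatrix (Matrix.of fun q f : Fin 3 × Fin 2 =>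
        γ (φ q) (I f.1) * ((u f.2 (φ q) : ℤ) : 𝓞 L))).det = D at hcore ⊢
  by_contra hcon
  push Not at hcon
  have h1 : (R ^ 2 / (2 ^ 7 * A1 ^ 9)) ^ 6 ≤ 16 ^ 6 * (720 * ((A ^ 3 * (2 * A) ^ 6) ^ 6 *
      (4 * C1 ^ 2 / H) ^ 3 * E)) := by
    refine le_trans (hrp.trans (le_mul_of_one_le_right
      (prod_nonneg fun _ _ => norm_nonneg _) hcon)) (hcore.trans ?_)
    gcongr
  rw [div_pow, div_le_iff₀ (by positivity)] at h1
  have h2 : R ^ 12 * H ^ 3 ≤ (2 ^ 7 * A1 ^ 9) ^ 6 * (16 ^ 6 * (720 * ((A ^ 3 * (2 * A) ^ 6) ^ 6 *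
      (4 * C1 ^ 2) ^ 3))) * E := by
    have h3 := mul_le_mul_of_nonneg_right h1 (pow_pos hH 3).le
    refine le_trans (le_of_eq (by ring)) (h3.trans (le_of_eq ?_))
    generalize (A ^ 3 * (2 * A) ^ 6) ^ 6 = U
    generalize (2 ^ 7 * A1 ^ 9) ^ 6 = U'
    field_simp
  exact absurd hK (not_lt.2 h2)

end Vale.Agent.N018.H
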