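import Vale.Agent.N018.H.Def

/-! # The second theorem of Minkowski, with a basis. -/

namespace Vale.Agent.N018.H.Mk

open Finset Matrix

/-- the real matrix of an integral matrix -/
abbrev cs {m n : Type} (U : Matrix m n ℤ) : Matrix m n ℝ := U.map fun z : ℤ => (z : ℝ)

theorem cs_mul {l m n : Type} [Fintype m] (U : Matrix l m ℤ) (W : Matrix m n ℤ) :
    cs (U * W) = cs U * cs W := Matrix.map_mul (f := Int.castRingHom ℝ)

theorem cs_det {n : Type} [Fintype n] [DecidableEq n] (U : Matrix n n ℤ) :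
    (cs U).det = (U.det : ℝ) := (Int.cast_det U).symm

theorem abs_det {n : Type} [Fintype n] [DecidableEq n] {U : Matrix n n ℤ} (h : IsUnit U.det) :
    |(cs U).det| = 1 := by
  rw [cs_det]
  rcases Int.isUnit_iff.1 h with e | e <;> rw [e] <;> simp

/-- the rows of the bases of a lattice are bounded below. -/
theorem low {ρ : ℕ} (M : Matrix (Fin ρ) (Fin ρ) ℝ) (hM : M.det ≠ 0) :
    ∃ δ : ℝ, 0 < δ ∧ ∀ U : Matrix (Fin ρ) (Fin ρ) ℤ, IsUnit U.det → ∀ i, δ ≤ ‖(cs U * M) i‖ := by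
  set K : ℝ := ∑ a, ∑ b, |M⁻¹ a b| + 1 with hK
  have K0 : 0 ≤ ∑ a, ∑ b, |M⁻¹ a b| := sum_nonneg fun _ _ => sum_nonneg fun _ _ => abs_nonneg _
  refine ⟨1 / K, by positivity, fun U hU i => ?_⟩
  obtain ⟨b, hb⟩ : ∃ b, U i b ≠ 0 := by
    by_contra h
    exact hU.ne_zero (det_eq_zero_of_row_eq_zero i fun b => not_not.1 (not_exists.1 h b))
  have e : cs U = cs U * M * M⁻¹ := (mul_nonsing_inv_cancel_right M _ (Ne.isUnit hM)).symm
  have h1 : (1 : ℝ) ≤ |cs U i b| := by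
    show (1 : ℝ) ≤ |(U i b : ℝ)|
    exact_mod_cast Int.one_le_abs hb
  have h2 : |cs U i b| ≤ ‖(cs U * M) i‖ * ∑ a, |M⁻¹ a b| := by
    rw [e, mul_apply, mul_sum, ← e]
    refine (abs_sum_le_sum_abs _ _).trans (sum_le_sum fun a _ => ?_)
    rw [abs_mul]
    exact mul_le_mul_of_nonneg_right (norm_le_pi_norm ((cs U * M) i) a) (abs_nonneg _)
  have h3 : ∑ a, |M⁻¹ a b| ≤ K := by
    have := sum_le_sum (s := univ) fun a _ =>
      single_le_sum (f := fun b => |M⁻¹ a b|) (fun _ _ => abs_nonneg _) (mem_univ b)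
    linarith
  rw [div_le_iff₀ (by positivity)]
  exact h1.trans (h2.trans (mul_le_mul_of_nonneg_left h3 (norm_nonneg _)))

/-- a basis whose first row is almost minimal. -/
theorem first {ρ : ℕ} (M : Matrix (Fin (ρ + 1)) (Fin (ρ + 1)) ℝ) (hM : M.det ≠ 0) :
    ∃ U : Matrix (Fin (ρ + 1)) (Fin (ρ + 1)) ℤ, IsUnit U.det ∧ 0 < ‖(cs U * M) 0‖ ∧
      ∀ W : Matrix (Fin (ρ + 1)) (Fin (ρ + 1)) ℤ, IsUnit W.det → ∀ i,
        2 * ‖(cs U * M) 0‖ ≤ 3 * ‖(cs W * M) i‖ := by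
  obtain ⟨δ, hδ, h⟩ := low M hM
  set S : Set ℝ := {x | ∃ U : Matrix (Fin (ρ + 1)) (Fin (ρ + 1)) ℤ, IsUnit U.det ∧
    x = ‖(cs U * M) 0‖} with hS
  have hne : S.Nonempty := ⟨_, 1, by simp, rfl⟩
  have hlb : δ ∈ lowerBounds S := by
    rintro _ ⟨U, hU, rfl⟩
    exact h U hU 0
  have h1 : δ ≤ sInf S := le_csInf hne hlb
  obtain ⟨_, ⟨U, hU, rfl⟩, h2⟩ := exists_lt_of_csInf_lt hne (show sInf S < 3 / 2 * sInf S by linarith)
  refine ⟨U, hU, hδ.trans_le (h U hU 0), fun W hW i => ?_⟩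
  have h3 : sInf S ≤ ‖(cs W * M) i‖ := by
    refine csInf_le ⟨δ, hlb⟩ ⟨W.submatrix (Equiv.swap 0 i) id, ?_, ?_⟩
    · rw [det_permute]
      exact (Units.isUnit _).mul hW
    · congr 1
  linarith

theorem step {ρ : ℕ} {C : ℝ}
    (ih : ∀ M : Matrix (Fin ρ) (Fin ρ) ℝ, M.det ≠ 0 → ∃ U : Matrix (Fin ρ) (Fin ρ) ℤ,
      IsUnit U.det ∧ ∏ i, ‖(cs U * M) i‖ ≤ C * |M.det|)
    (M : Matrix (Fin (ρ + 1)) (Fin (ρ + 1)) ℝ) (hM : M.det ≠ 0) :
    ∃ U : Matrix (Fin (ρ + 1)) (Fin (ρ + 1)) ℤ, IsUnit U.det ∧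
      ∏ i, ‖(cs U * M) i‖ ≤ 4 ^ ρ * C * |M.det| := by
  obtain ⟨U1, hU1, h0, hmin⟩ := first M hM
  have hd : |(cs U1 * M).det| = |M.det| := by rw [det_mul, abs_mul, abs_det hU1, one_mul]
  have hmin' : ∀ W : Matrix (Fin (ρ + 1)) (Fin (ρ + 1)) ℤ, IsUnit W.det → ∀ i,
      2 * ‖(cs U1 * M) 0‖ ≤ 3 * ‖(cs W * (cs U1 * M)) i‖ := fun W hW i => by
    rw [← Matrix.mul_assoc, ← cs_mul]
    exact hmin _ (by rw [det_mul]; exact hW.mul hU1) i
  suffices H : ∃ U : Matrix (Fin (ρ + 1)) (Fin (ρ + 1)) ℤ, IsUnit U.det ∧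
      ∏ i, ‖(cs U * (cs U1 * M)) i‖ ≤ 4 ^ ρ * C * |(cs U1 * M).det| by
    obtain ⟨U, hU, h⟩ := H
    refine ⟨U * U1, by rw [det_mul]; exact hU.mul hU1, ?_⟩
    rwa [cs_mul, Matrix.mul_assoc, ← hd]
  have hN : (cs U1 * M).det ≠ 0 := fun e => hM (by rw [← abs_eq_zero, ← hd, e, abs_zero])
  generalize cs U1 * M = N at h0 hmin' hN
  obtain ⟨j0, -, hj⟩ := exists_max_image univ (fun j => |N 0 j|) univ_nonempty
  have e0 : ‖N 0‖ = |N 0 j0| :=
    le_antisymm ((pi_norm_le_iff_of_nonneg (abs_nonneg _)).2 fun j => hj j (mem_univ j))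
      (norm_le_pi_norm (N 0) j0)
  have hz : N 0 j0 ≠ 0 := fun e => by rw [e0, e, abs_zero] at h0; exact lt_irrefl _ h0
  set c : Fin (ρ + 1) → ℝ := Fin.cons 0 fun i => N i.succ j0 / N 0 j0 with hc
  set N' : Matrix (Fin (ρ + 1)) (Fin (ρ + 1)) ℝ := Matrix.of fun i j => N i j - c i * N 0 j with hN'
  have c0 : c 0 = 0 := rfl
  have r0 : ∀ j, N' 0 j = N 0 j := fun j => by simp [hN', c0]
  have d1 : N.det = N'.det :=
    det_eq_of_forall_row_eq_smul_add_const c 0 c0 fun i j => by rw [r0]; simp [hN']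
  have z1 : ∀ i : Fin ρ, N' i.succ j0 = 0 := fun i => by
    simp only [hN', hc, of_apply, Fin.cons_succ]
    field_simp
    ring
  set M' := N'.submatrix Fin.succ j0.succAbove with hM'
  have d2 : |N.det| = |N 0 j0| * |M'.det| := by
    rw [d1, det_succ_column N' j0, Fin.sum_univ_succ, sum_eq_zero fun i _ => by rw [z1]; simp,
      add_zero, abs_mul, abs_mul, r0, Fin.succAbove_zero]
    simp [hM']
  have hM0 : M'.det ≠ 0 := fun e => hN (by rw [← abs_eq_zero, d2, e, abs_zero, mul_zero])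
  obtain ⟨U', hU', hp⟩ := ih M' hM0
  set s : Fin ρ → ℝ := fun i => ∑ k, (U' i k : ℝ) * c k.succ with hs
  set U2 : Matrix (Fin (ρ + 1)) (Fin (ρ + 1)) ℤ :=
    Matrix.of (Fin.cons (Pi.single 0 1) fun i => Fin.cons (-round (s i)) (U' i)) with hU2
  have u2 : IsUnit U2.det := by
    rw [det_succ_row_zero, Fin.sum_univ_succ, sum_eq_zero fun i _ => by simp [hU2], add_zero]
    have : U2.submatrix Fin.succ (Fin.succAbove 0) = U' := by
      ext i j; simp [hU2]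
    rw [this]
    simpa [hU2] using hU'
  have a0 : (cs U2 * N) 0 = N 0 := by
    funext j
    simp [mul_apply, hU2, Fin.sum_univ_succ]
  have a1 : ∀ (i : Fin ρ) j, (cs U2 * N) i.succ j
      = (s i - round (s i)) * N 0 j + ∑ k, (U' i k : ℝ) * N' k.succ j := fun i j => by
    simp only [mul_apply, hU2, Fin.sum_univ_succ, map_apply, of_apply, Fin.cons_succ, Fin.cons_zero,
      hN', hs, mul_sub, sum_sub_distrib, sub_mul, sum_mul, mul_assoc]
    push_cast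
    ring
  have a2 : ∀ i : Fin ρ, ‖(cs U2 * N) i.succ‖ ≤ 4 * ‖(cs U' * M') i‖ := fun i => by
    have b1 : ‖(cs U2 * N) i.succ‖ ≤ ‖N 0‖ / 2 + ‖(cs U' * M') i‖ := by
      refine (pi_norm_le_iff_of_nonneg (by positivity)).2 fun j => ?_
      rw [a1, Real.norm_eq_abs]
      refine (abs_add_le _ _).trans (add_le_add ?_ ?_)
      · rw [abs_mul]
        have := mul_le_mul (abs_sub_round (s i)) (norm_le_pi_norm (N 0) j) (abs_nonneg _)
          (by norm_num)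
        rw [Real.norm_eq_abs] at this
        linarith
      · rcases Fin.eq_self_or_eq_succAbove j0 j with rfl | ⟨j', rfl⟩
        · simp [z1]
        · exact norm_le_pi_norm ((cs U' * M') i) j'
    linarith [hmin' U2 u2 i.succ]
  refine ⟨U2, u2, ?_⟩
  rw [Fin.prod_univ_succ, a0, d2, e0]
  have b2 : ∏ i : Fin ρ, ‖(cs U2 * N) i.succ‖ ≤ 4 ^ ρ * (C * |M'.det|) := by
    refine (prod_le_prod (fun _ _ => norm_nonneg _) fun i _ => a2 i).trans ?_
    rw [prod_mul_distrib, prod_const, card_univ, Fintype.card_fin]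
    exact mul_le_mul_of_nonneg_left hp (by positivity)
  calc _ ≤ |N 0 j0| * (4 ^ ρ * (C * |M'.det|)) := mul_le_mul_of_nonneg_left b2 (abs_nonneg _)
    _ = _ := by ring

end Vale.Agent.N018.H.Mk

namespace Vale.Agent.N018.H

theorem minkS : MinkS := fun ρ => by
  induction ρ with
  | zero => exact ⟨1, le_rfl, fun M _ => ⟨1, by simp, by simp⟩⟩
  | succ ρ ih =>
    obtain ⟨C, hC, ih⟩ := ih
    exact ⟨4 ^ ρ * C, one_le_mul_of_one_le_of_one_le (one_le_pow₀ (by norm_num)) hC,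
      Mk.step ih⟩

end Vale.Agent.N018.H
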