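import Vale.Agent.N018.H.Def2

/-! # P018, pair (6,3): two points with different primes are not proportional in two conjugates. -/

namespace Vale.Agent.N018.H

open Finset Polynomial NumberField Vale.Agent.P018 Vale.Agent.P018.K
open scoped IntermediateField

namespace Nm

/-- an element with two equal conjugates has a norm which is a power -/
theorem norm_pow {K E : Type} [Field K] [Algebra ℚ K] [FiniteDimensional ℚ K] [Field E]
    [Algebra ℚ E] (φ ψ : K →ₐ[ℚ] E) (hne : φ ≠ ψ) (α : K) (h : φ α = ψ α) :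
    ∃ (q : ℚ) (m : ℕ), 2 ≤ m ∧ Algebra.norm ℚ α = q ^ m := by
  refine ⟨_, _, ?_, Algebra.norm_eq_norm_adjoin ℚ α⟩
  have h0 : 0 < Module.finrank ℚ⟮α⟯ K := Module.finrank_pos
  have h1 : Module.finrank ℚ⟮α⟯ K ≠ 1 := by
    intro h1
    rw [IntermediateField.finrank_eq_one_iff_eq_top] at h1
    apply hne
    have h2 := IntermediateField.adjoin_simple_toSubalgebra_of_isAlgebraic
      (Algebra.IsAlgebraic.isAlgebraic (R := ℚ) α)
    rw [h1, IntermediateField.top_toSubalgebra] at h2
    refine AlgHom.ext_of_adjoin_eq_top h2.symm ?_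
    rintro _ rfl
    exact h
  omega

theorem not_pow {p p' : ℕ} (hp : p.Prime) (hp' : p'.Prime) (hne : p ≠ p') (q : ℚ) (m : ℕ)
    (hm : 2 ≤ m) : q ^ m * p' ≠ p := by
  intro h
  have : Fact p.Prime := ⟨hp⟩
  have : Fact p'.Prime := ⟨hp'⟩
  have hp0 : (p : ℚ) ≠ 0 := by exact_mod_cast hp.ne_zero
  have hp0' : (p' : ℚ) ≠ 0 := by exact_mod_cast hp'.ne_zero
  have hq : q ≠ 0 := by
    rintro rfl
    rw [zero_pow (by omega), zero_mul] at h
    exact hp0 h.symm
  have h1 := congrArg (padicValRat p) h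
  rw [padicValRat.mul (pow_ne_zero _ hq) hp0', padicValRat.pow, padicValRat.self hp.one_lt,
    padicValRat.of_nat, padicValNat_primes hne] at h1
  have h2 : (m : ℤ) ∣ 1 := ⟨padicValRat p q, by simpa using h1.symm⟩
  have h3 := Int.le_of_dvd one_pos h2
  omega

end Nm

theorem normS : NormS := by
  intro L _ _ d G hG hd hirr θ hθ hprod y y' p p' c hp hp' hne hc h1 h2 i j hij heq
  set f : ℚ[X] := G.map (Int.castRingHom ℚ) with hf
  have : Fact (Irreducible f) := ⟨hirr⟩
  have hf0 : f ≠ 0 := hirr.ne_zero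
  have : FiniteDimensional ℚ (AdjoinRoot f) := (AdjoinRoot.powerBasis hf0).finite
  have hrank : Module.finrank ℚ (AdjoinRoot f) = d := by
    rw [(AdjoinRoot.powerBasis hf0).finrank, AdjoinRoot.powerBasis_dim, hf, hG.natDegree_map, hd]
  let E := AlgebraicClosure L
  let σ : 𝓞 L →+* E := (algebraMap L E).comp (algebraMap (𝓞 L) L)
  have hσ : Function.Injective σ :=
    (algebraMap L E).injective.comp (RingOfIntegers.coe_injective)
  have hroot : ∀ l, f.eval₂ (Algebra.ofId ℚ E) (σ (θ l)) = 0 := by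
    intro l
    have e1 : (G.map (algebraMap ℤ (𝓞 L))).eval (θ l) = 0 := by
      rw [hprod, eval_prod]
      exact Finset.prod_eq_zero (mem_univ l) (by simp)
    have e2 := congrArg σ e1
    rw [map_zero, eval_map, hom_eval₂] at e2
    rw [hf, eval₂_map, ← e2]
    congr 1
    exact RingHom.ext_int _ _
  let φ : Fin d → (AdjoinRoot f →ₐ[ℚ] E) := fun l =>
    AdjoinRoot.liftAlgHom f (Algebra.ofId ℚ E) (σ (θ l)) (hroot l)
  have hφ : ∀ l, φ l (AdjoinRoot.root f) = σ (θ l) := fun l => AdjoinRoot.liftAlgHom_root _ _ _ _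
  have hinj : Function.Injective φ := fun a b hab =>
    hθ (hσ (by rw [← hφ a, ← hφ b, hab]))
  have hbij : Function.Bijective φ := by
    rw [Fintype.bijective_iff_injective_and_card]
    exact ⟨hinj, by rw [AlgHom.card, hrank, Fintype.card_fin]⟩
  have hell : ∀ l (z : V d), φ l (ell (AdjoinRoot.root f) z) = σ (ell (θ l) z) := by
    intro l z
    simp only [ell, map_sum, map_mul, map_pow, map_intCast, hφ]
  have hnorm : ∀ (z : V d) (N : ℤ), ∏ l, ell (θ l) z = (N : 𝓞 L) →
      Algebra.norm ℚ (ell (AdjoinRoot.root f) z) = (N : ℚ) := by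
    intro z N hz
    apply (algebraMap ℚ E).injective
    rw [Algebra.norm_eq_prod_embeddings, ← hbij.prod_comp, map_intCast]
    simp only [hell]
    rw [← map_prod, hz, map_intCast]
  have n1 := hnorm y _ h1
  have n2 := hnorm y' _ h2
  have hc' : (c : ℚ) ≠ 0 := by exact_mod_cast hc
  have hp0' : (p' : ℚ) ≠ 0 := by exact_mod_cast hp'.ne_zero
  have ha' : ell (AdjoinRoot.root f) y' ≠ 0 := by
    intro h0
    rw [h0, Algebra.norm_zero] at n2
    push_cast at n2
    exact mul_ne_zero hp0' hc' n2.symm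
  have hα : φ i (ell (AdjoinRoot.root f) y / ell (AdjoinRoot.root f) y') =
      φ j (ell (AdjoinRoot.root f) y / ell (AdjoinRoot.root f) y') := by
    rw [map_div₀, map_div₀, div_eq_div_iff ((_root_.map_ne_zero _).2 ha')
      ((_root_.map_ne_zero _).2 ha')]
    simp only [hell]
    rw [← map_mul, ← map_mul, heq]
  obtain ⟨q, m, hm, hq⟩ := Nm.norm_pow (φ i) (φ j) (fun h => hij (hinj h)) _ hα
  refine Nm.not_pow hp hp' hne q m hm (mul_right_cancel₀ hc' ?_)
  have e := map_mul (Algebra.norm ℚ) (ell (AdjoinRoot.root f) y / ell (AdjoinRoot.root f) y')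
    (ell (AdjoinRoot.root f) y')
  rw [div_mul_cancel₀ _ ha', n1, n2, hq] at e
  push_cast at e
  rw [e, mul_assoc]

end Vale.Agent.N018.H
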