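import Vale.Agent.N018.H.Def2

/-! # P018, pair (6,3), package I: narrow sets of points are thin. -/

namespace Vale.Agent.N018.H

open Finset Polynomial NumberField Vale.Agent.P018 Vale.Agent.P018.K

namespace I

/-- the polynomial in `n` -/
noncomputable def pl {R : Type} [CommRing R] {r : ℕ} (k : ℕ) (c : R) (θ : Fin r → R) (t : ℕ)
    (e : Fin r → ℤ) : R[X] :=
  X ^ (t - needs k e) * ∏ i, (C c * (X - C (θ i))) ^ need k (e i)

theorem pl_eval {R : Type} [CommRing R] {r : ℕ} (k : ℕ) (c : R) (θ : Fin r → R) (t : ℕ)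
    (e : Fin r → ℤ) (n : R) :
    (pl k c θ t e).eval n = n ^ (t - needs k e) * ∏ i, (c * (n - θ i)) ^ need k (e i) := by
  unfold pl
  rw [eval_mul, eval_pow, eval_X, eval_prod]
  congr 1
  refine Finset.prod_congr rfl fun i _ => ?_
  rw [eval_pow, eval_mul, eval_C, eval_sub, eval_X, eval_C]

theorem pl_eq {L : Type} [Field L] {r : ℕ} (k : ℕ) (c : L) (θ : Fin r → L) (t : ℕ)
    (e : Fin r → ℤ) : pl k c θ t e = C (c ^ needs k e) * rel_M k θ (t, e) := by
  unfold pl rel_M needs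
  simp only [mul_pow]
  rw [Finset.prod_mul_distrib, Finset.prod_pow_eq_pow_sum, C_pow]
  ring

theorem row {R : Type} [CommRing R] {r : ℕ} {k : ℕ} {t : ℕ} {e : Fin r → ℤ} {E : ℕ}
    (hE : ∀ i, (e i).natAbs ≤ E) (hk : 1 ≤ k) {n c : R} {z γ θ : Fin r → R}
    (hz : ∀ i, z i ^ k * γ i = c * (n - θ i)) :
    (∏ i, z i ^ E) * fn k n z γ t e =
      (pl k c θ t e).eval n * ∏ i, z i ^ (e i + E).toNat := by
  rw [pl_eval]
  unfold fn
  have h : ∀ i, z i ^ E * (γ i ^ need k (e i) * z i ^ (e i + k * need k (e i)).toNat) =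
      (c * (n - θ i)) ^ need k (e i) * z i ^ (e i + E).toNat := by
    intro i
    rw [← hz i, mul_pow, ← pow_mul]
    have h1 : 0 ≤ e i + k * need k (e i) := rel_need_nonneg hk (e i)
    have h5 : E + (e i + k * need k (e i)).toNat = k * need k (e i) + (e i + E).toNat := by
      have := hE i
      have h4 : ((k * need k (e i) : ℕ) : ℤ) = k * need k (e i) := by push_cast; ring
      omega
    calc z i ^ E * (γ i ^ need k (e i) * z i ^ (e i + k * need k (e i)).toNat) =
        z i ^ (E + (e i + k * need k (e i)).toNat) * γ i ^ need k (e i) := by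
          rw [pow_add]; ring
      _ = z i ^ (k * need k (e i) + (e i + E).toNat) * γ i ^ need k (e i) := by rw [h5]
      _ = _ := by rw [pow_add]; ring
  calc (∏ i, z i ^ E) * (n ^ (t - needs k e) *
        ∏ i, γ i ^ need k (e i) * z i ^ (e i + k * need k (e i)).toNat) =
      n ^ (t - needs k e) * ∏ i, (z i ^ E *
        (γ i ^ need k (e i) * z i ^ (e i + k * need k (e i)).toNat)) := by
        rw [Finset.prod_mul_distrib (f := fun i => z i ^ E)]
        exact mul_left_comm _ _ _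
    _ = n ^ (t - needs k e) * ∏ i, ((c * (n - θ i)) ^ need k (e i) *
        z i ^ (e i + E).toNat) := by
        congr 1
        exact Finset.prod_congr rfl fun i _ => h i
    _ = _ := by rw [Finset.prod_mul_distrib]; ring

theorem row_hom {F : Type} [Field F] {s : ℕ} {k : ℕ} {t : ℕ} {e : Fin (s + 1) → ℤ} {E Kt : ℕ}
    (hE : ∀ i, (e i).natAbs ≤ E) (hk : 1 ≤ k) (hK : ∑ i, (e i + E).toNat = Kt) {n c : F}
    {z γ θ : Fin (s + 1) → F} (h0 : z 0 ≠ 0) (hz : ∀ i, z i ^ k * γ i = c * (n - θ i)) :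
    (∏ i, z i ^ E) * fn k n z γ t e =
      z 0 ^ Kt * ((pl k c θ t e).eval n *
        ∏ i : Fin s, (z i.succ / z 0) ^ (e i.succ + E).toNat) := by
  rw [row hE hk hz, ← hK, Fin.prod_univ_succ, Fin.sum_univ_succ, pow_add,
    ← Finset.prod_pow_eq_pow_sum]
  have h1 : ∏ i : Fin s, z i.succ ^ (e i.succ + E).toNat =
      (∏ i : Fin s, z 0 ^ (e i.succ + E).toNat) *
        ∏ i : Fin s, (z i.succ / z 0) ^ (e i.succ + E).toNat := by
    rw [← Finset.prod_mul_distrib]
    refine Finset.prod_congr rfl fun i _ => ?_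
    rw [← mul_pow, mul_div_cancel₀ _ h0]
  rw [h1]
  ring

theorem det_hom {F : Type} [Field F] {s : ℕ} {k : ℕ} {ι : Type} [Fintype ι] [DecidableEq ι]
    (t : ι → ℕ) (e : ι → Fin (s + 1) → ℤ) {E Kt : ℕ}
    (hE : ∀ f i, (e f i).natAbs ≤ E) (hk : 1 ≤ k) (hK : ∀ f, ∑ i, (e f i + E).toNat = Kt)
    (n : ι → F) (c : F) (z γ : ι → Fin (s + 1) → F) (θ : Fin (s + 1) → F)
    (h0 : ∀ q, z q 0 ≠ 0) (hz : ∀ q i, z q i ^ k * γ q i = c * (n q - θ i)) :
    (∏ q, ∏ i, z q i ^ E) * (Matrix.of fun q f => fn k (n q) (z q) (γ q) (t f) (e f)).det =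
      (∏ q, z q 0 ^ Kt) * (Matrix.of fun q f => (pl k c θ (t f) (e f)).eval (n q) *
        ∏ i : Fin s, (z q i.succ / z q 0) ^ (e f i.succ + E).toNat).det := by
  rw [← Matrix.det_mul_column, ← Matrix.det_mul_column]
  congr 1
  ext q f
  simp only [Matrix.of_apply]
  exact row_hom (hE f) hk (hK f) (h0 q) (hz q)

/-- the determinant estimate in the variables `n`, `x` -/
theorem det_gen {s : ℕ} {ι : Type} [Fintype ι] [DecidableEq ι] (t : ι → ℕ) (E : ℕ)
    (a : ι → Fin s → ℕ) (ha : ∀ f i, a f i ≤ 2 * E) (A Γ : ℝ) (hA : 1 ≤ A) (hΓ : 0 < Γ) :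
    ∃ C : ℝ, 0 < C ∧ ∀ (X η W : ℝ), 1 ≤ X → 0 < η → 0 ≤ W →
      ∀ (P : ι → ℂ[X]) (n : ι → ℂ) (x : ι → Fin s → ℂ) (x0 : Fin s → ℂ),
      (∀ f, (P f).natDegree ≤ t f) → (∀ f j, ‖(P f).coeff j‖ ≤ Γ) → (∀ q, ‖n q‖ ≤ A * X) →
      (∀ q i, ‖x q i - x0 i‖ ≤ A * η) → (∀ i, ‖x0 i‖ ≤ A) →
      (∀ m : ι → ℕ × (Fin s → ℕ), Function.Injective m → (∀ f, (m f).1 ≤ t f) →
        ∏ f, (X ^ (m f).1 * η ^ (∑ i, (m f).2 i)) ≤ W) →
      ‖(Matrix.of fun q f => (P f).eval (n q) * ∏ i, x q i ^ a f i).det‖ ≤ C * W := by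
  classical
  set tm := Finset.univ.sup t with htm
  have htm' : ∀ f, t f ≤ tm := fun f => Finset.le_sup (f := t) (Finset.mem_univ f)
  have hA0 : 0 < A := by linarith only [hA]
  set K₃ : ℝ := Γ * (2 ^ (2 * E) * A ^ (2 * E)) ^ s * (A ^ tm * (A ^ (2 * E)) ^ s) with hK₃
  have hK₃0 : 0 < K₃ := by positivity
  set T := Fin (tm + 1) × (Fin s → Fin (2 * E + 1)) with hT
  set Nn := Fintype.card ι with hNn
  refine ⟨(Fintype.card T : ℝ) ^ Nn * (Nn.factorial * K₃ ^ Nn), ?_, ?_⟩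
  · have h1 : 0 < (Fintype.card T : ℝ) := by
      have : 0 < Fintype.card T := Fintype.card_pos
      exact_mod_cast this
    have h2 : 0 < (Nn.factorial : ℝ) := by exact_mod_cast Nn.factorial_pos
    positivity
  intro X η W hX hη hW P n x x0 hPd hPc hn hx hx0 hW'
  have hX0 : 0 < X := by linarith only [hX]
  set AA : ι → T → ℂ := fun f p => (P f).coeff p.1 *
    ∏ i, (((a f i).choose (p.2 i) : ℂ) * x0 i ^ (a f i - p.2 i)) with hAA
  set BB : T → ι → ℂ := fun p q => n q ^ (p.1 : ℕ) * ∏ i, (x q i - x0 i) ^ (p.2 i : ℕ) with hBB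
  have hentry : ∀ q f, (P f).eval (n q) * ∏ i, x q i ^ a f i = ∑ p, AA f p * BB p q := by
    intro q f
    rw [eval_eq_sum_range' (n := tm + 1) (Nat.lt_succ_of_le ((hPd f).trans (htm' f))),
      ← Fin.sum_univ_eq_sum_range (fun j => (P f).coeff j * n q ^ j)]
    have h1 : ∏ i, x q i ^ a f i = ∑ α : Fin s → Fin (2 * E + 1),
        ∏ i, ((((a f i).choose (α i) : ℂ) * x0 i ^ (a f i - α i)) *
          (x q i - x0 i) ^ (α i : ℕ)) := by
      rw [← Fintype.prod_sum (fun (i : Fin s) (b : Fin (2 * E + 1)) =>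
        ((((a f i).choose b : ℂ) * x0 i ^ (a f i - b)) * (x q i - x0 i) ^ (b : ℕ)))]
      exact Finset.prod_congr rfl fun i _ => dets_binom _ _ (ha f i)
    rw [h1, Fintype.sum_prod_type, Finset.sum_mul_sum]
    refine Finset.sum_congr rfl fun j _ => Finset.sum_congr rfl fun α _ => ?_
    simp only [hAA, hBB]
    rw [Finset.prod_mul_distrib]
    ring
  have hmat : (Matrix.of fun q f => (P f).eval (n q) * ∏ i, x q i ^ a f i) =
      (Matrix.of fun f q => ∑ p, AA f p * BB p q).transpose := by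
    ext q f
    simp only [Matrix.of_apply, Matrix.transpose_apply]
    exact hentry q f
  rw [hmat, Matrix.det_transpose]
  have hAbd : ∀ f (p : T), ‖AA f p‖ ≤ Γ * (2 ^ (2 * E) * A ^ (2 * E)) ^ s := by
    intro f p
    simp only [hAA]
    rw [norm_mul]
    have h1 := dets_A_bound (R := 1) hA le_rfl (ha f) (z0 := x0)
      (fun i => by rw [mul_one]; exact hx0 i) p.2
    rw [one_pow, inv_one, one_pow, mul_one, mul_one] at h1
    exact mul_le_mul (hPc f _) h1 (norm_nonneg _) hΓ.le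
  have hBbd : ∀ (p : T) q, ‖BB p q‖ ≤ (A ^ tm * (A ^ (2 * E)) ^ s) *
      (X ^ (p.1 : ℕ) * η ^ ∑ i, ((p.2 i : ℕ))) := fun p q =>
    dets_B_bound hA hX hη (hn q) (hx q) p.1 p.2
  have hAz : ∀ f (p : T), t f < p.1 → AA f p = 0 := by
    intro f p hp
    simp only [hAA]
    rw [coeff_eq_zero_of_natDegree_lt (lt_of_le_of_lt (hPd f) hp), zero_mul]
  have hprod : ∀ f (p : T) q, ‖AA f p‖ * ‖BB p q‖ ≤ K₃ *
      (X ^ (p.1 : ℕ) * η ^ ∑ i, ((p.2 i : ℕ))) := by
    intro f p q
    refine (mul_le_mul (hAbd f p) (hBbd p q) (norm_nonneg _) (by positivity)).trans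
      (le_of_eq ?_)
    rw [hK₃]
    ring
  have hgen := dets_generic AA BB (K₃ ^ Nn * W) (by positivity) (by
    intro φ σ hφ
    by_cases hs : ∀ j, ((φ j).1 : ℕ) ≤ t (σ j)
    · refine (Finset.prod_le_prod (fun j _ => by positivity)
        (fun j _ => hprod (σ j) (φ j) j)).trans ?_
      rw [Finset.prod_mul_distrib, Finset.prod_const, Finset.card_univ]
      refine mul_le_mul_of_nonneg_left ?_ (by positivity)
      have h1 := hW' (fun f => (((φ (σ.symm f)).1 : ℕ), fun i => ((φ (σ.symm f)).2 i : ℕ))) (by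
        intro f g hfg
        simp only [Prod.mk.injEq] at hfg
        have h2 : φ (σ.symm f) = φ (σ.symm g) := by
          refine Prod.ext (Fin.ext hfg.1) (funext fun i => Fin.ext ?_)
          exact congrFun hfg.2 i
        exact σ.symm.injective (hφ h2)) (fun f => by
          have := hs (σ.symm f)
          rwa [Equiv.apply_symm_apply] at this)
      refine le_trans (le_of_eq ?_) h1
      exact (Equiv.prod_comp σ.symm (fun j =>
        X ^ (((φ j).1 : ℕ)) * η ^ (∑ i, (((φ j).2 i : ℕ))))).symm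
    · push Not at hs
      obtain ⟨j, hj⟩ := hs
      have h0 : ∏ j, (‖AA (σ j) (φ j)‖ * ‖BB (φ j) j‖) = 0 :=
        Finset.prod_eq_zero (Finset.mem_univ j) (by rw [hAz _ _ hj, norm_zero, zero_mul])
      rw [h0]
      positivity)
  refine hgen.trans (le_of_eq ?_)
  rw [← hNn]
  ring

/-- a nontrivial combination gives a nonzero polynomial -/
theorem rel_gen {s : ℕ} {L : Type} [Field L] {ι : Type} [Fintype ι] (t : ι → ℕ)
    (a : ι → Fin s → ℕ) (D : ℕ) (hD : ∀ f, ∑ i, a f i ≤ D ∧ t f ≤ D)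
    (hinj : ∀ f g, t f = t g → a f = a g → f = g) (P : ι → L[X]) (hP0 : ∀ f, P f ≠ 0)
    (hPd : ∀ f, (P f).natDegree = t f) (α : ι → L) (hα : α ≠ 0) :
    ∃ F : MvPolynomial (Fin s) L[X], F ≠ 0 ∧
      (∀ b ∈ F.support, b.degree ≤ D ∧ (F.coeff b).natDegree ≤ D) ∧
      ∀ (n : L) (x : Fin s → L), MvPolynomial.eval₂ (Polynomial.evalRingHom n) x F =
        ∑ f, α f * ((P f).eval n * ∏ i, x i ^ a f i) := by
  classical
  let a' : ι → (Fin s →₀ ℕ) := fun f => Finsupp.equivFunOnFinite.symm (a f)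
  have ha' : ∀ f i, a' f i = a f i := fun f i => rfl
  set F : MvPolynomial (Fin s) L[X] := ∑ f, MvPolynomial.monomial (a' f) (C (α f) * P f) with hF
  have hcoeff : ∀ b, F.coeff b = ∑ f, if a' f = b then C (α f) * P f else 0 := by
    intro b
    rw [hF, MvPolynomial.coeff_sum]
    refine Finset.sum_congr rfl fun f _ => ?_
    rw [MvPolynomial.coeff_monomial]
  have hdeg : ∀ f, (C (α f) * P f).natDegree ≤ t f := by
    intro f
    refine (natDegree_C_mul_le _ _).trans ?_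
    rw [hPd]
  refine ⟨F, ?_, ?_, ?_⟩
  · intro hF0
    obtain ⟨f1, hf1⟩ := Function.ne_iff.1 hα
    obtain ⟨f0, hf0, hmax⟩ := Finset.exists_max_image
      (Finset.univ.filter fun f => α f ≠ 0) t ⟨f1, Finset.mem_filter.2 ⟨Finset.mem_univ _, hf1⟩⟩
    have hα0' : α f0 ≠ 0 := (Finset.mem_filter.1 hf0).2
    have h1 : (F.coeff (a' f0)).coeff (t f0) = α f0 * (P f0).leadingCoeff := by
      rw [hcoeff, finsetSum_coeff, Finset.sum_eq_single f0]
      · rw [if_pos rfl, coeff_C_mul, ← hPd f0]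
        rfl
      · intro f _ hne
        by_cases hαf : α f = 0
        · simp [hαf]
        · split_ifs with hae
          · have he : a f = a f0 := funext fun i => by rw [← ha', ← ha', hae]
            have hle := hmax f (Finset.mem_filter.2 ⟨Finset.mem_univ _, hαf⟩)
            have hlt : t f < t f0 := lt_of_le_of_ne hle fun ht => hne (hinj f f0 ht he)
            exact coeff_eq_zero_of_natDegree_lt ((hdeg f).trans_lt hlt)
          · exact coeff_zero _
      · intro h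
        exact absurd (Finset.mem_univ _) h
    rw [hF0, MvPolynomial.coeff_zero, coeff_zero] at h1
    exact mul_ne_zero hα0' (leadingCoeff_ne_zero.2 (hP0 f0)) h1.symm
  · intro b hb
    have hb' : F.coeff b ≠ 0 := MvPolynomial.mem_support_iff.1 hb
    constructor
    · rw [hcoeff] at hb'
      obtain ⟨f, _, hf⟩ := Finset.exists_ne_zero_of_sum_ne_zero hb'
      have hae : a' f = b := by
        by_contra hne
        exact hf (if_neg hne)
      rw [← hae, Finsupp.degree_eq_sum]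
      exact (hD f).1
    · rw [hcoeff]
      refine (natDegree_sum_le_of_forall_le _ _ (n := D) fun f _ => ?_)
      split_ifs
      · exact (hdeg f).trans (hD f).2
      · simp
  · intro n x
    rw [hF, MvPolynomial.eval₂_sum]
    refine Finset.sum_congr rfl fun f _ => ?_
    rw [MvPolynomial.eval₂_monomial, coe_evalRingHom, eval_mul, eval_C,
      Finsupp.prod_fintype _ _ (fun i => pow_zero _), mul_assoc]
    rfl

/-- counting with relations, for arbitrary functions `x` -/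
theorem cnt_gen {d : ℕ} {L : Type} [Field L] {ι : Type} [Fintype ι] [CharZero L] {r D : ℕ}
    (hr : 1 ≤ r) {J : Type} [Fintype J] [DecidableEq J] (I : J → Fin r → Fin d)
    (hIs : ∀ K : Fin r → Fin d, Function.Injective K → ∃ j, I j = K)
    (F : J → MvPolynomial (Fin r) L[X])
    (hD : ∀ j, ∀ a ∈ (F j).support, a.degree ≤ D ∧ ((F j).coeff a).natDegree ≤ D)
    (c : J → Fin r →₀ ℕ) (hc : ∀ j, c j ∈ (F j).support)
    (hlt : ∀ j, ∀ a ∈ (F j).support.erase (c j),
      cnt_om (D + 1) (cnt_ext (I j) a) < cnt_om (D + 1) (cnt_ext (I j) (c j)))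
    (n : ι → L) (x : Fin d → ι → L) (A : ℕ) (htop : cnt_P x A = ⊤)
    (hrel : ∀ j q, MvPolynomial.eval₂ (Polynomial.evalRingHom (n q))
      (fun i => x (I j i) q) (F j) = 0)
    (hG : ∀ q, (∏ j, (F j).coeff (c j)).eval (n q) ≠ 0) :
    Fintype.card ι ≤ ((Fintype.card J * D + D) * ((D + 1) ^ d * A + 1) + 1) *
      (2 ^ d * (D + 1) ^ d * ((D + 1) ^ d * A + 1) ^ (r - 1)) := by
  classical
  set Om : ℕ := (D + 1) ^ d * A with hOm
  set M : Set (Fin d → ℕ) := {m | ∀ j, ¬ cnt_ext (I j) (c j) ≤ m} with hM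
  -- the relation
  have hrel2 : ∀ j q, ((F j).coeff (c j)).eval (n q) * cnt_mon x (cnt_ext (I j) (c j)) q =
      ∑ a ∈ (F j).support.erase (c j), (-(F j).coeff a).eval (n q) *
        cnt_mon x (cnt_ext (I j) a) q := by
    intro j q
    have h1 := hrel j q
    rw [MvPolynomial.eval₂_eq'] at h1
    have h2 : ∀ a : Fin r →₀ ℕ, (Polynomial.evalRingHom (n q)) ((F j).coeff a) *
        ∏ i, x (I j i) q ^ a i =
        ((F j).coeff a).eval (n q) * cnt_mon x (cnt_ext (I j) a) q := by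
      intro a
      rw [cnt_ext_mon, Polynomial.coe_evalRingHom]
    rw [Finset.sum_congr rfl fun a _ => h2 a, ← Finset.add_sum_erase _ _ (hc j)] at h1
    rw [eq_neg_of_add_eq_zero_left h1, ← Finset.sum_neg_distrib]
    refine Finset.sum_congr rfl fun a _ => ?_
    rw [eval_neg, neg_mul]
  have hclaim := cnt_claim n x (D + 1) D (fun j => cnt_ext (I j) (c j))
    (fun j => (F j).coeff (c j)) (fun j => (F j).support.erase (c j))
    (fun j a => cnt_ext (I j) a) (fun j a => -(F j).coeff a) (fun j => (hD j _ (hc j)).2)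
    (fun j a ha => by
      rw [natDegree_neg]
      exact (hD j a (Finset.mem_of_mem_erase ha)).2) hlt hrel2
  -- everything is in `W`
  have hsub : (∏ j, (F j).coeff (c j)).natDegree ≤ Fintype.card J * D := by
    refine (natDegree_prod_le _ _).trans ((Finset.sum_le_card_nsmul _ _ D
      fun j _ => (hD j _ (hc j)).2).trans ?_)
    rw [smul_eq_mul, Finset.card_univ]
  have hW : ∀ u ∈ cnt_P x A,
      (fun q => (∏ j, (F j).coeff (c j)).eval (n q) ^ (Om + 1) * u q) ∈
        cnt_W n x M (D + 1) ((Fintype.card J * D + D) * (Om + 1)) Om := by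
    intro u hu
    refine Submodule.span_induction
      (p := fun u _ => (fun q => (∏ j, (F j).coeff (c j)).eval (n q) ^ (Om + 1) * u q) ∈
        cnt_W n x M (D + 1) ((Fintype.card J * D + D) * (Om + 1)) Om) ?_ ?_ ?_ ?_ hu
    · rintro _ ⟨a, ha, rfl⟩
      have hwa : cnt_om (D + 1) a ≤ Om :=
        (cnt_om_le (Nat.le_add_left 1 D) a).trans (Nat.mul_le_mul_left _ ha)
      have h1 := hclaim _ a rfl
      have h2 := cnt_W_mul (f := (∏ j, (F j).coeff (c j)) ^ (Om - cnt_om (D + 1) a))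
        (k := (Om - cnt_om (D + 1) a) * (Fintype.card J * D))
        (natDegree_pow_le.trans (Nat.mul_le_mul_left _ hsub)) h1
      have e : (fun q => (∏ j, (F j).coeff (c j)).eval (n q) ^ (Om + 1) * cnt_mon x a q) =
          fun q => ((∏ j, (F j).coeff (c j)) ^ (Om - cnt_om (D + 1) a)).eval (n q) *
            ((∏ j, (F j).coeff (c j)).eval (n q) ^ (cnt_om (D + 1) a + 1) *
              cnt_mon x a q) := by
        funext q
        rw [eval_pow, ← mul_assoc, ← pow_add]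
        congr 2
        omega
      rw [e]
      refine cnt_W_mono n x M (D + 1) ?_ hwa h2
      obtain ⟨t, ht⟩ : ∃ t, Om = cnt_om (D + 1) a + t := ⟨Om - cnt_om (D + 1) a, by omega⟩
      have e4 : Om - cnt_om (D + 1) a = t := by omega
      rw [e4, ht]
      nlinarith [Nat.zero_le (D * t)]
    · have e : (fun q : ι => (∏ j, (F j).coeff (c j)).eval (n q) ^ (Om + 1) *
          (0 : ι → L) q) = 0 := by
        funext q
        simp
      rw [e]
      exact Submodule.zero_mem _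
    · intro u v _ _ hu hv
      have e : (fun q : ι => (∏ j, (F j).coeff (c j)).eval (n q) ^ (Om + 1) * (u + v) q) =
          (fun q => (∏ j, (F j).coeff (c j)).eval (n q) ^ (Om + 1) * u q) +
            fun q => (∏ j, (F j).coeff (c j)).eval (n q) ^ (Om + 1) * v q := by
        funext q
        simp only [Pi.add_apply, mul_add]
      rw [e]
      exact Submodule.add_mem _ hu hv
    · intro b u _ hu
      have e : (fun q : ι => (∏ j, (F j).coeff (c j)).eval (n q) ^ (Om + 1) * (b • u) q) =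
          b • fun q => (∏ j, (F j).coeff (c j)).eval (n q) ^ (Om + 1) * u q := by
        funext q
        simp only [Pi.smul_apply, smul_eq_mul]
        ring
      rw [e]
      exact Submodule.smul_mem _ _ hu
  have htop2 : cnt_W n x M (D + 1) ((Fintype.card J * D + D) * (Om + 1)) Om = ⊤ := by
    rw [eq_top_iff]
    intro v _
    have h1 : (fun q => v q / (∏ j, (F j).coeff (c j)).eval (n q) ^ (Om + 1)) ∈
        cnt_P x A := by
      rw [htop]
      exact Submodule.mem_top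
    have h2 := hW _ h1
    have e : (fun q => (∏ j, (F j).coeff (c j)).eval (n q) ^ (Om + 1) *
        (v q / (∏ j, (F j).coeff (c j)).eval (n q) ^ (Om + 1))) = v := by
      funext q
      rw [mul_div_cancel₀]
      exact pow_ne_zero _ (hG q)
    rw [e] at h2
    exact h2
  have hfin := cnt_W_finrank n x M (B := D + 1) (b := (Fintype.card J * D + D) * (Om + 1))
    (o := Om) (K := 2 ^ d * (D + 1) ^ d * (Om + 1) ^ (r - 1)) (Nat.le_add_left 1 D) (by
      intro T hT
      refine cnt_M_card hr T fun m hm => ⟨?_, fun i =>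
        (cnt_le_om (Nat.le_add_left 1 D) m i).trans (hT m hm).2⟩
      by_contra hcon
      push Not at hcon
      obtain ⟨U, hU1, hU2⟩ := Finset.exists_subset_card_eq hcon
      obtain ⟨j, hj⟩ := hIs (U.orderEmbOfFin hU2) (U.orderEmbOfFin hU2).injective
      apply (hT m hm).1 j
      intro i
      by_cases hi : ∃ l, I j l = i
      · obtain ⟨l, rfl⟩ := hi
        have h1 : D ≤ m (I j l) := by
          have h2 := hU1 (Finset.orderEmbOfFin_mem U hU2 l)
          rw [hj]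
          exact (Finset.mem_filter.1 h2).2
        exact ((cnt_ext_le _ _ _).trans (hD j _ (hc j)).1).trans h1
      · have h1 : cnt_ext (I j) (c j) i = 0 := by
          unfold cnt_ext
          refine Finset.sum_eq_zero fun l _ => if_neg fun h => hi ⟨l, h⟩
        rw [h1]
        exact Nat.zero_le _)
  rw [htop2, finrank_top, Module.finrank_fintype_fun_eq_card] at hfin
  exact hfin

theorem P_prod {d : ℕ} {L : Type} [Field L] {ι : Type} (x : Fin d → ι → L) {κ : Type}
    (S : Finset κ) (v : κ → ι → L) (a : κ → ℕ) (hv : ∀ j, v j ∈ cnt_P x 1) :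
    (fun q => ∏ j ∈ S, v j q ^ a j) ∈ cnt_P x (∑ j ∈ S, a j) := by
  classical
  have hpow : ∀ j (i : ℕ), (fun q => v j q ^ i) ∈ cnt_P x i := by
    intro j i
    induction i with
    | zero =>
      have e : (fun q => v j q ^ 0) = (1 : ι → L) := by
        funext q
        simp
      rw [e]
      exact cnt_P_one x
    | succ i ih =>
      have e : (fun q => v j q ^ (i + 1)) = (fun q => v j q ^ i) * v j := by
        funext q
        rw [Pi.mul_apply, pow_succ]
      rw [e]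
      exact cnt_P_mul x ih (hv j)
  induction S using Finset.induction_on with
  | empty =>
    have e : (fun q => ∏ j ∈ (∅ : Finset κ), v j q ^ a j) = (1 : ι → L) := by
      funext q
      simp
    rw [e, Finset.sum_empty]
    exact cnt_P_one x
  | insert j S hj ih =>
    have e : (fun q => ∏ l ∈ insert j S, v l q ^ a l) =
        (fun q => v j q ^ a j) * fun q => ∏ l ∈ S, v l q ^ a l := by
      funext q
      rw [Finset.prod_insert hj, Pi.mul_apply]
    rw [e, Finset.sum_insert hj]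
    exact cnt_P_mul x (hpow j _) ih

/-- the dehomogenised variables -/
noncomputable def xv {d : ℕ} {L : Type} [Field L] (θ : Fin (d + 1) → L) (i : Fin d)
    (y : V (d + 1)) : L := ell (θ i.succ) y / ell (θ 0) y

theorem coord_mem {d : ℕ} {L : Type} [Field L] {ι : Type} (y : ι → V (d + 1))
    (θ : Fin (d + 1) → L) (hθ : Function.Injective θ) (h0 : ∀ q, ell (θ 0) (y q) ≠ 0)
    (j : Fin (d + 1)) :
    (fun q => (y q j : L) / ell (θ 0) (y q)) ∈ cnt_P (fun i q => xv θ i (y q)) 1 := by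
  have hdet : IsUnit (Matrix.vandermonde θ).det :=
    isUnit_iff_ne_zero.2 (Matrix.det_vandermonde_ne_zero_iff.2 hθ)
  have h1 : ∀ q, (Matrix.vandermonde θ).mulVec (fun j => (y q j : L)) =
      fun i => ell (θ i) (y q) := by
    intro q
    funext i
    simp only [Matrix.mulVec, dotProduct, Matrix.vandermonde_apply, ell]
    exact Finset.sum_congr rfl fun j _ => mul_comm _ _
  have h2 : (fun q => (y q j : L) / ell (θ 0) (y q)) =
      ∑ i, ((Matrix.vandermonde θ)⁻¹ j i) • (fun q => ell (θ i) (y q) / ell (θ 0) (y q)) := by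
    funext q
    have h3 : (fun j => (y q j : L)) =
        (Matrix.vandermonde θ)⁻¹.mulVec (fun i => ell (θ i) (y q)) := by
      rw [← h1 q, Matrix.mulVec_mulVec, Matrix.nonsing_inv_mul _ hdet, Matrix.one_mulVec]
    have h4 := congrFun h3 j
    simp only [Matrix.mulVec, dotProduct] at h4
    rw [h4, Finset.sum_apply, Finset.sum_div]
    refine Finset.sum_congr rfl fun i _ => ?_
    rw [Pi.smul_apply, smul_eq_mul, mul_div_assoc]
  rw [h2]
  refine Submodule.sum_mem _ fun i _ => Submodule.smul_mem _ _ ?_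
  refine Fin.cases ?_ (fun i => ?_) i
  · have e : (fun q => ell (θ 0) (y q) / ell (θ 0) (y q)) = (1 : ι → L) := by
      funext q
      rw [div_self (h0 q), Pi.one_apply]
    rw [e]
    exact cnt_P_mono _ (Nat.zero_le 1) (cnt_P_one _)
  · exact cnt_P_var (fun i q => xv θ i (y q)) i

theorem form_mem {d : ℕ} {L : Type} [Field L] [CharZero L] {ι : Type} (y : ι → V (d + 1))
    (θ : Fin (d + 1) → L) (hθ : Function.Injective θ) (h0 : ∀ q, ell (θ 0) (y q) ≠ 0) {D : ℕ}
    {F : V (d + 1) → ℚ} (hF : F ∈ HP (d + 1) D) :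
    (fun q => ((F (y q) : ℚ) : L) / ell (θ 0) (y q) ^ D) ∈
      cnt_P (fun i q => xv θ i (y q)) D := by
  refine Submodule.span_induction (p := fun F _ =>
    (fun q => ((F (y q) : ℚ) : L) / ell (θ 0) (y q) ^ D) ∈ cnt_P (fun i q => xv θ i (y q)) D)
    ?_ ?_ ?_ ?_ hF
  · rintro _ ⟨a, ha, rfl⟩
    have h1 := P_prod (fun i q => xv θ i (y q)) Finset.univ
      (fun j q => (y q j : L) / ell (θ 0) (y q)) a (coord_mem y θ hθ h0)
    rw [ha] at h1
    have e : (fun q => (((∏ i, (y q i : ℚ) ^ a i : ℚ)) : L) / ell (θ 0) (y q) ^ D) =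
        fun q => ∏ j, ((y q j : L) / ell (θ 0) (y q)) ^ a j := by
      funext q
      simp only [div_pow]
      rw [Finset.prod_div_distrib, Finset.prod_pow_eq_pow_sum, ha]
      push_cast
      rfl
    exact e ▸ h1
  · have e : (fun q => (((0 : V (d + 1) → ℚ) (y q) : ℚ) : L) / ell (θ 0) (y q) ^ D) = 0 := by
      funext q
      simp
    rw [e]
    exact Submodule.zero_mem _
  · intro u v _ _ hu hv
    have e : (fun q => (((u + v) (y q) : ℚ) : L) / ell (θ 0) (y q) ^ D) =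
        (fun q => ((u (y q) : ℚ) : L) / ell (θ 0) (y q) ^ D) +
          fun q => ((v (y q) : ℚ) : L) / ell (θ 0) (y q) ^ D := by
      funext q
      simp only [Pi.add_apply, Rat.cast_add, add_div]
    rw [e]
    exact Submodule.add_mem _ hu hv
  · intro b u _ hu
    have e : (fun q => (((b • u) (y q) : ℚ) : L) / ell (θ 0) (y q) ^ D) =
        (b : L) • fun q => ((u (y q) : ℚ) : L) / ell (θ 0) (y q) ^ D := by
      funext q
      simp only [Pi.smul_apply, smul_eq_mul, Rat.cast_mul, mul_div_assoc]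
    rw [e]
    exact Submodule.smul_mem _ _ hu

theorem top_of_sep {d : ℕ} {L : Type} [Field L] [CharZero L] (θ : Fin (d + 1) → L)
    (hθ : Function.Injective θ) {D : ℕ} {T : Finset (V (d + 1))} (hT : Sep D T)
    (h0 : ∀ y ∈ T, ell (θ 0) y ≠ 0) :
    cnt_P (fun i (q : {y // y ∈ T}) => xv θ i q.1) D = ⊤ := by
  classical
  rw [eq_top_iff]
  intro v _
  rw [pi_eq_sum_univ' v]
  refine Submodule.sum_mem _ fun q _ => Submodule.smul_mem _ _ ?_
  obtain ⟨F, hF, hF1, hF2⟩ := hT q.1 q.2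
  have h1 := form_mem (fun q : {y // y ∈ T} => q.1) θ hθ (fun q => h0 q.1 q.2) hF
  have hne : ((F q.1 : ℚ) : L) / ell (θ 0) q.1 ^ D ≠ 0 :=
    div_ne_zero (by exact_mod_cast hF1) (pow_ne_zero _ (h0 q.1 q.2))
  have e : (Pi.single q (1 : L) : {y // y ∈ T} → L) =
      (((F q.1 : ℚ) : L) / ell (θ 0) q.1 ^ D)⁻¹ •
        fun q' : {y // y ∈ T} => ((F q'.1 : ℚ) : L) / ell (θ 0) q'.1 ^ D := by
    funext q'
    rw [Pi.smul_apply, smul_eq_mul]
    by_cases h : q' = q
    · rw [h, Pi.single_eq_same, inv_mul_cancel₀ hne]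
    · rw [Pi.single_eq_of_ne h, hF2 q'.1 q'.2 (fun h' => h (Subtype.ext h'))]
      simp
  rw [e]
  exact Submodule.smul_mem _ _ h1

/-- relations for all `r`-tuples give thinness -/
theorem thin_of_rel (d r D C1 : ℕ) (hr : 1 ≤ r) : ∃ C : ℕ, ∀ (L : Type) [Field L] [CharZero L]
    (θ : Fin (d + 1) → L), Function.Injective θ → ∀ (nn : V (d + 1) → ℤ)
    (S : Finset (V (d + 1))), (∀ y ∈ S, ell (θ 0) y ≠ 0) →
    (∀ m : ℤ, (S.filter fun y => nn y = m).card ≤ C1) →
    (∀ I : Fin r → Fin d, ∃ F : MvPolynomial (Fin r) L[X], F ≠ 0 ∧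
      (∀ a ∈ F.support, a.degree ≤ D ∧ (F.coeff a).natDegree ≤ D) ∧
      ∀ y ∈ S, MvPolynomial.eval₂ (Polynomial.evalRingHom (nn y : L))
        (fun i => xv θ (I i) y) F = 0) →
    ∀ N, Thin N (C * (N + 1) ^ r) S := by
  classical
  refine ⟨((d ^ r * D + D) * (D + 1) ^ d + 1) *
    (2 ^ d * (D + 1) ^ d * ((D + 1) ^ d) ^ (r - 1)) + C1 * (d ^ r * D), ?_⟩
  intro L _ _ θ hθ nn S h0 hSC hrel N T hTS hT
  have hFex : ∀ j : {I : Fin r → Fin d // Function.Injective I},
      ∃ F : MvPolynomial (Fin r) L[X], F ≠ 0 ∧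
        (∀ a ∈ F.support, a.degree ≤ D ∧ (F.coeff a).natDegree ≤ D) ∧
        ∀ y ∈ S, MvPolynomial.eval₂ (Polynomial.evalRingHom (nn y : L))
          (fun i => xv θ (j.1 i) y) F = 0 := fun j => hrel j.1
  choose F hF0 hFD hFq using hFex
  have hcex : ∀ j, ∃ c ∈ (F j).support, ∀ a ∈ (F j).support.erase c,
      cnt_om (D + 1) (cnt_ext j.1 a) < cnt_om (D + 1) (cnt_ext j.1 c) := fun j =>
    cnt_leading j.2 (hF0 j) fun a ha => (hFD j a ha).1
  choose c hc hlt using hcex
  have hJ : Fintype.card {I : Fin r → Fin d // Function.Injective I} ≤ d ^ r := by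
    refine (Fintype.card_subtype_le _).trans ?_
    rw [Fintype.card_fun, Fintype.card_fin, Fintype.card_fin]
  set G : L[X] := ∏ j, (F j).coeff (c j) with hGdef
  have hG0 : G ≠ 0 := Finset.prod_ne_zero_iff.2 fun j _ => MvPolynomial.mem_support_iff.1 (hc j)
  have hGd : G.natDegree ≤ d ^ r * D := by
    refine (natDegree_prod_le _ _).trans ((Finset.sum_le_card_nsmul _ _ D
      fun j _ => (hFD j _ (hc j)).2).trans ?_)
    rw [smul_eq_mul, Finset.card_univ]
    exact Nat.mul_le_mul_right _ hJ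
  have hbad : (T.filter fun y => G.eval (nn y : L) = 0).card ≤ C1 * (d ^ r * D) := by
    have h1 : ((T.filter fun y => G.eval (nn y : L) = 0).image nn).card ≤ d ^ r * D := by
      refine le_trans ?_ hGd
      refine le_trans ?_ (card_roots' G)
      refine le_trans ?_ (Multiset.toFinset_card_le _)
      refine Finset.card_le_card_of_injOn (fun z : ℤ => (z : L)) ?_ ?_
      · intro z hz
        rw [Finset.mem_coe, Finset.mem_image] at hz
        obtain ⟨q, hq, rfl⟩ := hz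
        rw [Finset.mem_coe, Multiset.mem_toFinset, mem_roots hG0]
        exact (Finset.mem_filter.1 hq).2
      · intro z _ z' _ h
        exact Int.cast_injective h
    refine (Finset.card_le_mul_card_image (f := nn) _ C1 ?_).trans (Nat.mul_le_mul_left _ h1)
    intro z _
    refine (Finset.card_le_card ?_).trans (hSC z)
    intro q hq
    rw [Finset.mem_filter] at hq ⊢
    exact ⟨hTS (Finset.mem_filter.1 hq.1).1, hq.2⟩
  obtain ⟨U, hU⟩ : ∃ U, U = T.filter fun y => ¬ G.eval (nn y : L) = 0 := ⟨_, rfl⟩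
  have hUT : U ⊆ T := by
    rw [hU]
    exact Finset.filter_subset _ _
  have hUG : ∀ y ∈ U, G.eval (nn y : L) ≠ 0 := by
    intro y hy
    rw [hU] at hy
    exact (Finset.mem_filter.1 hy).2
  have htop := top_of_sep θ hθ (hT.mono hUT) (fun y hy => h0 y (hTS (hUT hy)))
  have hgood := cnt_gen (ι := {y // y ∈ U}) hr
    (fun j : {I : Fin r → Fin d // Function.Injective I} => j.1)
    (fun K hK => ⟨⟨K, hK⟩, rfl⟩) F hFD c hc hlt (fun u => (nn u.1 : L))
    (fun i q => xv θ i q.1) N htop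
    (fun j u => hFq j _ (hTS (hUT u.2))) (fun u => hUG u.1 u.2)
  rw [Fintype.card_coe] at hgood
  set K : ℕ := (D + 1) ^ d with hK
  have hK1 : 1 ≤ K := Nat.one_le_pow _ _ (Nat.succ_pos _)
  have hO : K * N + 1 ≤ K * (N + 1) := by
    rw [Nat.mul_succ]
    omega
  have e1 : (Fintype.card {I : Fin r → Fin d // Function.Injective I} * D + D) *
      (K * N + 1) + 1 ≤ ((d ^ r * D + D) * K + 1) * (N + 1) := by
    have h2 : (Fintype.card {I : Fin r → Fin d // Function.Injective I} * D + D) *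
        (K * N + 1) ≤ (d ^ r * D + D) * (K * (N + 1)) :=
      Nat.mul_le_mul (Nat.add_le_add_right (Nat.mul_le_mul_right _ hJ) _) hO
    calc _ ≤ (d ^ r * D + D) * (K * (N + 1)) + (N + 1) := Nat.add_le_add h2 (by omega)
      _ = _ := by ring
  have e2 : 2 ^ d * K * (K * N + 1) ^ (r - 1) ≤ 2 ^ d * K * (K * (N + 1)) ^ (r - 1) :=
    Nat.mul_le_mul_left _ (Nat.pow_le_pow_left hO _)
  have hgood2 : U.card ≤ ((d ^ r * D + D) * K + 1) * (2 ^ d * K * K ^ (r - 1)) * (N + 1) ^ r := by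
    refine hgood.trans ((Nat.mul_le_mul e1 e2).trans (le_of_eq ?_))
    obtain ⟨s, rfl⟩ : ∃ s, r = s + 1 := ⟨r - 1, by omega⟩
    rw [Nat.add_sub_cancel, mul_pow, pow_succ (N + 1)]
    ring
  have hsplit : T.card = (T.filter fun y => G.eval (nn y : L) = 0).card + U.card := by
    rw [hU]
    exact (Finset.card_filter_add_card_filter_not (s := T)
      (fun y => G.eval (nn y : L) = 0)).symm
  have hN1 : 1 ≤ (N + 1) ^ r := Nat.one_le_pow _ _ (Nat.succ_pos _)
  have h3 : C1 * (d ^ r * D) ≤ C1 * (d ^ r * D) * (N + 1) ^ r := Nat.le_mul_of_pos_right _ hN1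
  rw [hsplit, add_mul, add_comm]
  exact Nat.add_le_add hgood2 (hbad.trans h3)

theorem prod_bound {s : ℕ} {ι : Type} [Fintype ι] (T : ℕ) (b Λ Vv : ℝ)
    (hV : ∀ T' : Finset (ℕ × (Fin s → ℕ)), (∀ τ ∈ T', τ.1 ≤ T) →
      ∑ τ ∈ T', ((τ.1 : ℝ) - Λ - b * ∑ i, (τ.2 i : ℝ)) ≤ Vv)
    {X η : ℝ} (hX : 1 ≤ X) (hη : 0 < η) (hηX : η ≤ X ^ (-b)) (m : ι → ℕ × (Fin s → ℕ))
    (hm : Function.Injective m) (hmT : ∀ f, (m f).1 ≤ T) :
    ∏ f, (X ^ (m f).1 * η ^ (∑ i, (m f).2 i)) ≤ X ^ (Vv + Fintype.card ι * Λ) := by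
  classical
  have hX0 : 0 < X := by linarith only [hX]
  have h1 := hV (Finset.univ.image m) (by
    intro τ hτ
    obtain ⟨f, -, rfl⟩ := Finset.mem_image.1 hτ
    exact hmT f)
  rw [Finset.sum_image (fun x _ y _ h => hm h)] at h1
  have h2 : ∀ f, X ^ (m f).1 * η ^ (∑ i, (m f).2 i) ≤
      X ^ (((m f).1 : ℝ) - b * ∑ i, ((m f).2 i : ℝ)) := by
    intro f
    have e : X ^ (((m f).1 : ℝ) - b * ∑ i, ((m f).2 i : ℝ)) =
        X ^ (m f).1 * (X ^ (-b)) ^ (∑ i, (m f).2 i) := by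
      rw [← Real.rpow_natCast X, ← Real.rpow_natCast (X ^ (-b)), ← Real.rpow_mul hX0.le,
        ← Real.rpow_add hX0]
      congr 1
      push_cast
      ring
    rw [e]
    exact mul_le_mul_of_nonneg_left (pow_le_pow_left₀ hη.le hηX _) (by positivity)
  refine (Finset.prod_le_prod (fun f _ => by positivity) fun f _ => h2 f).trans ?_
  rw [← Real.rpow_sum_of_pos hX0]
  refine Real.rpow_le_rpow_of_exponent_le hX ?_
  have h3 : ∑ f, (((m f).1 : ℝ) - b * ∑ i, ((m f).2 i : ℝ)) =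
      ∑ f, (((m f).1 : ℝ) - Λ - b * ∑ i, ((m f).2 i : ℝ)) + Fintype.card ι * Λ := by
    rw [← Finset.card_univ, ← nsmul_eq_mul, ← Finset.sum_const, ← Finset.sum_add_distrib]
    exact Finset.sum_congr rfl fun f _ => by ring
  rw [h3]
  linarith only [h1]

theorem ratio_close {A η R a b : ℝ} {u v u' v' : ℂ} (hA : 1 ≤ A) (hη : 0 < η) (hR : 0 < R)
    (ha : 0 < a) (hb : 0 < b) (haR : a ≤ 2 * R)
    (h1 : ‖(b : ℂ) * u - a * u'‖ ≤ A * (η * a * b)) (h2 : ‖(b : ℂ) * v - a * v'‖ ≤ A * (η * a * b))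
    (hu' : ‖u'‖ ≤ A * R) (hv' : ‖v'‖ ≤ A * R) (hv : R / A ≤ ‖v‖) (hv2 : R / A ≤ ‖v'‖) :
    ‖u / v - u' / v'‖ ≤ 4 * A ^ 4 * η := by
  have hA0 : 0 < A := by linarith only [hA]
  have hp : 0 < R / A := by positivity
  have hv0 : v ≠ 0 := norm_pos_iff.1 (hp.trans_le hv)
  have hv0' : v' ≠ 0 := norm_pos_iff.1 (hp.trans_le hv2)
  have e : (b : ℂ) * (u * v' - v * u') = (b * u - a * u') * v' - u' * (b * v - a * v') := by ring
  have h3 : b * ‖u * v' - v * u'‖ ≤ b * (2 * A ^ 2 * η * a * R) := by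
    have h4 : ‖(b : ℂ) * (u * v' - v * u')‖ = b * ‖u * v' - v * u'‖ := by
      rw [norm_mul, Complex.norm_real, Real.norm_of_nonneg hb.le]
    rw [← h4, e]
    refine (norm_sub_le _ _).trans ?_
    rw [norm_mul, norm_mul]
    have h5 := mul_le_mul h1 hv' (norm_nonneg _) (by positivity)
    have h6 := mul_le_mul hu' h2 (norm_nonneg _) (by positivity)
    refine (add_le_add h5 h6).trans (le_of_eq ?_)
    ring
  have h4 : ‖u * v' - v * u'‖ ≤ 2 * A ^ 2 * η * a * R := le_of_mul_le_mul_left h3 hb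
  have h5 : ‖u * v' - v * u'‖ ≤ 4 * A ^ 4 * η * (R / A * (R / A)) := by
    refine h4.trans ?_
    have h6 : 2 * A ^ 2 * η * a * R ≤ 2 * A ^ 2 * η * (2 * R) * R := by gcongr
    refine h6.trans (le_of_eq ?_)
    field_simp
    ring
  rw [div_sub_div _ _ hv0 hv0', norm_div, norm_mul,
    div_le_iff₀ (mul_pos (hp.trans_le hv) (hp.trans_le hv2))]
  refine h5.trans (mul_le_mul_of_nonneg_left ?_ (by positivity))
  exact mul_le_mul hv hv2 hp.le (norm_nonneg _)

theorem det_cx {s : ℕ} {ι : Type} [Fintype ι] [DecidableEq ι] (t : ι → ℕ)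
    (e : ι → Fin (s + 1) → ℤ) (E Kt K T : ℕ) (hE : ∀ f i, (e f i).natAbs ≤ E)
    (hK : ∀ f, ∑ i, (e f i + E).toNat = Kt) (hKK : Kt + K = (s + 1) * E)
    (ht : ∀ f, needs 3 (e f) ≤ t f) (htT : ∀ f, t f ≤ T) (A : ℝ) (hA : 1 ≤ A) :
    ∃ C : ℝ, 0 < C ∧ ∀ (X R η W : ℝ), 1 ≤ X → 0 < R → 0 < η → 0 ≤ W →
      ∀ (θ : Fin (s + 1) → ℂ) (c : ℂ) (n : ι → ℂ) (z γ : ι → Fin (s + 1) → ℂ) (x0 : Fin s → ℂ),
      (∀ i, ‖θ i‖ ≤ A) → ‖c‖ ≤ A → (∀ q, ‖n q‖ ≤ A * X) → (∀ q i, R / A ≤ ‖z q i‖) →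
      (∀ q i, ‖z q i‖ ≤ A * R) → (∀ q (i : Fin s), ‖z q i.succ / z q 0 - x0 i‖ ≤ A * η) →
      (∀ i, ‖x0 i‖ ≤ A) → (∀ q i, z q i ^ 3 * γ q i = c * (n q - θ i)) →
      (∀ m : ι → ℕ × (Fin s → ℕ), Function.Injective m → (∀ f, (m f).1 ≤ t f) →
        ∏ f, (X ^ (m f).1 * η ^ (∑ i, (m f).2 i)) ≤ W) →
      ‖(Matrix.of fun q f => fn 3 (n q) (z q) (γ q) (t f) (e f)).det‖ *
        R ^ (K * Fintype.card ι) ≤ C * W := by
  have hA0 : 0 < A := by linarith only [hA]
  obtain ⟨C, hC, hdet⟩ := det_gen t E (fun f (i : Fin s) => (e f i.succ + E).toNat)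
    (fun f i => by
      have := hE f i.succ
      omega) A ((2 * A ^ 2) ^ T) hA (by positivity)
  set N := Fintype.card ι with hN
  refine ⟨A ^ ((s + 1) * E * N) * A ^ (Kt * N) * C, by positivity, ?_⟩
  intro X R η W hX hR hη hW θ c n z γ x0 hθ hc hn hzl hzu hx hx0 hz hW'
  have hp : 0 < R / A := by positivity
  have h0 : ∀ q, z q 0 ≠ 0 := fun q => norm_pos_iff.1 (hp.trans_le (hzl q 0))
  have h1 := hdet X η W hX hη hW (fun f => pl 3 c θ (t f) (e f)) n
    (fun q i => z q i.succ / z q 0) x0 (fun f => dets_pl_natDegree 3 c θ (ht f))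
    (fun f j => (dets_pl_coeff hA 3 hc hθ (ht f) j).trans
      (pow_le_pow_right₀ (by nlinarith) (htT f))) hn hx hx0 hW'
  have h2 := congrArg norm (det_hom t e hE (by norm_num : 1 ≤ 3) hK n c z γ θ h0 hz)
  rw [norm_mul, norm_mul] at h2
  have hlow : (R / A) ^ ((s + 1) * E * N) ≤ ‖∏ q, ∏ i, z q i ^ E‖ := by
    rw [norm_prod]
    have h3 : (R / A) ^ ((s + 1) * E * N) = ∏ _q : ι, ∏ _i : Fin (s + 1), (R / A) ^ E := by
      rw [Finset.prod_const, Finset.prod_const, Finset.card_univ, Finset.card_univ,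
        Fintype.card_fin, ← pow_mul, ← pow_mul]
      congr 1
      ring
    rw [h3]
    refine Finset.prod_le_prod (fun q _ => by positivity) fun q _ => ?_
    rw [norm_prod]
    refine Finset.prod_le_prod (fun i _ => by positivity) fun i _ => ?_
    rw [norm_pow]
    exact pow_le_pow_left₀ hp.le (hzl q i) _
  have hup : ‖∏ q, z q 0 ^ Kt‖ ≤ (A * R) ^ (Kt * N) := by
    rw [norm_prod]
    have h3 : (A * R) ^ (Kt * N) = ∏ _q : ι, (A * R) ^ Kt := by
      rw [Finset.prod_const, Finset.card_univ, ← pow_mul]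
    rw [h3]
    refine Finset.prod_le_prod (fun q _ => norm_nonneg _) fun q _ => ?_
    rw [norm_pow]
    exact pow_le_pow_left₀ (norm_nonneg _) (hzu q 0) _
  set Dt := ‖(Matrix.of fun q f => fn 3 (n q) (z q) (γ q) (t f) (e f)).det‖ with hDt
  have hDt0 : 0 ≤ Dt := norm_nonneg _
  have h4 : (R / A) ^ ((s + 1) * E * N) * Dt ≤ (A * R) ^ (Kt * N) * (C * W) := by
    refine (mul_le_mul_of_nonneg_right hlow hDt0).trans ?_
    rw [h2]
    exact mul_le_mul hup h1 (norm_nonneg _) (by positivity)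
  have h5 : R ^ ((s + 1) * E * N) = R ^ (Kt * N) * R ^ (K * N) := by
    rw [← pow_add, ← hKK, add_mul]
  have h6 : 0 < R ^ (Kt * N) := by positivity
  refine le_of_mul_le_mul_left ?_ h6
  have h7 : 0 < A ^ ((s + 1) * E * N) := by positivity
  rw [div_pow, h5, div_mul_eq_mul_div, div_le_iff₀ h7, mul_pow] at h4
  refine le_trans (le_of_eq ?_) (h4.trans (le_of_eq ?_)) <;> ring

theorem ell_smul {R : Type} [CommRing R] {d : ℕ} (θ : R) (y : Fin d → ℤ) (b : ℤ) :
    ell θ (fun j => y j * b) = (b : R) * ell θ y := by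
  unfold ell
  rw [Finset.mul_sum]
  refine Finset.sum_congr rfl fun j _ => ?_
  push_cast
  ring

end I

open I in
theorem relS : RelS := by
  classical
  intro L _ _ θ hθ A0 Cs s w b hA0 hs1 _ hb hcr
  obtain ⟨T, K, Λ, Vv, B, hB, hV, hcrit⟩ := hcr
  obtain ⟨A, hA1, hAθ, hAd, hAs⟩ := exists_size L (d := 6) (by norm_num) θ
  have hA0' : 0 < A := by linarith only [hA1]
  obtain ⟨E, hE⟩ : ∃ E : ℕ, ∀ (f : B) i, (f.1.2 i).natAbs ≤ E :=
    ⟨Finset.univ.sup (fun f : B => Finset.univ.sup fun i => (f.1.2 i).natAbs), fun f i =>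
      (Finset.le_sup (f := fun i => (f.1.2 i).natAbs) (Finset.mem_univ i)).trans
        (Finset.le_sup (f := fun f : B => Finset.univ.sup fun i => (f.1.2 i).natAbs)
          (Finset.mem_univ f))⟩
  have hK0 : ∀ f : B, ∑ i, (f.1.2 i + E).toNat + K = (s + 1) * E := by
    intro f
    have h1 : ∀ i, (((f.1.2 i + E).toNat : ℕ) : ℤ) = f.1.2 i + E := fun i => by
      have := hE f i
      omega
    have h2 : ((∑ i, (f.1.2 i + E).toNat : ℕ) : ℤ) = -(K : ℤ) + ((s + 1) * E : ℕ) := by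
      rw [Nat.cast_sum, Finset.sum_congr rfl fun i _ => h1 i, Finset.sum_add_distrib,
        (hB f.1 f.2).2.2, Finset.sum_const, Finset.card_univ, Fintype.card_fin, nsmul_eq_mul]
      push_cast
      ring
    omega
  have hBne : B.Nonempty := by
    rw [Finset.nonempty_iff_ne_empty]
    intro h
    have h1 := hV ∅ (by simp)
    rw [h] at hcrit
    simp only [Finset.sum_empty, Finset.card_empty, Nat.cast_zero, zero_mul] at h1 hcrit
    linarith only [h1, hcrit]
  obtain ⟨p0, hp0⟩ := hBne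
  obtain ⟨Kt, hKt⟩ : ∃ Kt : ℕ, Kt = (s + 1) * E - K := ⟨_, rfl⟩
  have hK : ∀ f : B, ∑ i, (f.1.2 i + E).toNat = Kt := fun f => by
    have := hK0 f
    omega
  have hKK : Kt + K = (s + 1) * E := by
    have := hK0 ⟨p0, hp0⟩
    omega
  obtain ⟨A', hA'⟩ : ∃ A' : ℝ, A' = 4 * A ^ 4 + (Cs : ℝ) ^ 3 + A0 := ⟨_, rfl⟩
  have hCs0 : (0 : ℝ) ≤ (Cs : ℝ) ^ 3 := by positivity
  have hA2 : A ≤ A ^ 2 := le_self_pow₀ hA1 (by norm_num)
  have hA4 : A ^ 2 ≤ A ^ 4 := pow_le_pow_right₀ hA1 (by norm_num)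
  have hA4' : 4 * A ^ 4 ≤ A' := by linarith only [hA', hCs0, hA0]
  have hA2' : A ^ 2 ≤ A' := by linarith only [hA4', hA4, hA2, hA1]
  have hAA' : A ≤ A' := hA2.trans hA2'
  have hA'1 : 1 ≤ A' := hA1.trans hAA'
  obtain ⟨C, hC, hdet⟩ := det_cx (ι := B) (fun f => f.1.1) (fun f => f.1.2) E Kt K T hE hK hKK
    (fun f => (hB f.1 f.2).2.1) (fun f => (hB f.1 f.2).1) A' hA'1
  obtain ⟨C0, hC0⟩ := thin_of_rel 5 s (s * (2 * E) + T) 6 hs1
  obtain ⟨δ, hδ⟩ : ∃ δ : ℝ, δ = B.card * (w * K - Λ) - Vv := ⟨_, rfl⟩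
  have hδ0 : 0 < δ := by linarith only [hδ, hcrit]
  refine ⟨C0, C ^ (1 / δ) + 1, ?_⟩
  intro X R η c nn j0 S hX1 hX hXR hR hη hηX hc hcs hD hNar
  have hX0 : 0 < X := by linarith only [hX]
  have hR0 : 0 < R := by linarith only [hR]
  have hCX : C < X ^ δ := by
    calc C = (C ^ (1 / δ)) ^ δ := by
          rw [← Real.rpow_mul hC.le, one_div, inv_mul_cancel₀ hδ0.ne', Real.rpow_one]
      _ < X ^ δ := Real.rpow_lt_rpow (by positivity) (by linarith only [hX1]) hδ0
  have hfin : C * X ^ (Vv + Fintype.card B * Λ) < R ^ (K * Fintype.card B) := by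
    have h1 : (X ^ w) ^ (K * Fintype.card B) ≤ R ^ (K * Fintype.card B) :=
      pow_le_pow_left₀ (by positivity) hXR _
    refine lt_of_lt_of_le ?_ h1
    have h2 : (X ^ w) ^ (K * Fintype.card B) = X ^ δ * X ^ (Vv + Fintype.card B * Λ) := by
      rw [← Real.rpow_natCast, ← Real.rpow_mul hX0.le, ← Real.rpow_add hX0, hδ, Fintype.card_coe]
      congr 1
      push_cast
      ring
    rw [h2]
    exact mul_lt_mul_of_pos_right hCX (by positivity)
  have hγ := hD.hγ
  choose! Γ hΓ using hγ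
  have hyR : ∀ y ∈ S, ∀ j, |(y j : ℝ)| ≤ 2 * R := by
    intro y hy j
    have h1 : |(y j : ℝ)| ≤ (y j0 : ℝ) := by exact_mod_cast (hD.ch y hy).2 j
    exact h1.trans (hD.hy y hy)
  have hsz : ∀ (σ : L →+* ℂ) (i : Fin 6), ∀ y ∈ S, ‖σ (ell (θ i : L) y)‖ ≤ A * R ∧
      R / A ≤ ‖σ (ell (θ i : L) y)‖ := by
    intro σ i y hy
    obtain ⟨N, hN1, hN2⟩ := hD.hN y hy
    exact hAs σ i y R N hR (hyR y hy) hN1 hN2
  have hne : ∀ y ∈ S, ∀ i, ell (θ i : L) y ≠ 0 := by
    intro y hy i h0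
    obtain ⟨σ⟩ : Nonempty (L →+* ℂ) := inferInstance
    have h1 := (hsz σ i y hy).2
    rw [h0, map_zero, norm_zero] at h1
    have h2 : 0 < R / A := by positivity
    linarith only [h1, h2]
  have hcl : ∀ (σ : L →+* ℂ) (i : Fin 6), ∀ y ∈ S, ∀ y' ∈ S,
      ‖(((y' j0 : ℤ) : ℝ) : ℂ) * σ (ell (θ i : L) y) - ((y j0 : ℤ) : ℝ) * σ (ell (θ i : L) y')‖ ≤
        A * (η * y j0 * y' j0) := by
    intro σ i y hy y' hy'
    have ha : (0 : ℝ) < y j0 := by exact_mod_cast (hD.ch y hy).1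
    have hb' : (0 : ℝ) < y' j0 := by exact_mod_cast (hD.ch y' hy').1
    have h1 := hAd σ i (fun j => y j * y' j0) (fun j => y' j * y j0) (η * y j0 * y' j0) (by
      intro j
      have h2 := hNar y hy y' hy' j
      have e : (((y j * y' j0 : ℤ) : ℝ) - ((y' j * y j0 : ℤ) : ℝ)) =
          ((y j : ℝ) / y j0 - (y' j : ℝ) / y' j0) * (y j0 * y' j0) := by
        push_cast
        field_simp
      rw [e, abs_mul, abs_of_pos (mul_pos ha hb'), mul_assoc]
      exact mul_le_mul_of_nonneg_right h2 (mul_pos ha hb').le)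
    rw [ell_smul, ell_smul, map_mul, map_mul, map_intCast, map_intCast] at h1
    rw [Complex.ofReal_intCast, Complex.ofReal_intCast]
    exact h1
  have hθL : Function.Injective fun i => (θ i : L) := fun i j h =>
    hθ (RingOfIntegers.coe_injective h)
  refine hC0 L (fun i => (θ i : L)) hθL nn S (fun y hy => hne y hy 0) hD.mult ?_
  intro J
  obtain ⟨I, hI0, hI1⟩ : ∃ I : Fin (s + 1) → Fin 6, I 0 = 0 ∧ ∀ i : Fin s, I i.succ = (J i).succ :=
    ⟨Fin.cons 0 fun i => (J i).succ, rfl, fun i => rfl⟩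
  have hc3 : ((c : L) ^ 3) ≠ 0 := pow_ne_zero _ (by exact_mod_cast hc)
  obtain ⟨α, hα0, hα⟩ := exists_kernel (fun (q : S) (f : B) =>
      (pl 3 ((c : L) ^ 3) (fun i => (θ (I i) : L)) f.1.1 f.1.2).eval (nn q.1 : L) *
        ∏ i : Fin s, xv (fun i => (θ i : L)) (J i) q.1 ^ (f.1.2 i.succ + E).toNat) (by
    intro φ
    set Mo : Matrix B B (𝓞 L) := Matrix.of fun q f =>
      fn 3 (nn (φ q).1 : 𝓞 L) (fun i => ell (θ (I i)) (φ q).1) (fun i => Γ (φ q).1 (I i))
        f.1.1 f.1.2 with hMo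
    have hmap : ∀ {F : Type} [CommRing F] (σ : 𝓞 L →+* F), σ Mo.det =
        (Matrix.of fun (q : B) (f : B) => fn 3 ((nn (φ q).1 : ℤ) : F)
          (fun i => ell (σ (θ (I i))) (φ q).1) (fun i => σ (Γ (φ q).1 (I i)))
          f.1.1 f.1.2).det := by
      intro F _ σ
      rw [RingHom.map_det]
      congr 1
      ext q f
      simp only [hMo, RingHom.mapMatrix_apply, Matrix.map_apply, Matrix.of_apply, loc_map_fn,
        loc_map_ell, map_intCast]
    have hzγ : ∀ {F : Type} [CommRing F] (σ : 𝓞 L →+* F) (q : B) (i : Fin (s + 1)),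
        ell (σ (θ (I i))) (φ q).1 ^ 3 * σ (Γ (φ q).1 (I i)) =
          (c : F) ^ 3 * (((nn (φ q).1 : ℤ) : F) - σ (θ (I i))) := by
      intro F _ σ q i
      have h3 := congrArg σ (hΓ _ (φ q).2 (I i))
      simp only [map_mul, map_pow, map_sub, map_intCast, loc_map_ell] at h3
      exact h3.symm
    have hzero : Mo.det = 0 := by
      apply eq_zero_of_conj_lt_one L
      intro σ
      have h1 := hmap (σ.comp (algebraMap (𝓞 L) L))
      have h2 : σ ((Mo.det : 𝓞 L) : L) = (σ.comp (algebraMap (𝓞 L) L)) Mo.det := rfl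
      rw [h2, h1]
      have hel : ∀ (i : Fin 6) (y : V 6),
          ell ((σ.comp (algebraMap (𝓞 L) L)) (θ i)) y = σ (ell (θ i : L) y) := fun i y =>
        (loc_map_ell σ _ y).symm
      obtain ⟨y0, hy0⟩ : ∃ y0 : V 6, y0 ∈ S := ⟨(φ ⟨p0, hp0⟩).1, (φ ⟨p0, hp0⟩).2⟩
      have h3 := hdet X R η (X ^ (Vv + Fintype.card B * Λ)) hX hR0 hη (by positivity)
        (fun i => (σ.comp (algebraMap (𝓞 L) L)) (θ (I i))) ((c : ℂ) ^ 3)
        (fun q => ((nn (φ q).1 : ℤ) : ℂ))
        (fun q i => ell ((σ.comp (algebraMap (𝓞 L) L)) (θ (I i))) (φ q).1)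
        (fun q i => (σ.comp (algebraMap (𝓞 L) L)) (Γ (φ q).1 (I i)))
        (fun i => σ (ell (θ (J i).succ : L) y0) / σ (ell (θ 0 : L) y0))
        (fun i => (hAθ σ (I i)).trans hAA')
        (by
          rw [norm_pow]
          have h3 : ‖(c : ℂ)‖ ≤ Cs := by
            rw [Complex.norm_intCast]
            exact_mod_cast hcs
          have h4 : (0 : ℝ) ≤ 4 * A ^ 4 := by positivity
          calc ‖(c : ℂ)‖ ^ 3 ≤ (Cs : ℝ) ^ 3 := pow_le_pow_left₀ (norm_nonneg _) h3 3
            _ ≤ A' := by linarith only [hA', hA0, h4])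
        (by
          intro q
          rw [Complex.norm_intCast]
          refine (hD.hn _ (φ q).2).trans ?_
          have h4 : (0 : ℝ) ≤ 4 * A ^ 4 := by positivity
          have : A0 ≤ A' := by linarith only [hA', hCs0, h4]
          exact mul_le_mul_of_nonneg_right this hX0.le)
        (by
          intro q i
          rw [hel]
          exact le_trans (div_le_div_of_nonneg_left hR0.le hA0' hAA') (hsz σ _ _ (φ q).2).2)
        (by
          intro q i
          rw [hel]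
          exact (hsz σ _ _ (φ q).2).1.trans (mul_le_mul_of_nonneg_right hAA' hR0.le))
        (by
          intro q i
          rw [hel, hel, hI0, hI1]
          have ha : (0 : ℝ) < (φ q).1 j0 := by exact_mod_cast (hD.ch _ (φ q).2).1
          have hb' : (0 : ℝ) < y0 j0 := by exact_mod_cast (hD.ch y0 hy0).1
          refine (ratio_close hA1 hη hR0 ha hb' (hD.hy _ (φ q).2) (hcl σ _ _ (φ q).2 y0 hy0)
            (hcl σ _ _ (φ q).2 y0 hy0) (hsz σ _ _ hy0).1 (hsz σ _ _ hy0).1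
            (hsz σ _ _ (φ q).2).2 (hsz σ _ _ hy0).2).trans ?_
          exact mul_le_mul_of_nonneg_right hA4' hη.le)
        (by
          intro i
          have hp : 0 < R / A := by positivity
          rw [norm_div, div_le_iff₀ (hp.trans_le (hsz σ _ _ hy0).2)]
          refine (hsz σ _ _ hy0).1.trans ?_
          have h4 : A * R = A ^ 2 * (R / A) := by field_simp
          rw [h4]
          exact mul_le_mul hA2' (hsz σ _ _ hy0).2 hp.le (by linarith only [hA'1]))
        (fun q i => hzγ _ q i)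
        (fun m hm hmt => prod_bound T b Λ Vv hV hX hη hηX m hm
          fun f => (hmt f).trans (hB f.1 f.2).1)
      have h4 := lt_of_le_of_lt h3 hfin
      have h5 : 0 < R ^ (K * Fintype.card B) := by positivity
      exact (mul_lt_iff_lt_one_left h5).1 h4
    have h1 := hmap (algebraMap (𝓞 L) L)
    rw [hzero, map_zero] at h1
    have h2 := det_hom (fun f : B => f.1.1) (fun f : B => f.1.2) hE (by norm_num : 1 ≤ 3) hK
      (fun q => ((nn (φ q).1 : ℤ) : L)) ((c : L) ^ 3)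
      (fun q i => ell (algebraMap (𝓞 L) L (θ (I i))) (φ q).1)
      (fun q i => algebraMap (𝓞 L) L (Γ (φ q).1 (I i))) (fun i => algebraMap (𝓞 L) L (θ (I i)))
      (fun q => hne _ (φ q).2 _) (fun q i => hzγ _ q i)
    rw [← h1, mul_zero] at h2
    have h3 := (mul_eq_zero.1 h2.symm).resolve_left
      (Finset.prod_ne_zero_iff.2 fun q _ => pow_ne_zero _ (hne _ (φ q).2 _))
    simp only [hI0, hI1] at h3
    exact h3)
  obtain ⟨F, hF0, hFD, hF⟩ := rel_gen (fun f : B => f.1.1)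
    (fun (f : B) (i : Fin s) => (f.1.2 i.succ + E).toNat) (s * (2 * E) + T)
    (fun f => ⟨by
      have h1 : ∑ i : Fin s, (f.1.2 i.succ + E).toNat ≤ ∑ _i : Fin s, 2 * E :=
        Finset.sum_le_sum fun i _ => by
          have := hE f i.succ
          omega
      rw [Finset.sum_const, Finset.card_univ, Fintype.card_fin, smul_eq_mul] at h1
      omega, (hB f.1 f.2).1.trans (Nat.le_add_left _ _)⟩)
    (fun f g h1 h2 => by
      refine Subtype.ext (Prod.ext h1 ?_)
      have h3 : ∀ i : Fin s, f.1.2 i.succ = g.1.2 i.succ := fun i => by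
        have h4 := congrFun h2 i
        have := hE f i.succ
        have := hE g i.succ
        omega
      have h5 := (hB f.1 f.2).2.2
      have h6 := (hB g.1 g.2).2.2
      rw [Fin.sum_univ_succ] at h5 h6
      rw [Finset.sum_congr rfl fun i _ => h3 i] at h5
      funext i
      refine Fin.cases ?_ h3 i
      linarith only [h5, h6])
    (fun f => pl 3 ((c : L) ^ 3) (fun i => (θ (I i) : L)) f.1.1 f.1.2)
    (fun f => by
      rw [pl_eq]
      exact mul_ne_zero (C_ne_zero.2 (pow_ne_zero _ hc3)) (rel_M_monic _ _ _).ne_zero)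
    (fun f => by
      rw [pl_eq, natDegree_C_mul (pow_ne_zero _ hc3)]
      exact rel_M_natDegree 3 _ (p := (f.1.1, f.1.2)) (hB f.1 f.2).2.1)
    α hα0
  exact ⟨F, hF0, hFD, fun y hy => (hF _ _).trans (hα ⟨y, hy⟩)⟩

end Vale.Agent.N018.H
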