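import Vale.Agent.N018.H.Tail
import Vale.Agent.N018.H.End
import Vale.Agent.N018.H.Cover
import Vale.Agent.N018.H.Jar
import Vale.Agent.N018.H.Mink
import Vale.Agent.N018.H.Gon
import Vale.Agent.N018.H.Gon2
import Vale.Agent.N018.H.Cell
import Vale.Agent.N018.H.Alg
import Vale.Agent.N018.H.LineDet
import Vale.Agent.N018.H.Line
import Vale.Agent.N018.H.Rel
import Vale.Agent.N018.H.Fam
import Vale.Agent.N018.H.Norm

/-! # P018, pair (6,3): all packages together. -/

namespace Vale.Agent.N018.H

open Polynomial

theorem pk : M.Pk :=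
  ⟨endS siegelS jarnikS, boxS minkS (basisS minkS), minorS, cellS, rkThinS, tupS, rkS,
    lineS (basisS minkS) lineDetS algS rkThinS npS, relS, famS, normS⟩

/-- the tail for cubes and sextic polynomials -/
theorem tail63 (f : ℤ[X]) (hirr : Irreducible (f.map (Int.castRingHom ℚ)))
    (hd : f.natDegree = 6) : Vale.Agent.P018.H867P.TailPow f 3 := M.tail63 pk f hirr hd

end Vale.Agent.N018.H
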