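import Vale.Agent.N018.H.Def3
import Vale.Agent.N018.H.Gon
import Vale.Agent.N018.H.Gon2
import Vale.Agent.N018.H.Cover

/-! # P018: covering by primitive hyperplanes, with the boxes inside the hyperplanes. -/

namespace Vale.Agent.N018.H.Cv

open Finset Matrix Gn D

variable {n s ρ : ℕ}

theorem prim {r : ℕ} (c : V (r + 1)) (hc : c ≠ 0) :
    ∃ (c' w : V (r + 1)) (g : ℤ), g ≠ 0 ∧ (∀ i, c i = g * c' i) ∧ dz c' w = 1 := by
  obtain ⟨c', h1, h2⟩ := Finset.extract_gcd (s := univ) c univ_nonempty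
  obtain ⟨w, hw⟩ := Finset.gcd_eq_sum_mul univ c'
  refine ⟨c', w, univ.gcd c, fun e => hc (funext fun i => ?_), fun i => h1 i (mem_univ i), ?_⟩
  · rw [h1 i (mem_univ i), e, zero_mul]; rfl
  · rw [dz, ← hw, h2]

theorem minor_dvd (R : Matrix (Fin s) (Fin (s + 1)) ℤ) (c w : V (s + 1)) (hw : dz c w = 1)
    (hR : ∀ k, dz c (R k) = 0) (i0 : Fin (s + 1)) :
    c i0 ∣ (R.submatrix id i0.succAbove).det := by
  have hc : c ≠ 0 := fun e => by simp [e, dz] at hw
  obtain ⟨M, m0, m1⟩ : ∃ M : Matrix (Fin (s + 1)) (Fin (s + 1)) ℤ,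
      (∀ j, M 0 j = (if j = i0 then 1 else 0) - c i0 * w j) ∧ ∀ k j, M (Fin.succ k) j = R k j :=
    ⟨Matrix.of fun i => Fin.cases (fun j => (if j = i0 then 1 else 0) - c i0 * w j) (fun k => R k) i,
      fun _ => rfl, fun _ _ => rfl⟩
  have h0 : M.det = 0 := by
    refine exists_mulVec_eq_zero_iff.1 ⟨c, hc, funext fun k => ?_⟩
    refine Fin.cases ?_ (fun k => ?_) k
    · have : ∑ j, w j * c j = 1 := by rw [← hw, dz]; exact sum_congr rfl fun j _ => mul_comm _ _
      simp [mulVec, dotProduct, m0, sub_mul, sum_sub_distrib, mul_assoc, ← mul_sum, this]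
    · have := hR k
      simp only [dz] at this
      simp only [mulVec, dotProduct, m1, Pi.zero_apply]
      rw [← this]; exact sum_congr rfl fun j _ => mul_comm _ _
  rw [det_succ_row_zero] at h0
  have e : ∀ j : Fin (s + 1), M.submatrix Fin.succ j.succAbove
      = R.submatrix id j.succAbove := fun j => by ext a b; simp [m1]
  simp only [e, m0, mul_sub, sub_mul, sum_sub_distrib, mul_ite, ite_mul, mul_one, mul_zero,
    zero_mul, sum_ite_eq', mem_univ, if_true] at h0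
  have h1 : c i0 ∣ (-1) ^ (i0 : ℕ) * (R.submatrix id i0.succAbove).det := by
    rw [sub_eq_zero.1 h0]
    exact dvd_sum fun j _ => Dvd.dvd.mul_right (Dvd.dvd.mul_left (dvd_mul_right _ _) _) _
  exact (IsUnit.dvd_mul_left (isUnit_one.neg.pow _)).1 h1

theorem inj {T : Finset (V n)} (hT : rk T = ρ) (a : Fin ρ → V n)
    (ha : ∀ c : Fin ρ → ℚ, c ≠ 0 → ∃ y ∈ T, ∑ i, c i * (dz (a i) y : ℚ) ≠ 0)
    (x : Fin s → V n) (hx : ∀ k, x k ∈ T) (d : Fin s → ℚ)
    (hd : ∀ i, ∑ k, d k * (dz (a i) (x k) : ℚ) = 0) (j : Fin n) : ∑ k, d k * (x k j : ℚ) = 0 := by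
  obtain ⟨X, -, -, h2⟩ := tuple hT
  have key : ∀ (y : V n) (e : Fin ρ → ℚ), (∀ j, (y j : ℚ) = ∑ l, e l * (X l j : ℚ)) →
      ∀ i, (dz (a i) y : ℚ) = ∑ l, e l * (dz (a i) (X l) : ℚ) := fun y e he i => by
    simp only [dz]
    push_cast
    simp only [he, mul_sum]
    rw [sum_comm]
    exact sum_congr rfl fun l _ => sum_congr rfl fun k _ => by ring
  have hdet : (Matrix.of fun l i => (dz (a i) (X l) : ℚ)).det ≠ 0 := fun e => by
    obtain ⟨c, hc, e1⟩ := exists_mulVec_eq_zero_iff.2 e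
    obtain ⟨y, hy, e2⟩ := ha c hc
    obtain ⟨f, hf⟩ := h2 y hy
    refine e2 ?_
    simp only [key y f hf, mul_sum]
    rw [sum_comm]
    refine sum_eq_zero fun l _ => ?_
    have := congrFun e1 l
    simp only [mulVec, dotProduct, of_apply, Pi.zero_apply] at this
    rw [← mul_zero (f l), ← this, mul_sum]
    exact sum_congr rfl fun k _ => by ring
  choose e he using fun k => h2 (x k) (hx k)
  have hf : (fun l => ∑ k, d k * e k l) = 0 := by
    refine eq_zero_of_vecMul_eq_zero hdet (funext fun i => ?_)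
    simp only [vecMul, dotProduct, of_apply, Pi.zero_apply, sum_mul]
    rw [← hd i, sum_comm]
    refine sum_congr rfl fun k _ => ?_
    rw [key (x k) (e k) (he k), mul_sum]
    exact sum_congr rfl fun l _ => by ring
  simp only [he, mul_sum]
  rw [sum_comm]
  refine sum_eq_zero fun l _ => ?_
  have := congrFun hf l
  simp only [Pi.zero_apply] at this
  rw [← zero_mul (X l j : ℚ), ← this, sum_mul]
  exact sum_congr rfl fun k _ => by ring

/-- a box from a bound for the minors -/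
theorem box_of (hM : MinkS) (ρ : ℕ) : ∃ C : ℝ, 1 ≤ C ∧ ∀ (n : ℕ) (T : Finset (V n))
    (a : Fin ρ → V n) (W : ℝ),
    (∃ x : Fin ρ → V n, (∀ k, x k ∈ T) ∧ (Matrix.of fun k i => dz (a i) (x k)).det ≠ 0) →
    (∀ x : Fin ρ → V n, (∀ k, x k ∈ T) →
      |((Matrix.of fun k i => dz (a i) (x k)).det : ℝ)| ≤ W) → Box ρ (C * W) T := by
  obtain ⟨C, hC, hr⟩ := red hM ρ
  refine ⟨C, hC, fun n T a W ⟨X, hX, hG⟩ hW => ?_⟩
  set g : Matrix (Fin ρ) T ℤ := Matrix.of fun i y => dz (a i) y.1 with hg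
  obtain ⟨U, x, hU, hx, hq⟩ := hr T g ⟨fun k => ⟨X k, hX k⟩, fun e => hG (by
    rw [← det_transpose]; exact e)⟩
  have h2 := hW (fun i => (x i).1) (fun i => (x i).2)
  rw [← det_transpose] at h2
  have e2 : ∀ i (y : T), dz ((U * Matrix.of a) i) y.1 = (U * g) i y := fun i y => by
    simp only [dz, mul_apply, hg, of_apply, sum_mul, mul_sum, mul_assoc]
    exact sum_comm
  have hd : (U * g.submatrix id x).det ≠ 0 := by
    rw [det_mul]; exact mul_ne_zero hU.ne_zero hx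
  have b1 : ∀ i (y : T), |(U * g) i y| ≤ ⌊‖(U * g) i‖⌋₊ := fun i y => by
    have := norm_le_pi_norm ((U * g) i) y
    rw [Int.norm_eq_abs] at this
    rw [Int.abs_eq_natAbs]
    exact_mod_cast Nat.le_floor (by rwa [Nat.cast_natAbs, Int.cast_abs])
  refine ⟨U * Matrix.of a, fun i => ⌊‖(U * g) i‖⌋₊, fun i => ?_, fun y hy i => ?_, ?_, fun c hc => ?_⟩
  · by_contra hc
    refine hd (det_eq_zero_of_row_eq_zero i fun k => ?_)
    have := b1 i (x k)
    rw [show ⌊‖(U * g) i‖⌋₊ = 0 from Nat.lt_one_iff.1 (not_le.1 hc)] at this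
    exact abs_nonpos_iff.1 this
  · rw [e2 i ⟨y, hy⟩]; exact b1 i _
  · exact (prod_le_prod (fun _ _ => Nat.cast_nonneg _)
      fun i _ => Nat.floor_le (norm_nonneg _)).trans
      (hq.trans (mul_le_mul_of_nonneg_left h2 (zero_le_one.trans hC)))
  · by_contra hz
    refine hc (eq_zero_of_vecMul_eq_zero
      (M := (U * g.submatrix id x).map fun z : ℤ => (z : ℚ)) (by rw [cast_det]; exact_mod_cast hd) ?_)
    funext k
    have := not_not.1 (not_and.1 (not_exists.1 hz (x k).1) (x k).2)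
    simp only [e2] at this
    exact this

/-- the box inside a primitive hyperplane -/
theorem sub (hM : MinkS) (hB : BasisS) (n s : ℕ) : ∃ C : ℝ, 1 ≤ C ∧ ∀ (T T' : Finset (V n))
    (a : Fin (s + 1) → V n) (B : Fin (s + 1) → ℕ) (c w : V (s + 1)) (i0 : Fin (s + 1)) (W : ℝ),
    rk T = s + 1 → (∀ c : Fin (s + 1) → ℚ, c ≠ 0 → ∃ y ∈ T, ∑ i, c i * (dz (a i) y : ℚ) ≠ 0) →
    (∀ y ∈ T, ∀ i, |dz (a i) y| ≤ B i) → T' ⊆ T → rk T' = s → dz c w = 1 → c i0 ≠ 0 →
    1 ≤ B i0 → (∀ y ∈ T', ∑ i, c i * dz (a i) y = 0) →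
    ∏ i, (B i : ℝ) ≤ W * (((c i0).natAbs * B i0 : ℕ) : ℝ) → Box s (C * W) T' := by
  obtain ⟨C, hC, hr⟩ := box_of hM s
  obtain ⟨C', -, hb⟩ := hB n s
  have hf : (1 : ℝ) ≤ s.factorial := by exact_mod_cast s.factorial_pos
  refine ⟨C * s.factorial, one_le_mul_of_one_le_of_one_le hC hf,
    fun T T' a B c w i0 W hT ha hBd hs hT' hw h0 hB0 hc hW => ?_⟩
  obtain ⟨v, b, -, hv, -, -⟩ := hb T' hT'
  obtain ⟨X, hX, hG, -⟩ := tuple hT'
  set R : Matrix (Fin s) (Fin (s + 1)) ℤ := Matrix.of fun l i => dz (a i) (v l) with hR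
  have e1 : ∀ y ∈ T', ∀ i, dz (a i) y = ∑ l, dz (b l) y * R l i := fun y hy i => by
    conv_lhs => rw [dz]
    simp only [hv y hy, hR, of_apply, mul_sum]
    rw [sum_comm]
    refine sum_congr rfl fun l _ => ?_
    rw [show dz (a i) (v l) = ∑ j, a i j * v l j from rfl, mul_sum]
    exact sum_congr rfl fun k _ => by ring
  have e2 : ∀ x : Fin s → V n, (∀ k, x k ∈ T') →
      (Matrix.of fun k i => dz (a (i0.succAbove i)) (x k)).det
        = (Matrix.of fun k l => dz (b l) (x k)).det * (R.submatrix id i0.succAbove).det :=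
    fun x hx => by
      rw [← det_mul]
      congr 1
      ext k i
      exact e1 _ (hx k) _
  have n1 : (Matrix.of fun k i => dz (a (i0.succAbove i)) (X k)).det ≠ 0 := fun e => by
    obtain ⟨d, hd, e3⟩ := exists_vecMul_eq_zero_iff.2 e
    have z1 : ∀ i, ∑ k, d k * dz (a (i0.succAbove i)) (X k) = 0 := fun i => congrFun e3 i
    have z2 : ∑ k, d k * dz (a i0) (X k) = 0 := by
      have : ∑ i, c i * ∑ k, d k * dz (a i) (X k) = 0 := by
        simp only [mul_sum]
        rw [sum_comm]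
        refine sum_eq_zero fun k _ => ?_
        rw [← mul_zero (d k), ← hc _ (hX k), mul_sum]
        exact sum_congr rfl fun i _ => by ring
      rw [Fin.sum_univ_succAbove _ i0] at this
      simp only [z1, mul_zero, sum_const_zero, add_zero] at this
      exact (mul_eq_zero.1 this).resolve_left h0
    have z3 := inj hT a ha X (fun k => hs (hX k)) (fun k => d k) fun i => by
      refine i0.succAboveCases ?_ (fun i => ?_) i
      · exact_mod_cast z2
      · exact_mod_cast z1 i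
    refine hd (eq_zero_of_vecMul_eq_zero hG ?_)
    rw [← vecMul_vecMul, show d ᵥ* X = 0 from funext fun j => by exact_mod_cast z3 j, zero_vecMul]
  rw [e2 X hX] at n1
  have n2 : ∀ l, dz c (R l) = 0 := fun l => by
    refine congrFun (eq_zero_of_mulVec_eq_zero (left_ne_zero_of_mul n1)
      (v := fun l => dz c (R l)) (funext fun k => ?_)) l
    have := hc _ (hX k)
    simp only [e1 _ (hX k), mul_sum] at this
    simp only [mulVec, dotProduct, of_apply, Pi.zero_apply]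
    rw [← this, sum_comm]
    refine sum_congr rfl fun l _ => ?_
    rw [show dz c (R l) = ∑ j, c j * R l j from rfl, mul_sum]
    exact sum_congr rfl fun k _ => by ring
  have n3 : (|c i0| : ℝ) ≤ |((R.submatrix id i0.succAbove).det : ℝ)| := by
    have := Int.natAbs_le_of_dvd_ne_zero (minor_dvd R c w hw n2 i0) (right_ne_zero_of_mul n1)
    have h1 : |c i0| ≤ |(R.submatrix id i0.succAbove).det| := by
      rw [Int.abs_eq_natAbs, Int.abs_eq_natAbs]; exact_mod_cast this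
    exact_mod_cast h1
  rw [mul_assoc]
  refine hr n T' b _ ⟨X, hX, left_ne_zero_of_mul n1⟩ fun x hx => ?_
  have h1 := G2.det_rows
    ((Matrix.of fun k i => dz (a (i0.succAbove i)) (x k)).map fun z : ℤ => (z : ℝ))ᵀ
    (fun i => B (i0.succAbove i)) fun i k => by
      have := hBd _ (hs (hx k)) (i0.succAbove i)
      simp only [transpose_apply, map_apply, of_apply]
      exact_mod_cast this
  rw [det_transpose, cast_det, e2 x hx, Int.cast_mul, abs_mul] at h1
  rw [Fin.prod_univ_succAbove _ i0, Nat.cast_mul, Nat.cast_natAbs, Int.cast_abs] at hW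
  have p1 : (0 : ℝ) < |(c i0 : ℝ)| := abs_pos.2 (by exact_mod_cast h0)
  have p2 : (0 : ℝ) < B i0 := by exact_mod_cast hB0
  have h2 : ∏ i, (B (i0.succAbove i) : ℝ) ≤ W * |(c i0 : ℝ)| :=
    le_of_mul_le_mul_left (hW.trans (le_of_eq (by ring))) p2
  refine le_of_mul_le_mul_right ?_ p1
  have h3 := mul_le_mul_of_nonneg_left n3
    (abs_nonneg ((Matrix.of fun k l => dz (b l) (x k)).det : ℝ))
  have h4 := mul_le_mul_of_nonneg_left h2 (zero_le_one.trans hf)
  linarith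

theorem geo (p : ℕ) (hp : 2 ≤ p) (J : ℕ) : ∑ j ∈ range (J + 1), p ^ j ≤ 2 * p ^ J := by
  induction J with
  | zero => simp
  | succ J ih =>
    rw [sum_range_succ, pow_succ]
    nlinarith [Nat.zero_le (p ^ J)]

/-- the sum over the levels -/
theorem levels {ι : Type} (𝒞 : Finset ι) (sz : ι → ℕ) (t K N : ℕ) (ht : 1 ≤ t)
    (hN : ∀ c ∈ 𝒞, sz c ≤ N) (hK : ∀ a, (𝒞.filter fun c => sz c ≤ a).card ≤ K * a) :
    ∑ c ∈ 𝒞, (1 / 2 ^ Nat.log (2 ^ (t + 1)) (sz c) : ℝ) ≤
      4 * K * 2 ^ t * (2 ^ t) ^ Nat.log (2 ^ (t + 1)) N := by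
  have h2 : 2 ≤ 2 ^ t := by
    calc 2 = 2 ^ 1 := rfl
      _ ≤ 2 ^ t := Nat.pow_le_pow_right two_pos ht
  have hb : 1 < 2 ^ (t + 1) := by rw [pow_succ]; omega
  rw [← sum_fiberwise_of_maps_to (t := range (Nat.log (2 ^ (t + 1)) N + 1))
    (g := fun c => Nat.log (2 ^ (t + 1)) (sz c))
    fun c hc => mem_range.2 (Nat.lt_succ_of_le (Nat.log_mono_right (hN c hc)))]
  have h3 : ∀ j ∈ range (Nat.log (2 ^ (t + 1)) N + 1),
      ∑ c ∈ 𝒞 with Nat.log (2 ^ (t + 1)) (sz c) = j, (1 / 2 ^ Nat.log (2 ^ (t + 1)) (sz c) : ℝ)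
        ≤ 2 * K * 2 ^ t * ((2 ^ t) ^ j : ℕ) := fun j _ => by
    rw [sum_congr rfl (g := fun _ => (1 / 2 ^ j : ℝ)) fun c hc => by rw [(mem_filter.1 hc).2],
      sum_const, nsmul_eq_mul]
    have h4 : (𝒞.filter fun c => Nat.log (2 ^ (t + 1)) (sz c) = j).card
        ≤ K * (2 ^ (t + 1)) ^ (j + 1) := by
      refine le_trans (card_le_card fun c hc => ?_) (hK _)
      obtain ⟨c1, c2⟩ := mem_filter.1 hc
      exact mem_filter.2 ⟨c1, c2 ▸ (Nat.lt_pow_succ_log_self hb (sz c)).le⟩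
    rw [mul_one_div, div_le_iff₀ (by positivity)]
    refine (Nat.cast_le.2 h4).trans (le_of_eq ?_)
    push_cast
    ring
  refine (sum_le_sum h3).trans ?_
  rw [← mul_sum, ← Nat.cast_sum]
  have h5 : ((∑ j ∈ range (Nat.log (2 ^ (t + 1)) N + 1), (2 ^ t) ^ j : ℕ) : ℝ)
      ≤ 2 * (2 ^ t) ^ Nat.log (2 ^ (t + 1)) N := by exact_mod_cast geo _ h2 _
  refine (mul_le_mul_of_nonneg_left h5 (by positivity)).trans (le_of_eq (by ring))

theorem card_box {r : ℕ} (B : Fin r → ℕ) (a : ℕ) : (Fintype.piFinset fun i =>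
    Icc (-((a / B i : ℕ) : ℤ)) ((a / B i : ℕ) : ℤ)).card ≤ 2 ^ r * Nn B a := by
  rw [Fintype.card_piFinset]
  have h : ∏ i, (Icc (-((a / B i : ℕ) : ℤ)) ((a / B i : ℕ) : ℤ)).card ≤
      ∏ i : Fin r, (2 * (a / B i + 1)) := by
    refine Finset.prod_le_prod' fun i _ => ?_
    rw [Int.card_Icc]
    omega
  rw [Finset.prod_mul_distrib] at h
  simpa [Nn] using h

/-- the primitive cover -/
theorem cover (hs : 1 ≤ s) (B : Fin (s + 1) → ℕ) (A : ℝ) (hA : 1 ≤ A) (hB : ∀ i, 1 ≤ B i)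
    (hP : ∏ i, (B i : ℝ) ≤ A ^ s) : ∃ (𝒞 : Finset (V (s + 1))) (N : ℕ), 1 ≤ N ∧
    (N : ℝ) ≤ (4 * s + 6 : ℕ) * A ∧
    (∀ c ∈ 𝒞, (∃ w, dz c w = 1) ∧ univ.sup (fun i => (c i).natAbs * B i) ≤ N) ∧
    (∀ a, (𝒞.filter fun c => univ.sup (fun i => (c i).natAbs * B i) ≤ a).card ≤
      4 ^ (s + 1) * (2 * s + 3) * a) ∧
    ∀ u : V (s + 1), (∀ i, |u i| ≤ B i) → ∃ c ∈ 𝒞, dz c u = 0 := by
  classical
  have hex : ∃ a, 2 * (s + 1) * a + 1 < Nn B a := ⟨_, start hs B A hA hB hP⟩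
  have hsp := Nat.find_spec hex
  have hle : Nat.find hex ≤ (2 * s + 3) * ⌈A⌉₊ := Nat.find_min' hex (start hs B A hA hB hP)
  have hmin : ∀ a < Nat.find hex, Nn B a ≤ 2 * (s + 1) * a + 1 :=
    fun a ha => not_lt.1 (Nat.find_min hex ha)
  generalize Nat.find hex = N at hsp hle hmin
  have hN : 1 ≤ N := by
    rcases Nat.eq_zero_or_pos N with rfl | h
    · rw [Nn_zero] at hsp; omega
    · exact h
  have mem : ∀ (a : ℕ) (c : V (s + 1)), c ∈ (Fintype.piFinset fun i =>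
      Icc (-((a / B i : ℕ) : ℤ)) ((a / B i : ℕ) : ℤ)) ↔
      univ.sup (fun i => (c i).natAbs * B i) ≤ a := fun a c => by
    rw [Fintype.mem_piFinset, Finset.sup_le_iff]
    refine forall_congr' fun i => ?_
    rw [mem_Icc, ← abs_le, ← Nat.le_div_iff_mul_le (hB i), Int.abs_eq_natAbs, Nat.cast_le]
    simp
  have cnt : ∀ a, 1 ≤ a → a ≤ N → 2 ^ (s + 1) * Nn B a ≤ 4 ^ (s + 1) * (2 * s + 3) * a := by
    intro a h1 h2
    obtain ⟨a, rfl⟩ : ∃ b, a = b + 1 := ⟨a - 1, by omega⟩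
    calc 2 ^ (s + 1) * Nn B (a + 1) ≤ 2 ^ (s + 1) * (2 ^ (s + 1) * Nn B a) :=
          Nat.mul_le_mul_left _ (Nn_succ B a)
      _ = 4 ^ (s + 1) * Nn B a := by rw [← mul_assoc, ← mul_pow]; norm_num
      _ ≤ 4 ^ (s + 1) * ((2 * s + 3) * (a + 1)) :=
          Nat.mul_le_mul_left _ ((hmin a h2).trans (by nlinarith))
      _ = _ := by ring
  refine ⟨(Fintype.piFinset fun i => Icc (-((N / B i : ℕ) : ℤ)) ((N / B i : ℕ) : ℤ)).filter
    fun c => ∃ w, dz c w = 1, N, hN, ?_, fun c hc => ?_, fun a => ?_, fun u hu => ?_⟩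
  · have h4 : (⌈A⌉₊ : ℝ) ≤ 2 * A := by
      have := Nat.ceil_lt_add_one (zero_le_one.trans hA)
      linarith
    refine (Nat.cast_le.2 hle).trans ?_
    push_cast
    have : (0 : ℝ) ≤ s := Nat.cast_nonneg s
    nlinarith
  · exact ⟨(mem_filter.1 hc).2, (mem N c).1 (mem_filter.1 hc).1⟩
  · rcases Nat.eq_zero_or_pos a with rfl | h1
    · rw [mul_zero, Nat.le_zero, card_eq_zero, eq_empty_iff_forall_notMem]
      intro c hc
      obtain ⟨c1, c2⟩ := mem_filter.1 hc
      obtain ⟨w, hw⟩ := (mem_filter.1 c1).2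
      rw [dz, sum_eq_zero fun i _ => ?_] at hw
      · exact zero_ne_one hw
      · have := Finset.sup_le_iff.1 c2 i (mem_univ i)
        have h3 := hB i
        rw [Int.natAbs_eq_zero.1 ((Nat.mul_eq_zero.1 (Nat.le_zero.1 this)).resolve_right
          (by omega)), zero_mul]
    rcases le_total a N with h2 | h2
    · exact (card_le_card fun c hc => (mem a c).2 (mem_filter.1 hc).2).trans
        ((card_box B a).trans (cnt a h1 h2))
    · exact ((card_filter_le _ _).trans (card_filter_le _ _)).trans ((card_box B N).trans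
        ((cnt N hN le_rfl).trans (Nat.mul_le_mul_left _ h2)))
  · obtain ⟨c, c0, c1, c2⟩ := pigeon B N hsp u hu
    obtain ⟨c', w, g, hg, h1, h2⟩ := prim c c0
    refine ⟨c', mem_filter.2 ⟨Fintype.mem_piFinset.2 fun i => mem_Icc.2 (abs_le.1 ?_), w, h2⟩, ?_⟩
    · refine le_trans ?_ (c1 i)
      rw [h1 i, abs_mul]
      exact le_mul_of_one_le_left (abs_nonneg _) (Int.one_le_abs hg)
    · refine mul_left_cancel₀ hg ?_
      rw [mul_zero, ← c2, dz, mul_sum]
      exact sum_congr rfl fun i _ => by rw [h1 i, mul_assoc]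

end Vale.Agent.N018.H.Cv

namespace Vale.Agent.N018.H

open Finset Cv

theorem cover2S (hM : MinkS) (hB : BasisS) : Cover2S := fun n s hs => by
  classical
  obtain ⟨t, rfl⟩ : ∃ t, s = t + 1 := ⟨s - 1, by omega⟩
  obtain ⟨C, hC, hsub⟩ := sub hM hB n (t + 1)
  set K : ℕ := 4 ^ (t + 1 + 1) * (2 * (t + 1) + 3) with hK
  set L : ℝ := ((4 * (t + 1) + 6 : ℕ) : ℝ) with hL
  have hL1 : 1 ≤ L := by rw [hL]; exact_mod_cast (by omega)
  have hK1 : (1 : ℝ) ≤ K := by
    rw [hK]; exact_mod_cast Nat.succ_le_of_lt (by positivity)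
  have hCL : 1 ≤ C * L := one_le_mul_of_one_le_of_one_le hC hL1
  have hE : (0 : ℝ) ≤ (C * L * (4 * K * 2 ^ t)) ^ (t + 1) * L ^ t := by positivity
  have hKL := one_le_mul_of_one_le_of_one_le hK1 hL1
  refine ⟨K * L + (C * L * (4 * K * 2 ^ t)) ^ (t + 1) * L ^ t, by linarith,
    fun T A hA hT ⟨a, B, hB1, hBd, hP, ha⟩ => ?_⟩
  obtain ⟨𝒞, N, hN1, hN, h1, h2, h3⟩ := cover (by omega) B A hA hB1 hP
  set F : V (t + 1 + 1) → Fin n → ℚ := fun c j => ∑ i, (c i : ℚ) * a i j with hF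
  have eF : ∀ c y, dq (F c) y = ∑ i, (c i : ℚ) * (dz (a i) y : ℚ) := fun c y => by
    simp only [dq, hF, dz, sum_mul]
    push_cast
    simp only [mul_sum, mul_assoc]
    exact sum_comm
  have hinj : Function.Injective F := fun c c' e => by
    by_contra hne
    obtain ⟨y, -, hy⟩ := ha (fun i => (c i : ℚ) - c' i) fun e0 => hne (funext fun i => by
      exact_mod_cast sub_eq_zero.1 (congrFun e0 i))
    simp only [sub_mul, sum_sub_distrib, ← eF, e, sub_self] at hy
    exact hy rfl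
  set sz : V (t + 1 + 1) → ℕ := fun c => univ.sup fun i => (c i).natAbs * B i with hsz
  set q : V (t + 1 + 1) → ℝ := fun c => C * L * A / 2 ^ Nat.log (2 ^ (t + 1)) (sz c) with hq
  have c0 : ∀ c ∈ 𝒞, c ≠ 0 := fun c hc e => by
    obtain ⟨w, hw⟩ := (h1 c hc).1
    simp [e, dz] at hw
  have s0 : ∀ c ∈ 𝒞, sz c ≠ 0 := fun c hc e => c0 c hc (funext fun i => by
    have := Finset.sup_le_iff.1 (le_of_eq e) i (mem_univ i)
    have h3 := hB1 i
    exact Int.natAbs_eq_zero.1 ((Nat.mul_eq_zero.1 (Nat.le_zero.1 this)).resolve_right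
      (by omega)))
  have s1 : ∀ m : ℕ, m ≠ 0 → ((2 : ℝ) ^ Nat.log (2 ^ (t + 1)) m) ^ (t + 1) ≤ m := fun m hm => by
    rw [← pow_mul, mul_comm, pow_mul]
    exact_mod_cast Nat.pow_log_le_self (2 ^ (t + 1)) hm
  have hLA : L * A ≤ C * L * A := by
    rw [mul_assoc]; exact le_mul_of_one_le_left (by positivity) hC
  have q1 : ∀ c ∈ 𝒞, max 1 (Function.extend F q 0 (F c)) = q c := fun c hc => by
    rw [hinj.extend_apply]
    refine max_eq_right ((one_le_div (by positivity)).2 ?_)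
    refine (le_self_pow₀ (one_le_pow₀ one_le_two) (Nat.succ_ne_zero t)).trans
      ((s1 _ (s0 c hc)).trans ((Nat.cast_le.2 (h1 c hc).2).trans (hN.trans hLA)))
  refine ⟨𝒞.image F, fun h => max 1 (Function.extend F q 0 h), ?_, fun h hh => ?_, fun y hy => ?_,
    fun h => le_max_left _ _, ?_, fun h hh T' hs hz hT' => ?_⟩
  · have := h2 N
    rw [filter_true_of_mem fun c hc => (h1 c hc).2] at this
    refine (Nat.cast_le.2 (card_image_le.trans this)).trans ?_
    rw [Nat.cast_mul]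
    have h4 := mul_le_mul_of_nonneg_left hN (zero_le_one.trans hK1)
    have h5 := mul_nonneg hE (zero_le_one.trans hA)
    linarith
  · obtain ⟨c, hc, rfl⟩ := mem_image.1 hh
    simp only [eF]
    exact ha _ fun e => c0 c hc (funext fun i => Int.cast_eq_zero.1 (congrFun e i))
  · obtain ⟨c, hc, e⟩ := h3 (fun i => dz (a i) y) (hBd y hy)
    refine ⟨F c, mem_image_of_mem F hc, ?_⟩
    rw [eF]
    exact_mod_cast e
  · rw [sum_image fun c _ c' _ e => hinj e, sum_congr rfl q1]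
    have h4 := levels 𝒞 sz t K N (by omega) (fun c hc => (h1 c hc).2) h2
    have h5 : ∑ c ∈ 𝒞, q c ≤ C * L * (4 * K * 2 ^ t) * A * (2 ^ Nat.log (2 ^ (t + 1)) N) ^ t := by
      have := mul_le_mul_of_nonneg_left h4 (show 0 ≤ C * L * A by positivity)
      rw [mul_sum] at this
      simp only [mul_one_div] at this
      refine this.trans (le_of_eq ?_)
      rw [← pow_mul, ← pow_mul, mul_comm t]
      ring
    refine (pow_le_pow_left₀ (sum_nonneg fun c _ => by positivity) h5 _).trans ?_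
    have h6 : (((2 : ℝ) ^ Nat.log (2 ^ (t + 1)) N) ^ t) ^ (t + 1) ≤ (L * A) ^ t := by
      rw [← pow_mul, mul_comm t, pow_mul]
      exact pow_le_pow_left₀ (by positivity) ((s1 N (by omega)).trans hN) t
    rw [mul_pow, mul_pow, show 2 * (t + 1) - 1 = t + 1 + t by omega]
    refine (mul_le_mul_of_nonneg_left h6 (by positivity)).trans ?_
    have h7 : 0 ≤ K * L * A ^ (t + 1 + t) := by positivity
    rw [add_mul, mul_pow L A, pow_add A (t + 1) t]
    rw [pow_add A (t + 1) t] at h7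
    nlinarith
  · obtain ⟨c, hc, rfl⟩ := mem_image.1 hh
    obtain ⟨w, hw⟩ := (h1 c hc).1
    obtain ⟨i0, -, hi⟩ := exists_mem_eq_sup univ univ_nonempty fun i => (c i).natAbs * B i
    have p : (0 : ℝ) < sz c := by exact_mod_cast Nat.pos_of_ne_zero (s0 c hc)
    refine (hsub T T' a B c w i0 (A ^ (t + 1) / sz c) hT ha hBd hs hT' hw (fun e => s0 c hc ?_)
      (hB1 i0) (fun y hy => ?_) ?_).le ?_
    · simp only [hsz, hi, e, Int.natAbs_zero, zero_mul]
    · have := hz y hy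
      rw [eF] at this
      exact_mod_cast this
    · rw [← hi, div_mul_cancel₀ _ p.ne']
      exact hP
    · beta_reduce
      rw [q1 c hc, hq, div_pow, ← mul_div_assoc, mul_pow]
      refine div_le_div₀ (by positivity) (mul_le_mul_of_nonneg_right ?_ (by positivity))
        (by positivity) (s1 _ (s0 c hc))
      exact (le_mul_of_one_le_right (by positivity) hL1).trans
        (le_self_pow₀ hCL (Nat.succ_ne_zero t))

end Vale.Agent.N018.H
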