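import Vale.Agent.N018.H.Def2

/-! # P018, pairs (9,4), (12,5): statements of the packages for general `(d, k)`. -/

namespace Vale.Agent.N018.H

open Finset Polynomial NumberField Vale.Agent.P018 Vale.Agent.P018.K

/-! ### elementary packages -/

/-- A1 with weights: slicing by hyperplanes -/
def Slice2S : Prop := ∀ (n D m : ℕ) (N1 : (Fin n → ℚ) → ℝ) (N2 : ℝ), (∀ h, 0 ≤ N1 h) → 0 ≤ N2 →
  ∀ (𝒜 : Finset (Fin n → ℚ)) (j M : ℕ) (S : Finset (V n)), (∀ y ∈ S, y ≠ 0) →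
    M < (j + 1) * (m + 1) → Thin (D + j) M S → (∀ y ∈ S, ∃ h ∈ 𝒜, dq h y = 0) →
    (∀ h ∈ 𝒜, ∀ T ⊆ S, (∀ y ∈ T, dq h y = 0) →
      (Thin D m T → (T.card : ℝ) ≤ N1 h) ∧ (T.card : ℝ) ≤ N2) →
    (S.card : ℝ) ≤ ∑ h ∈ 𝒜, N1 h + j * N2

/-- D2: covering by hyperplanes, with the boxes inside the hyperplanes -/
def Cover2S : Prop := ∀ n s : ℕ, 2 ≤ s → ∃ C : ℝ, 1 ≤ C ∧ ∀ (T : Finset (V n)) (A : ℝ), 1 ≤ A →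
  rk T = s + 1 → Box (s + 1) (A ^ s) T →
  ∃ (𝒜 : Finset (Fin n → ℚ)) (q : (Fin n → ℚ) → ℝ), (𝒜.card : ℝ) ≤ C * A ∧
    (∀ h ∈ 𝒜, ∃ y ∈ T, dq h y ≠ 0) ∧ (∀ y ∈ T, ∃ h ∈ 𝒜, dq h y = 0) ∧ (∀ h, 1 ≤ q h) ∧
    (∑ h ∈ 𝒜, q h) ^ s ≤ C * A ^ (2 * s - 1) ∧
    ∀ h ∈ 𝒜, ∀ T' ⊆ T, (∀ y ∈ T', dq h y = 0) → rk T' = s → Box s (q h ^ s) T'

/-- F2: the sharper count of points on surfaces -/
def End2S : Prop := ∀ n m : ℕ, ∃ C : ℝ, 1 ≤ C ∧ ∀ (S : Finset (V n)) (NL Z : ℝ) (A Q : ℕ → ℝ)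
  (M : ℕ), NP S → 1 ≤ NL → NL ≤ Z → Monotone Q → (∀ ρ, 0 ≤ Q ρ) → (∀ ρ, 3 ≤ ρ → 1 ≤ Q ρ) →
  (∀ ρ, 1 ≤ A ρ) → (∀ T ⊆ S, rk T ≤ 2 → (T.card : ℝ) ≤ NL) →
  (∀ T ⊆ S, 3 ≤ rk T → Box (rk T) (min (A (rk T) ^ (rk T - 1)) (Q (rk T) ^ rk T)) T) →
  (∀ ρ, 3 ≤ ρ → ρ ≤ rk S → A ρ * (NL + Q (ρ - 2)) ≤ Z) →
  (∀ ρ, 4 ≤ ρ → ρ ≤ rk S → A ρ ^ (2 * ρ - 3) ≤ Z ^ (ρ - 1)) →
  M < (2 * m + 1) * (m + 1) ^ 2 → Thin (4 * m) M S → (S.card : ℝ) ≤ C * Z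

/-- `∑_{i ∈ I} w i * l i * ∏_{j ∈ I, j ≠ i} (X - p j) ^ k` -/
noncomputable def numG {L : Type} [Field L] {d : ℕ} (k : ℕ) (p w : Fin d → L)
    (I : Finset (Fin d)) (l : Fin d → L[X]) : L[X] :=
  ∑ i ∈ I, C (w i) * l i * ∏ j ∈ I.erase i, (X - C (p j)) ^ k

/-- the fractions attached to the sets of `m` conjugates are not all equal -/
def AlgP (d k m : ℕ) : Prop := ∀ (L : Type) [Field L] [CharZero L] (p θ : Fin d → L),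
  Function.Injective p → Function.Injective θ → ∀ l : Finset (Fin d) → Fin d → L[X],
  (∀ I : Finset (Fin d), I.card = m → (∀ i, (l I i).natDegree ≤ 1) ∧ ∃ i ∈ I, l I i ≠ 0) →
  ∃ I I' : Finset (Fin d), I.card = m ∧ I'.card = m ∧
    numG k p (fun _ => 1) I (l I) * numG k p θ I' (l I') ≠
      numG k p θ I (l I) * numG k p (fun _ => 1) I' (l I')

/-- G2 -/
def AlgG : Prop := ∀ d k m : ℕ, 2 ≤ k → 1 ≤ m → 2 * m ≤ d →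
  m * (2 * k - 4 + d) < d * (2 * k - 2) → AlgP d k m

/-! ### arithmetic packages -/

/-- the conditions on the points: `y` gives `π i = ell (θ i) y` with
`c ^ k (n - θ i) = π i ^ k γ i`, `n = nn y`. -/
structure DatG (L : Type) [Field L] [NumberField L] {d : ℕ} (k : ℕ) (θ : Fin d → 𝓞 L)
    (A0 X R : ℝ) (c : ℤ) (nn : V d → ℤ) (j0 : Fin d) (S : Finset (V d)) : Prop where
  hn : ∀ y ∈ S, |(nn y : ℝ)| ≤ A0 * X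
  hy : ∀ y ∈ S, (y j0 : ℝ) ≤ 2 * R
  ch : Chart j0 S
  hN : ∀ y ∈ S, ∃ N : ℤ, ∏ i, ell (θ i) y = (N : 𝓞 L) ∧ R ^ d ≤ |(N : ℝ)|
  hγ : ∀ y ∈ S, ∃ γ : Fin d → 𝓞 L, ∀ i,
    (c : 𝓞 L) ^ k * ((nn y : 𝓞 L) - θ i) = ell (θ i) y ^ k * γ i
  mult : ∀ m : ℤ, (S.filter fun y => nn y = m).card ≤ d
  npi : ∀ y ∈ S, ∀ y' ∈ S, y ≠ y' → ∀ i j, i ≠ j →
    ell (θ i) y * ell (θ j) y' ≠ ell (θ j) y * ell (θ i) y'

theorem DatG.mono {L : Type} [Field L] [NumberField L] {d k : ℕ} {θ : Fin d → 𝓞 L} {A0 X R : ℝ}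
    {c : ℤ} {nn : V d → ℤ} {j0 : Fin d} {S S' : Finset (V d)} (h : DatG L k θ A0 X R c nn j0 S)
    (hS : S' ⊆ S) : DatG L k θ A0 X R c nn j0 S' :=
  ⟨fun y hy => h.hn y (hS hy), fun y hy => h.hy y (hS hy), h.ch.mono hS,
    fun y hy => h.hN y (hS hy), fun y hy => h.hγ y (hS hy),
    fun m => (Finset.card_le_card (Finset.filter_subset_filter _ hS)).trans (h.mult m),
    fun y hy y' hy' => h.npi y (hS hy) y' (hS hy')⟩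

theorem DatG.np {L : Type} [Field L] [NumberField L] {d k : ℕ} {θ : Fin d → 𝓞 L} {A0 X R : ℝ}
    {c : ℤ} {nn : V d → ℤ} {j0 : Fin d} {S : Finset (V d)} (h : DatG L k θ A0 X R c nn j0 S)
    (hd : 2 ≤ d) : NP S := by
  refine ⟨fun y hy h0 => ?_, fun y hy y' hy' hne => ?_⟩
  · have h1 := (h.ch y hy).1
    rw [h0] at h1
    exact lt_irrefl _ h1
  · by_contra hcon
    push Not at hcon
    refine h.npi y hy y' hy' hne ⟨0, by omega⟩ ⟨1, by omega⟩ (by simp) ?_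
    unfold ell
    rw [Finset.sum_mul_sum, Finset.sum_mul_sum, Finset.sum_comm]
    refine Finset.sum_congr rfl fun i _ => Finset.sum_congr rfl fun j _ => ?_
    have h1 : ((y j : ℤ) : 𝓞 L) * (y' i : 𝓞 L) = (y i : 𝓞 L) * (y' j : 𝓞 L) := by
      exact_mod_cast congrArg (fun z : ℤ => (z : 𝓞 L)) (hcon j i)
    linear_combination (θ ⟨0, by omega⟩ ^ (j : ℕ) * θ ⟨1, by omega⟩ ^ (i : ℕ)) * h1

/-- the criterion for homogeneous functions of `s + 1` conjugates: `R ≥ X ^ w`, aperture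
`X ^ (-b)`. -/
def CritG (k s : ℕ) (w b : ℝ) : Prop :=
  ∃ (T K : ℕ) (Λ Vv : ℝ) (B : Finset (ℕ × (Fin (s + 1) → ℤ))),
    (∀ p ∈ B, p.1 ≤ T ∧ needs k p.2 ≤ p.1 ∧ ∑ i, p.2 i = -(K : ℤ)) ∧
    (∀ T' : Finset (ℕ × (Fin s → ℕ)), (∀ τ ∈ T', τ.1 ≤ T) →
      ∑ τ ∈ T', ((τ.1 : ℝ) - Λ - b * ∑ i, (τ.2 i : ℝ)) ≤ Vv) ∧
    Vv < B.card * (w * K - Λ)

/-- I2: narrow sets of points are thin -/
def RelG : Prop := ∀ (d k : ℕ), 1 ≤ k → ∀ (L : Type) [Field L] [NumberField L]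
  (θ : Fin d → 𝓞 L), Function.Injective θ → ∀ (A0 : ℝ) (Cs s : ℕ) (w b : ℝ), 1 ≤ A0 → 1 ≤ s →
  s + 1 ≤ d → 0 ≤ b → CritG k s w b → ∃ (C0 : ℕ) (X1 : ℝ), ∀ (X R η : ℝ) (c : ℤ) (nn : V d → ℤ)
    (j0 : Fin d) (S : Finset (V d)), X1 ≤ X → 1 ≤ X → X ^ w ≤ R → 1 ≤ R → 0 < η →
    η ≤ X ^ (-b) → c ≠ 0 → |c| ≤ Cs → DatG L k θ A0 X R c nn j0 S → Nar j0 η S →
    ∀ D, Thin D (C0 * (D + 1) ^ s) S

/-- H1 for `2 m` functions `γ i * u j` -/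
def LineDetG : Prop := ∀ (d k m : ℕ), 1 ≤ k → ∀ (L : Type) [Field L] [NumberField L]
  (θ : Fin d → 𝓞 L) (A0 : ℝ) (Cs : ℕ) (C1 : ℝ), 1 ≤ A0 → 1 ≤ C1 → ∃ K : ℝ, 0 < K ∧
  ∀ (X R η H : ℝ) (c : ℤ) (nn : V d → ℤ) (j0 : Fin d) (T : Finset (V d)) (v : Fin 2 → V d)
    (u : Fin 2 → V d → ℤ) (J : Fin 2 → Fin d) (γ : V d → Fin d → 𝓞 L), 1 ≤ X → 1 ≤ R → 0 < η →
    η ≤ 1 → 0 < H →
    (∀ a ≤ 2 * m, K * (X ^ (2 * m - a) * η ^ ((2 * m - a).choose 2 + a.choose 2)) <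
      R ^ (2 * m * (k - 1)) * H ^ m) → |c| ≤ Cs →
    DatG L k θ A0 X R c nn j0 T → Nar j0 η T → (∀ y ∈ T, ∀ j, y j = ∑ i, u i y * v i j) →
    (Matrix.of fun i l => v i (J l)).det ≠ 0 →
    ∏ i, ‖v i‖ ≤ C1 * |(((Matrix.of fun i l => v i (J l)).det : ℤ) : ℝ)| → H ≤ ∏ i, ‖v i‖ →
    (∀ y ∈ T, ∀ i, (c : 𝓞 L) ^ k * ((nn y : 𝓞 L) - θ i) = ell (θ i) y ^ k * γ y i) →
    1 ≤ m → ∀ (I : Fin m → Fin d) (φ : Fin m × Fin 2 → V d), (∀ q, φ q ∈ T) →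
      (Matrix.of fun (q f : Fin m × Fin 2) =>
        γ (φ q) (I f.1) * ((u f.2 (φ q) : ℤ) : 𝓞 L)).det = 0

/-- H2: the number of points on a short piece of a line -/
def LineG : Prop := ∀ (d k m : ℕ), 2 ≤ k → 1 ≤ m → 2 ≤ d → AlgP d k m →
  ∀ (L : Type) [Field L] [NumberField L] (θ : Fin d → 𝓞 L), Function.Injective θ →
  ∀ (A0 : ℝ) (Cs : ℕ), 1 ≤ A0 → ∃ K : ℝ, 0 < K ∧ ∀ (X R η H : ℝ) (c : ℤ)
    (nn : V d → ℤ) (j0 : Fin d) (T : Finset (V d)), 1 ≤ X → 1 ≤ R → 0 < η → η ≤ 1 → 0 < H →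
    (∀ a ≤ 2 * m, K * (X ^ (2 * m - a) * η ^ ((2 * m - a).choose 2 + a.choose 2)) <
      R ^ (2 * m * (k - 1)) * H ^ m) → c ≠ 0 → |c| ≤ Cs →
    DatG L k θ A0 X R c nn j0 T → Nar j0 η T → rk T ≤ 2 → NS 2 H T → T.card ≤ 2 * k * m + 4

/-- lower bound for the number of functions -/
def NlowG (k s D Tn : ℕ) : ℚ :=
  (((Tn - D - (s + 1) : ℕ) : ℚ) + 1) * ((k * D - s : ℕ) : ℚ) ^ s / s.factorial +
    ((List.range s).map fun j => ((List.range (j + 1)).map fun i =>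
      (((s + 1).choose (j + 1) * j.choose i * (k * D) ^ (j - i) * k ^ (i + (s - 1 - j) + 1) *
        (Tn - D - (s + 1)) ^ (i + (s - 1 - j) + 2) : ℕ) : ℚ) /
      ((j.factorial * (s - 1 - j).factorial * (i + (s - 1 - j) + 1) *
        (i + (s - 1 - j) + 2) : ℕ) : ℚ)).sum).sum

/-- the numerical check of the criterion -/
def critOKG (k s : ℕ) (κ0 β : ℚ) (D Tn : ℕ) (Λ : ℚ) : Bool :=
  decide (0 < β) && decide (D + (s + 1) ≤ Tn) && decide (s + 1 ≤ k * D) && decide (Λ ≤ Tn) &&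
    decide (Λ < κ0 * D) &&
    decide (((Tn : ℚ) - Λ + s * (β / k) + 1) ^ (s + 2) <
      (s + 2).factorial * (β / k) ^ s * NlowG k s D Tn * (κ0 * D - Λ))

/-- J2: the criterion from the check -/
def FamG : Prop := ∀ (k s : ℕ) (κ0 β : ℚ) (D Tn : ℕ) (Λ : ℚ), 1 ≤ k → 1 ≤ s →
  critOKG k s κ0 β D Tn Λ = true → CritG k s ((κ0 : ℝ) / k) ((β : ℝ) / k)

/-- X: the points attached to the pairs -/
def ExtractG : Prop := ∀ (f : ℤ[X]) (d k : ℕ), Irreducible (f.map (Int.castRingHom ℚ)) →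
  f.natDegree = d → 2 ≤ d → 1 ≤ k →
  ∃ (L : Type) (_ : Field L) (_ : NumberField L) (θ : Fin d → 𝓞 L)
    (A0 : ℝ) (Cs D X1 : ℕ), Function.Injective θ ∧ 1 ≤ A0 ∧ ∀ (X P : ℕ) (R M : ℝ), X1 ≤ X →
    X ≤ P → 0 ≤ R → R ^ d = P → 0 ≤ M →
    (∀ (c : ℤ) (nn : V d → ℤ) (j0 : Fin d) (S : Finset (V d)), c ≠ 0 → |c| ≤ Cs →
      DatG L k θ A0 X R c nn j0 S → (S.card : ℝ) ≤ M) → ((pairs f k X P).card : ℝ) ≤ D * M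

/-- Y: the exponents which the affine staircase treats -/
def AffG : Prop :=
  (∀ a : ℝ, 1 ≤ a → a ≤ 9 / 4 → a / 9 * 4 ≤ 0.565 ∨ 0.775 ≤ a / 9 * 4 → K2.Adm2 9 4 a) ∧
  (∀ a : ℝ, 1 ≤ a → a ≤ 12 / 5 → a / 12 * 5 ≤ 0.59 ∨ 0.685 ≤ a / 12 * 5 → K2.Adm2 12 5 a)

end Vale.Agent.N018.H
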