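import Vale.Agent.N018.H.End
import Vale.Agent.N018.H.Def3

/-! # P018, pairs (9,4), (12,5): the sharper count of points on surface-like sets. -/

namespace Vale.Agent.N018.H

open Finset A

theorem slice2S : Slice2S := by
  intro n D m N1 N2 hN1 hN2 𝒜
  classical
  induction 𝒜 using Finset.induction_on with
  | empty =>
    intro j M S _ _ _ hcov _
    have : S = ∅ := by
      rw [Finset.eq_empty_iff_forall_notMem]
      intro y hy
      obtain ⟨h, hh, -⟩ := hcov y hy
      exact absurd hh (Finset.notMem_empty h)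
    subst this
    simp only [card_empty, Nat.cast_zero, sum_empty, zero_add]
    positivity
  | insert h 𝒜 hh ih =>
    intro j M S h0 hM hT hcov hN
    set S0 := S.filter fun y => dq h y = 0 with hS0
    set S1 := S.filter fun y => ¬ dq h y = 0 with hS1
    have hcard : (S.card : ℝ) = S0.card + S1.card := by
      exact_mod_cast (Finset.card_filter_add_card_filter_not (s := S) (fun y => dq h y = 0)).symm
    have s0 : S0 ⊆ S := filter_subset _ _
    have s1 : S1 ⊆ S := filter_subset _ _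
    have z0 : ∀ y ∈ S0, dq h y = 0 := fun y hy => (mem_filter.1 hy).2
    have z1 : ∀ y ∈ S1, dq h y ≠ 0 := fun y hy => (mem_filter.1 hy).2
    have hcov1 : ∀ y ∈ S1, ∃ h' ∈ 𝒜, dq h' y = 0 := by
      intro y hy
      obtain ⟨h', hh', e⟩ := hcov y (s1 hy)
      rcases mem_insert.1 hh' with rfl | hh'
      · exact absurd e (z1 y hy)
      · exact ⟨h', hh', e⟩
    have hN1' : ∀ h' ∈ 𝒜, ∀ T ⊆ S1, (∀ y ∈ T, dq h' y = 0) →
        (Thin D m T → (T.card : ℝ) ≤ N1 h') ∧ (T.card : ℝ) ≤ N2 :=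
      fun h' hh' T hT' e => hN h' (mem_insert_of_mem hh') T (hT'.trans s1) e
    have hS0' := hN h (mem_insert_self _ _) S0 s0 z0
    rw [sum_insert hh, hcard]
    by_cases hth : Thin D m S0
    · have := ih j M S1 (fun y hy => h0 y (s1 hy)) hM (hT.mono s1) hcov1 hN1'
      have := hS0'.1 hth
      linarith
    · unfold Thin at hth
      push Not at hth
      obtain ⟨T0, hT0, hsep, hc0⟩ := hth
      have n0 : ∀ y ∈ T0, y ≠ 0 := fun y hy => h0 y (s0 (hT0 hy))
      have c1 : T0.card ≤ M := hT T0 (hT0.trans s0) (pad hsep n0 (Nat.le_add_right _ _))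
      obtain ⟨j', rfl⟩ : ∃ j', j = j' + 1 := by
        rcases j with _ | j'
        · omega
        · exact ⟨j', rfl⟩
      have hth1 : Thin (D + j') (M - (m + 1)) S1 := by
        intro T1 hT1 hsep1
        have hu : Sep (D + j' + 1) (T0 ∪ T1) :=
          A.union (fun y hy => z0 y (hT0 hy)) (fun y hy => z1 y (hT1 hy))
            (pad hsep n0 (by omega)) hsep1
        have hc := hT (T0 ∪ T1) (union_subset (hT0.trans s0) (hT1.trans s1)) hu
        have hd : Disjoint T0 T1 := by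
          rw [Finset.disjoint_left]
          intro y hy0 hy1
          exact z1 y (hT1 hy1) (z0 y (hT0 hy0))
        rw [card_union_of_disjoint hd] at hc
        omega
      have hM' : M - (m + 1) < (j' + 1) * (m + 1) := by
        have : (j' + 1 + 1) * (m + 1) = (j' + 1) * (m + 1) + (m + 1) := by ring
        omega
      have := ih j' (M - (m + 1)) S1 (fun y hy => h0 y (s1 hy)) hM' hth1 hcov1 hN1'
      have := hS0'.2
      push_cast
      linarith [hN1 h]

namespace F2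

variable {n : ℕ}

/-- one step on a curve-like set in a given box -/
theorem step (h6 : JarnikS) (m : ℕ) : ∃ C : ℝ, 1 ≤ C ∧ ∀ (n r : ℕ) (T : Finset (V n)) (q N : ℝ),
    NP T → 1 ≤ q → 0 ≤ N → Box (r + 3) (q ^ (r + 3)) T → Thin (m + m) ((m + 1) ^ 2 - 1) T →
    (∀ T' ⊆ T, rk T' < rk T → (T'.card : ℝ) ≤ N) → (T.card : ℝ) ≤ C * q * m + m * N := by
  classical
  obtain ⟨CJ, hCJ, hJ⟩ := h6 (m + m)
  refine ⟨CJ, hCJ, ?_⟩
  rintro n r T q N hNP hq hN ⟨a, B, b1, b2, b3, b4⟩ hth hlow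
  have hm : (0 : ℝ) ≤ m := Nat.cast_nonneg m
  obtain ⟨e, he, hp⟩ := F.three q hq r (fun i => (B i : ℝ)) (fun i => by exact_mod_cast b1 i) b3
  obtain ⟨G, g0, g1, g2⟩ := F.curve kerS m T (fun k => a (e k)) hth
  obtain ⟨𝒞, c0, c1, c2⟩ := hJ (fun k => B (e k)) q
    (T.image fun y k => dz (a (e k)) y) G hq (fun k => b1 _) hp
    (fun u hu k => by
      obtain ⟨y, hy, rfl⟩ := mem_image.1 hu
      exact b2 y hy _) g0 g1
    (fun u hu => by
      obtain ⟨y, hy, rfl⟩ := mem_image.1 hu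
      exact g2 y hy)
  obtain ⟨𝒜, a1, a2, a3⟩ := F.forms a e he b4 𝒞 c0
    (fun y hy => c2 _ (mem_image_of_mem (fun y k => dz (a (e k)) y) hy))
  have hsl := sliceS n m m m N hm hN 𝒜 m ((m + 1) ^ 2 - 1) T hNP.1
    (by
      have : 0 < (m + 1) ^ 2 := by positivity
      rw [← sq]
      omega) hth a2
    (fun h hh T' hT' hz => ⟨fun ht => by exact_mod_cast npS n m T' (hNP.mono hT') ht,
      hlow T' hT' ((rkS n).1 T T' h hT' hz (a3 h hh))⟩)
  have a1' : (𝒜.card : ℝ) ≤ CJ * q := le_trans (by exact_mod_cast a1) c1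
  linarith [mul_le_mul_of_nonneg_right a1' hm]

/-- points on surface-like sets -/
theorem sur (h5 : Cover2S) (h6 : JarnikS) (n m r : ℕ) : ∃ C : ℝ, 1 ≤ C ∧
    ∀ (S : Finset (V n)) (NL Z : ℝ) (A Q : ℕ → ℝ)
    (M : ℕ), NP S → 1 ≤ NL → NL ≤ Z → Monotone Q → (∀ ρ, 0 ≤ Q ρ) → (∀ ρ, 3 ≤ ρ → 1 ≤ Q ρ) →
    (∀ ρ, 1 ≤ A ρ) → (∀ T ⊆ S, rk T ≤ 2 → (T.card : ℝ) ≤ NL) →
    (∀ T ⊆ S, 3 ≤ rk T → Box (rk T) (min (A (rk T) ^ (rk T - 1)) (Q (rk T) ^ rk T)) T) →
    (∀ ρ, 3 ≤ ρ → ρ ≤ rk S → A ρ * (NL + Q (ρ - 2)) ≤ Z) →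
    (∀ ρ, 4 ≤ ρ → ρ ≤ rk S → A ρ ^ (2 * ρ - 3) ≤ Z ^ (ρ - 1)) →
    M < (2 * m + 1) * (m + 1) ^ 2 → Thin (4 * m) M S →
    ∀ T ⊆ S, rk T ≤ r + 2 → (T.card : ℝ) ≤ C * Z := by
  classical
  induction r with
  | zero =>
    refine ⟨1, le_rfl, fun S NL Z A Q M _ _ hZ _ _ _ _ hL _ _ _ _ _ T hT hr => ?_⟩
    have := hL T hT (by omega)
    linarith
  | succ r ih =>
    obtain ⟨C, hC, ih⟩ := ih
    obtain ⟨Cc, hCc, hc⟩ := F.cur sliceS npS kerS rkS h6 n m (r + 1)
    obtain ⟨CS, hCS, hS⟩ := h5 n (r + 2) (by omega)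
    obtain ⟨CJ, hCJ, hJ⟩ := step h6 m
    have hm : (0 : ℝ) ≤ m := Nat.cast_nonneg m
    have e0 : 0 ≤ (m + 1) * Cc := mul_nonneg (by linarith) (by linarith)
    have e1 : 0 ≤ CS * ((m + 1) * Cc) := mul_nonneg (by linarith) e0
    have e2 : 0 ≤ (m + m) * C := mul_nonneg (by linarith) (by linarith)
    have e3 : 0 ≤ CJ * m := mul_nonneg (by linarith) hm
    have e3' : 0 ≤ CJ * m * CS := mul_nonneg e3 (by linarith)
    refine ⟨C + CS * ((m + 1) * Cc) + CJ * m * CS + (m + m) * C, by linarith, ?_⟩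
    intro S NL Z A Q M hNP hNL hZ hQm hQ0 hQ1 hA hL hB hAZ hAZ' hM hth T hT hr
    have e4 : 0 ≤ Z := by linarith
    have f1 := mul_nonneg e1 e4
    have f2 := mul_nonneg e2 e4
    have f3 := mul_nonneg e3' e4
    have f4 := mul_nonneg (zero_le_one.trans hC) e4
    by_cases hle : rk T ≤ r + 2
    · have := ih S NL Z A Q M hNP hNL hZ hQm hQ0 hQ1 hA hL hB hAZ hAZ' hM hth T hT hle
      linarith
    have hrk : rk T = r + 2 + 1 := by omega
    have hb := (hB T hT (by omega)).le (min_le_left _ _)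
    rw [hrk, Nat.add_sub_cancel] at hb
    obtain ⟨𝒜, q, a1, a3, a2, q1, q2, q3⟩ := hS T (A (r + 2 + 1)) (hA _) hrk hb
    have q0 := hQ0 (r + 1)
    have n0 : 0 ≤ NL + Q (r + 1) := by linarith
    have n1 : 0 ≤ Cc * (NL + Q (r + 1)) := mul_nonneg (by linarith) n0
    have hth' : Thin (m + m + (m + m)) M T := by
      have e : m + m + (m + m) = 4 * m := by ring
      rw [e]
      exact hth.mono hT
    set q' : (Fin n → ℚ) → ℝ := fun h => if r = 0 then 0 else q h with hq'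
    have p0 : ∀ h, 0 ≤ q' h := fun h => by
      simp only [hq']
      split_ifs
      · exact le_rfl
      · linarith [q1 h]
    have p1 : ∑ h ∈ 𝒜, q' h ≤ CS * Z := by
      by_cases h0 : r = 0
      · simp only [hq', if_pos h0, sum_const_zero]
        exact mul_nonneg (by linarith) e4
      · simp only [hq', if_neg h0]
        have t1 := hAZ' (r + 2 + 1) (by omega) (hrk ▸ rk_mono hT)
        rw [Nat.add_sub_cancel, show 2 * (r + 2 + 1) - 3 = 2 * (r + 2) - 1 by omega] at t1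
        have t2 : CS ≤ CS ^ (r + 2) := le_self_pow₀ hCS (by omega)
        refine le_of_pow_le_pow_left₀ (n := r + 2) (by omega) (mul_nonneg (by linarith) e4)
          (q2.trans ?_)
        rw [mul_pow]
        exact mul_le_mul t2 t1 (pow_nonneg (zero_le_one.trans (hA _)) _) (by positivity)
    have cur' : ∀ T' ⊆ T, rk T' ≤ r + 1 → Thin (m + m) ((m + 1) ^ 2 - 1) T' →
        (T'.card : ℝ) ≤ Cc * (NL + Q (r + 1)) := fun T' hT' hr' ht =>
      hc S NL Q hNP hNL hQm hQ0 hQ1 hL (fun T hT h3 => (hB T hT h3).le (min_le_right _ _)) T'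
        (hT'.trans hT) hr' ht
    have hsl := slice2S n (m + m) ((m + 1) ^ 2 - 1)
      (fun h => (m + 1) * Cc * (NL + Q (r + 1)) + CJ * m * q' h) (C * Z)
      (fun h => add_nonneg (mul_nonneg e0 n0) (mul_nonneg e3 (p0 h))) f4 𝒜 (m + m) M T
      (hNP.mono hT).1
      (by
        have : 0 < (m + 1) ^ 2 := by positivity
        rw [Nat.sub_add_cancel this, ← two_mul]
        exact hM) hth' a2
      (fun h hh T' hT' hz => by
        have hr' : rk T' ≤ r + 2 := by
          have := (rkS n).1 T T' h hT' hz (a3 h hh)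
          omega
        refine ⟨fun ht => ?_,
          ih S NL Z A Q M hNP hNL hZ hQm hQ0 hQ1 hA hL hB hAZ hAZ' hM hth T' (hT'.trans hT) hr'⟩
        have g1 := mul_nonneg e3 (p0 h)
        have g2 := mul_nonneg hm n1
        by_cases hl : rk T' ≤ r + 1
        · have := cur' T' hT' hl ht
          linarith
        rcases r with _ | r
        · have t1 := hL T' (hT'.trans hT) hr'
          have t2 := mul_le_mul_of_nonneg_right hCc n0
          linarith
        · have t1 := hJ n r T' (q h) _ (hNP.mono (hT'.trans hT)) (q1 h) n1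
            (q3 h hh T' hT' hz (by omega)) ht
            (fun T'' h1 h2 => cur' T'' (h1.trans hT') (by omega) (ht.mono h1))
          have t2 : q' h = q h := if_neg (Nat.succ_ne_zero r)
          rw [t2]
          linarith)
    have hz := hAZ (r + 2 + 1) (by omega) (hrk ▸ rk_mono hT)
    rw [show r + 2 + 1 - 2 = r + 1 by omega] at hz
    rw [sum_add_distrib, sum_const, nsmul_eq_mul, ← mul_sum] at hsl
    have t1 := mul_le_mul_of_nonneg_right a1 (mul_nonneg e0 n0)
    have t2 := mul_le_mul_of_nonneg_left hz e1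
    have t3 := mul_le_mul_of_nonneg_left p1 e3
    push_cast at hsl
    linarith

end F2

theorem end2S (h5 : Cover2S) (h6 : JarnikS) : End2S := by
  intro n m
  obtain ⟨C, hC, h⟩ := F2.sur h5 h6 n m n
  exact ⟨C, hC, fun S NL Z A Q M a1 a2 a3 a4 a5 a6 a7 a8 a9 a10 a11 a12 a13 =>
    h S NL Z A Q M a1 a2 a3 a4 a5 a6 a7 a8 a9 a10 a11 a12 a13 S subset_rfl
      ((rk_le S).trans (Nat.le_add_right n 2))⟩

end Vale.Agent.N018.H
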