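import Vale.Agent.N018.H.Def

/-! # P018, pair (6,3): the combinatorial assembly. -/

namespace Vale.Agent.N018.H.M

open Finset Vale.Agent.N018.H

theorem nar_two {n : ℕ} {j0 : Fin n} {S : Finset (V n)} (h : Chart j0 S) : Nar j0 2 S := by
  intro y hy y' hy' j
  have key : ∀ z ∈ S, |(z j : ℝ) / z j0| ≤ 1 := by
    intro z hz
    have h1 : (0 : ℝ) < z j0 := by exact_mod_cast (h z hz).1
    rw [abs_div, abs_of_pos h1, div_le_one h1]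
    exact_mod_cast (h z hz).2 j
  calc _ ≤ |(y j : ℝ) / y j0| + |(y' j : ℝ) / y' j0| := abs_sub _ _
    _ ≤ 1 + 1 := add_le_add (key y hy) (key y' hy')
    _ = 2 := by norm_num

/-- cells in a linear space -/
theorem rk_cell (hC : CellS) (hR : RkThinS) (n s : ℕ) : ∃ C : ℝ, 1 ≤ C ∧ ∀ (j0 : Fin n)
    (S : Finset (V n)) (η η' M : ℝ), (∀ y ∈ S, 0 < y j0) → 0 < η' → η' ≤ η → 0 ≤ M →
    Nar j0 η S → rk S ≤ s + 1 → (∀ T ⊆ S, Nar j0 η' T → (T.card : ℝ) ≤ M) →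
    (S.card : ℝ) ≤ C * (η / η') ^ s * M := by
  obtain ⟨C, hC1, h⟩ := hC n s 1
  refine ⟨C, hC1, fun j0 S η η' M h1 h2 h3 h4 h5 h6 h7 =>
    h j0 S η η' M h1 h2 h3 h4 h5 (fun D => ?_) h7⟩
  rw [one_mul]
  exact hR n s D S h6

/-- the number of points in one cell -/
theorem cell_est (hE : EndS) (hB : BoxS) (hM : MinorS) (hC : CellS) (hR : RkThinS) (C0 : ℕ) :
    ∃ C : ℝ, 1 ≤ C ∧ ∀ (j0 : Fin 6) (T : Finset (V 6)) (R η η' Z : ℝ) (H A Q : ℕ → ℝ) (ρ0 : ℕ),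
    NP T → Chart j0 T → (∀ y ∈ T, (y j0 : ℝ) ≤ 2 * R) → 0 < η' → η' ≤ η →
    Nar j0 η T → rk T ≤ ρ0 → (∀ D, Thin D (C0 * (D + 1) ^ 2) T) →
    (∀ T' ⊆ T, rk T' ≤ 2 → Nar j0 η' T' → T'.card ≤ 16) →
    (∀ ρ, 3 ≤ ρ → ρ ≤ ρ0 → 0 < H ρ ∧ NS ρ (H ρ) T) →
    Monotone Q → (∀ ρ, 1 ≤ Q ρ) → (∀ ρ, 1 ≤ A ρ) →
    (∀ ρ, 3 ≤ ρ → ρ ≤ ρ0 → R ^ ρ * η ^ (ρ - 1) / H ρ ≤ A ρ ^ (ρ - 1) ∧
      R ^ ρ * η ^ (ρ - 1) / H ρ ≤ Q ρ ^ ρ) →
    η / η' ≤ Z → (∀ ρ, 3 ≤ ρ → ρ ≤ ρ0 → A ρ * (η / η') ≤ Z) →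
    (∀ ρ, 4 ≤ ρ → ρ ≤ ρ0 → A ρ * Q (ρ - 1) ≤ Z) → (T.card : ℝ) ≤ C * Z := by
  choose CB hCB1 hCB using hB 6
  obtain ⟨CE, hCE1, hCE⟩ := hE 6 (8 * C0)
  obtain ⟨CL, hCL1, hCL⟩ := rk_cell hC hR 6 1
  obtain ⟨C1, hC1⟩ : ∃ C1 : ℝ, C1 = ∑ ρ ∈ range 7, CB ρ * (ρ.factorial * 2 ^ ρ) := ⟨_, rfl⟩
  have hterm : ∀ ρ, 1 ≤ CB ρ * ((ρ.factorial : ℝ) * 2 ^ ρ) := by
    intro ρ
    have h1 : (1 : ℝ) ≤ ρ.factorial := by exact_mod_cast Nat.factorial_pos ρ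
    have h2 : (1 : ℝ) ≤ 2 ^ ρ := one_le_pow₀ (by norm_num)
    exact one_le_mul_of_one_le_of_one_le (hCB1 ρ) (one_le_mul_of_one_le_of_one_le h1 h2)
  have hle : ∀ ρ, ρ ≤ 6 → CB ρ * ((ρ.factorial : ℝ) * 2 ^ ρ) ≤ C1 := by
    intro ρ hρ
    rw [hC1]
    exact Finset.single_le_sum (f := fun ρ => CB ρ * ((ρ.factorial : ℝ) * 2 ^ ρ))
      (fun i _ => zero_le_one.trans (hterm i)) (mem_range.2 (by omega))
  have hC11 : 1 ≤ C1 := (hterm 0).trans (hle 0 (by omega))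
  have hK : 1 ≤ C1 * (16 * CL + C1) :=
    one_le_mul_of_one_le_of_one_le hC11 (by linarith only [hCL1, hC11])
  refine ⟨CE * (C1 * (16 * CL + C1)), one_le_mul_of_one_le_of_one_le hCE1 hK, ?_⟩
  intro j0 T R η η' Z H A Q ρ0 hnp hch hy hη' hηη hnar hrk hthin hline hNS hQm hQ1 hA1 hW hZ1
    hZ2 hZ3
  have hη : 0 < η := lt_of_lt_of_le hη' hηη
  have hq1 : 1 ≤ η / η' := (one_le_div hη').2 hηη
  have hZ0 : 0 ≤ Z := by linarith only [hq1, hZ1]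
  rw [mul_assoc]
  refine hCE T (16 * CL * (η / η')) (C1 * (16 * CL + C1) * Z) (fun ρ => C1 * A ρ)
    (fun ρ => if ρ ≤ 2 then 0 else C1 * Q ρ) (C0 * (4 * (8 * C0) + 1) ^ 2) hnp ?_ ?_ ?_ ?_ ?_ ?_
    ?_ ?_ ?_ ?_ (hthin _)
  · exact one_le_mul_of_one_le_of_one_le (by linarith only [hCL1]) hq1
  · have h1 : 16 * CL * (η / η') ≤ 16 * CL * Z :=
      mul_le_mul_of_nonneg_left hZ1 (by linarith only [hCL1])
    have h2 : 16 * CL ≤ C1 * (16 * CL + C1) := by nlinarith only [hCL1, hC11]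
    exact h1.trans (mul_le_mul_of_nonneg_right h2 hZ0)
  · intro a b hab
    simp only
    split_ifs with h1 h2 h2
    · exact le_rfl
    · exact mul_nonneg (by linarith only [hC11]) (by linarith only [hQ1 b])
    · omega
    · exact mul_le_mul_of_nonneg_left (hQm hab) (by linarith only [hC11])
  · intro ρ
    split_ifs
    · exact le_rfl
    · exact mul_nonneg (by linarith only [hC11]) (by linarith only [hQ1 ρ])
  · intro ρ hρ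
    rw [if_neg (by omega)]
    exact one_le_mul_of_one_le_of_one_le hC11 (hQ1 ρ)
  · exact fun ρ => one_le_mul_of_one_le_of_one_le hC11 (hA1 ρ)
  · intro T' hT' hr
    have h1 := hCL j0 T' η η' 16 (fun y hy => (hch y (hT' hy)).1) hη' hηη (by norm_num)
      (hnar.mono hT') hr fun T'' hT'' hn => by
        exact_mod_cast hline T'' (hT''.trans hT') ((rk_mono hT'').trans hr) hn
    rw [pow_one] at h1
    linarith only [h1]
  · intro T' hT' hr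
    obtain ⟨s, hs⟩ : ∃ s, rk T' = s + 1 := ⟨rk T' - 1, by omega⟩
    have hs0 : s + 1 ≤ ρ0 := by
      have := rk_mono hT'
      omega
    have hs6 : s + 1 ≤ 6 := hs ▸ rk_le T'
    rw [hs] at hr ⊢
    obtain ⟨hH, hN⟩ := hNS (s + 1) hr hs0
    have hbox := hCB (s + 1) T' (((s + 1).factorial : ℝ) * (2 * R) ^ (s + 1) * η ^ s) (H (s + 1))
      hs (by omega) hH (hN.mono hT') fun x hx J => by
        exact_mod_cast hM 6 s j0 T' (2 * R) η hη.le (hch.mono hT') (hnar.mono hT')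
          (fun y hy' => hy y (hT' hy')) x hx J
    refine hbox.le ?_
    obtain ⟨h1, h2⟩ := hW (s + 1) hr hs0
    rw [Nat.add_sub_cancel] at h1 h2 ⊢
    have e : CB (s + 1) * (((s + 1).factorial : ℝ) * (2 * R) ^ (s + 1) * η ^ s) / H (s + 1) =
        CB (s + 1) * (((s + 1).factorial : ℝ) * 2 ^ (s + 1)) *
          (R ^ (s + 1) * η ^ s / H (s + 1)) := by
      rw [mul_pow]
      ring
    have h3 := hle (s + 1) hs6
    have h4 := zero_le_one.trans (hterm (s + 1))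
    rw [e, if_neg (by omega), mul_pow, mul_pow]
    refine le_min ?_ ?_
    · refine (mul_le_mul_of_nonneg_left h1 h4).trans (mul_le_mul_of_nonneg_right
        (h3.trans (le_self_pow₀ hC11 (by omega))) ?_)
      exact pow_nonneg (by linarith only [hA1 (s + 1)]) _
    · refine (mul_le_mul_of_nonneg_left h2 h4).trans (mul_le_mul_of_nonneg_right
        (h3.trans (le_self_pow₀ hC11 (by omega))) ?_)
      exact pow_nonneg (by linarith only [hQ1 (s + 1)]) _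
  · intro ρ h3 hρ
    have h1 := hZ2 ρ h3 (hρ.trans hrk)
    have h2 : A ρ * (if ρ - 1 ≤ 2 then 0 else C1 * Q (ρ - 1)) ≤ C1 * Z := by
      split_ifs with h
      · rw [mul_zero]
        exact mul_nonneg (by linarith only [hC11]) hZ0
      · rw [mul_left_comm]
        exact mul_le_mul_of_nonneg_left (hZ3 ρ (by omega) (hρ.trans hrk))
          (by linarith only [hC11])
    have h4 : 16 * CL * (A ρ * (η / η')) ≤ 16 * CL * Z :=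
      mul_le_mul_of_nonneg_left h1 (by linarith only [hCL1])
    rw [mul_assoc, mul_assoc C1]
    refine mul_le_mul_of_nonneg_left ?_ (by linarith only [hC11])
    linarith only [h2, h4]
  · have h1 : (4 * (8 * C0) + 1) ^ 2 ≤ 16 * (8 * C0 + 1) ^ 2 := by
      calc (4 * (8 * C0) + 1) ^ 2 ≤ (4 * (8 * C0 + 1)) ^ 2 := Nat.pow_le_pow_left (by omega) 2
        _ = _ := by ring
    have h2 : 0 < (8 * C0 + 1) ^ 2 := by positivity
    calc C0 * (4 * (8 * C0) + 1) ^ 2 ≤ C0 * (16 * (8 * C0 + 1) ^ 2) := Nat.mul_le_mul_left _ h1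
      _ = (16 * C0) * (8 * C0 + 1) ^ 2 := by ring
      _ < _ := Nat.mul_lt_mul_of_pos_right (by omega) h2

/-! ### exponents -/

/-- exponent of the volume of the box -/
def vv (κ β : ℚ) (δ : ℕ → ℚ) (ρ : ℕ) : ℚ := ρ * κ - ((ρ - 1 : ℕ) : ℚ) * β - δ ρ

/-- exponent of the number of hyperplanes -/
def al (κ β : ℚ) (δ : ℕ → ℚ) (ρ : ℕ) : ℚ := max 0 (vv κ β δ ρ / ((ρ - 1 : ℕ) : ℚ))

/-- exponent of the number of lines -/
def qq (κ β : ℚ) (δ : ℕ → ℚ) : ℕ → ℚ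
  | 0 => 0
  | ρ + 1 => max (qq κ β δ ρ) (if 2 ≤ ρ then vv κ β δ (ρ + 1) / ((ρ + 1 : ℕ) : ℚ) else 0)

/-- the check for one cell -/
def cellOK (κ β β' : ℚ) (δ : ℕ → ℚ) (ρ0 : ℕ) (z : ℚ) : Bool :=
  decide (β ≤ β') && decide (β' - β ≤ z) && (List.range (ρ0 + 1)).all fun ρ =>
    (decide (ρ < 3) || decide (al κ β δ ρ + (β' - β) ≤ z)) &&
      (decide (ρ < 4) || decide (al κ β δ ρ + qq κ β δ (ρ - 1) ≤ z))

theorem qq_mono (κ β : ℚ) (δ : ℕ → ℚ) : Monotone (qq κ β δ) :=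
  monotone_nat_of_le_succ fun _ => le_max_left _ _

theorem qq_ge (κ β : ℚ) (δ : ℕ → ℚ) (ρ : ℕ) (h : 3 ≤ ρ) : vv κ β δ ρ ≤ qq κ β δ ρ * ρ := by
  obtain ⟨s, rfl⟩ : ∃ s, ρ = s + 1 := ⟨ρ - 1, by omega⟩
  rw [← div_le_iff₀ (by positivity), qq, if_pos (by omega)]
  exact le_max_right _ _

theorem al_ge (κ β : ℚ) (δ : ℕ → ℚ) (ρ : ℕ) (h : 3 ≤ ρ) :
    vv κ β δ ρ ≤ al κ β δ ρ * ((ρ - 1 : ℕ) : ℚ) := by
  have h1 : (0 : ℚ) < ((ρ - 1 : ℕ) : ℚ) := by exact_mod_cast (show 0 < ρ - 1 by omega)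
  rw [← div_le_iff₀ h1]
  exact le_max_right _ _

theorem pow_le {Y : ℝ} (hY : 1 ≤ Y) {a b : ℚ} (h : a ≤ b) : Y ^ (a : ℝ) ≤ Y ^ (b : ℝ) :=
  Real.rpow_le_rpow_of_exponent_le hY (by exact_mod_cast h)

theorem cell_exp (hE : EndS) (hB : BoxS) (hM : MinorS) (hC : CellS) (hR : RkThinS) (C0 : ℕ) :
    ∃ C : ℝ, 1 ≤ C ∧ ∀ (κ β β' z : ℚ) (δ : ℕ → ℚ) (ρ0 : ℕ), cellOK κ β β' δ ρ0 z = true →
    ∀ (j0 : Fin 6) (T : Finset (V 6)) (Y : ℝ), 1 ≤ Y → NP T → Chart j0 T →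
    (∀ y ∈ T, (y j0 : ℝ) ≤ 2 * Y ^ (κ : ℝ)) → Nar j0 (Y ^ (-(β : ℝ))) T → rk T ≤ ρ0 →
    (∀ D, Thin D (C0 * (D + 1) ^ 2) T) →
    (∀ T' ⊆ T, rk T' ≤ 2 → Nar j0 (Y ^ (-(β' : ℝ))) T' → T'.card ≤ 16) →
    (∀ ρ, 3 ≤ ρ → ρ ≤ ρ0 → NS ρ (Y ^ (δ ρ : ℝ)) T) → (T.card : ℝ) ≤ C * Y ^ (z : ℝ) := by
  obtain ⟨C, hC1, h⟩ := cell_est hE hB hM hC hR C0
  refine ⟨C, hC1, ?_⟩
  intro κ β β' z δ ρ0 hok j0 T Y hY hnp hch hy hnar hrk hthin hline hNS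
  have hY0 : 0 < Y := by linarith only [hY]
  simp only [cellOK, Bool.and_eq_true, Bool.or_eq_true, decide_eq_true_eq, List.all_eq_true,
    List.mem_range] at hok
  obtain ⟨⟨h1, h2⟩, h3⟩ := hok
  have hdiv : Y ^ (-(β : ℝ)) / Y ^ (-(β' : ℝ)) = Y ^ ((β' - β : ℚ) : ℝ) := by
    rw [← Real.rpow_sub hY0]
    congr 1
    push_cast
    ring
  have hv : ∀ ρ : ℕ, (Y ^ (κ : ℝ)) ^ ρ * (Y ^ (-(β : ℝ))) ^ (ρ - 1) / Y ^ (δ ρ : ℝ) =
      Y ^ (vv κ β δ ρ : ℝ) := by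
    intro ρ
    rw [← Real.rpow_natCast, ← Real.rpow_natCast, ← Real.rpow_mul hY0.le, ← Real.rpow_mul hY0.le,
      ← Real.rpow_add hY0, ← Real.rpow_sub hY0, vv]
    congr 1
    push_cast
    ring
  have hp : ∀ (a : ℚ) (m : ℕ), (Y ^ (a : ℝ)) ^ m = Y ^ ((a * m : ℚ) : ℝ) := by
    intro a m
    rw [← Real.rpow_natCast, ← Real.rpow_mul hY0.le]
    congr 1
    push_cast
    ring
  have hm : ∀ a b : ℚ, Y ^ (a : ℝ) * Y ^ (b : ℝ) = Y ^ ((a + b : ℚ) : ℝ) := by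
    intro a b
    rw [← Real.rpow_add hY0]
    congr 1
    push_cast
    ring
  have hone : ∀ a : ℚ, 0 ≤ a → 1 ≤ Y ^ (a : ℝ) := fun a ha =>
    Real.one_le_rpow hY (by exact_mod_cast ha)
  refine h j0 T (Y ^ (κ : ℝ)) (Y ^ (-(β : ℝ))) (Y ^ (-(β' : ℝ))) (Y ^ (z : ℝ))
    (fun ρ => Y ^ (δ ρ : ℝ)) (fun ρ => Y ^ (al κ β δ ρ : ℝ)) (fun ρ => Y ^ (qq κ β δ ρ : ℝ)) ρ0
    hnp hch hy (by positivity) ?_ hnar hrk hthin hline
    (fun ρ h3 h4 => ⟨by positivity, hNS ρ h3 h4⟩) ?_ ?_ ?_ ?_ ?_ ?_ ?_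
  · refine Real.rpow_le_rpow_of_exponent_le hY (neg_le_neg ?_)
    exact_mod_cast h1
  · exact fun a b hab => pow_le hY (qq_mono κ β δ hab)
  · exact fun ρ => hone _ (qq_mono κ β δ (Nat.zero_le ρ))
  · exact fun ρ => hone _ (le_max_left _ _)
  · intro ρ h4 _
    rw [hv, hp, hp]
    exact ⟨pow_le hY (al_ge κ β δ ρ h4), pow_le hY (qq_ge κ β δ ρ h4)⟩
  · rw [hdiv]
    exact pow_le hY h2
  · intro ρ h4 h5
    rw [hdiv, hm]
    exact pow_le hY ((h3 ρ (by omega)).1.resolve_left (by omega))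
  · intro ρ h4 h5
    rw [hm]
    exact pow_le hY ((h3 ρ (by omega)).2.resolve_left (by omega))

/-- the staircase -/
theorem stair (hC : CellS) (hR : RkThinS) (C4 C3 : ℕ) : ∃ C : ℝ, 1 ≤ C ∧ ∀ (j0 : Fin 6)
    (S : Finset (V 6)) (η5 η4 η3 M : ℝ), 0 < η3 → η3 ≤ η4 → η4 ≤ η5 → η5 ≤ 2 → 0 ≤ M →
    Chart j0 S → (∀ T ⊆ S, Nar j0 η5 T → ∀ D, Thin D (C4 * (D + 1) ^ 4) T) →
    (∀ T ⊆ S, Nar j0 η4 T → ∀ D, Thin D (C3 * (D + 1) ^ 3) T) →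
    (∀ T ⊆ S, Nar j0 η3 T → (T.card : ℝ) ≤ M) →
    (S.card : ℝ) ≤ C * (η5⁻¹ * η4⁻¹ * η3⁻¹ ^ 3 * M) := by
  obtain ⟨K5, h51, h5⟩ := rk_cell hC hR 6 5
  obtain ⟨K4, h41, h4⟩ := hC 6 4 C4
  obtain ⟨K3, h31, h3⟩ := hC 6 3 C3
  refine ⟨K5 * (K4 * (K3 * 32)), one_le_mul_of_one_le_of_one_le h51
    (one_le_mul_of_one_le_of_one_le h41 (by linarith only [h31])), ?_⟩
  intro j0 S η5 η4 η3 M p3 l34 l45 l5 hM hch r4 r3 hT
  have p4 : 0 < η4 := lt_of_lt_of_le p3 l34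
  have p5 : 0 < η5 := lt_of_lt_of_le p4 l45
  have hK3 : 0 ≤ K3 := by linarith only [h31]
  have hK4 : 0 ≤ K4 := by linarith only [h41]
  have h := h5 j0 S 2 η5 (K4 * (η5 / η4) ^ 4 * (K3 * (η4 / η3) ^ 3 * M)) (fun y hy => (hch y hy).1)
    p5 l5 (by positivity) (nar_two hch) (rk_le S) fun T hTS hn =>
      h4 j0 T η5 η4 _ (fun y hy => (hch y (hTS hy)).1) p4 l45 (by positivity) hn (r4 T hTS hn)
        fun T' hT' hn' => h3 j0 T' η4 η3 M (fun y hy => (hch y (hTS (hT' hy))).1) p3 l34 hM hn'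
          (r3 T' (hT'.trans hTS) hn') fun T'' hT'' hn'' => hT T'' (hT''.trans (hT'.trans hTS)) hn''
  refine h.trans (le_of_eq ?_)
  field_simp
  ring

/-- the points in a linear space which is spanned by short vectors -/
theorem sp_count (hT : TupS) (hK : RkS) (hC : CellS) (hR : RkThinS) (s : ℕ) : ∃ C : ℝ, 1 ≤ C ∧
    ∀ (j0 : Fin 6) (S : Finset (V 6)) (H η M : ℝ), 1 ≤ H → 0 < η → η ≤ 2 → 0 ≤ M → Chart j0 S →
    (∀ y ∈ S, ¬ NS (s + 1) H {y}) →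
    (∀ T ⊆ S, rk T ≤ s + 1 → Nar j0 η T → (T.card : ℝ) ≤ M) →
    (S.card : ℝ) ≤ C * (H ^ (601 / 100 : ℝ) * η⁻¹ ^ s * M) := by
  classical
  obtain ⟨K1, h11, h1⟩ := hT 6 (s + 1) (1 / 100) (by norm_num)
  obtain ⟨K2, h21, h2⟩ := rk_cell hC hR 6 s
  refine ⟨K1 * (K2 * 2 ^ s), one_le_mul_of_one_le_of_one_le h11
    (one_le_mul_of_one_le_of_one_le h21 (one_le_pow₀ (by norm_num))), ?_⟩
  intro j0 S H η M hH hη hη2 hM hch hS hcell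
  have hv : ∀ y ∈ S, ∃ v : Fin (s + 1) → V 6, ((∀ i, v i ≠ 0) ∧ ∏ i, ‖v i‖ ≤ H) ∧ InSp v y := by
    intro y hy
    have h3 := hS y hy
    unfold NS at h3
    push Not at h3
    obtain ⟨y', hy', v, h4, h5, h6⟩ := h3
    rw [mem_singleton] at hy'
    exact ⟨v, ⟨h4, h6.le⟩, hy' ▸ h5⟩
  choose! v hv1 hv2 using hv
  have hK2 : 0 ≤ K2 := by linarith only [h21]
  have hfib : ∀ w ∈ S.image v, ((S.filter fun y => v y = w).card : ℝ) ≤ K2 * (2 / η) ^ s * M := by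
    intro w _
    have hsub : (S.filter fun y => v y = w) ⊆ S := filter_subset _ _
    have hrk : rk (S.filter fun y => v y = w) ≤ s + 1 := (hK 6).2 (s + 1) w _ fun y hy => by
      rw [mem_filter] at hy
      exact hy.2 ▸ hv2 y hy.1
    exact h2 j0 _ 2 η M (fun y hy => (hch y (hsub hy)).1) hη hη2 hM (nar_two (hch.mono hsub)) hrk
      fun T hT' hn => hcell T (hT'.trans hsub) ((rk_mono hT').trans hrk) hn
  have himg := h1 H hH (S.image v) fun w hw => by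
    obtain ⟨y, hy, rfl⟩ := mem_image.1 hw
    exact hv1 y hy
  have e : ((6 : ℕ) : ℝ) + 1 / 100 = 601 / 100 := by norm_num
  rw [e] at himg
  calc (S.card : ℝ) = ∑ w ∈ S.image v, ((S.filter fun y => v y = w).card : ℝ) := by
        exact_mod_cast card_eq_sum_card_image v S
    _ ≤ ∑ _w ∈ S.image v, K2 * (2 / η) ^ s * M := sum_le_sum hfib
    _ = (S.image v).card * (K2 * (2 / η) ^ s * M) := by rw [sum_const, nsmul_eq_mul]
    _ ≤ K1 * H ^ (601 / 100 : ℝ) * (K2 * (2 / η) ^ s * M) :=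
        mul_le_mul_of_nonneg_right himg (by positivity)
    _ = _ := by
        rw [div_eq_mul_inv 2 η, mul_pow]
        ring

/-- one row of the table -/
structure Row where
  /-- lower exponent of `R` -/
  k0 : ℚ
  /-- upper exponent of `R` -/
  k1 : ℚ
  /-- aperture for surfaces -/
  b3 : ℚ
  /-- aperture for threefolds -/
  b4 : ℚ
  /-- aperture for fourfolds -/
  b5 : ℚ
  /-- aperture for all lines -/
  p0 : ℚ
  /-- aperture for lines of large height -/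
  p1 : ℚ
  /-- height of lines -/
  d2 : ℚ
  /-- height of planes -/
  d3 : ℚ
  /-- height of solids -/
  d4 : ℚ
  /-- degrees and multipliers -/
  t3 : ℕ
  /-- degrees and multipliers -/
  t4 : ℕ
  /-- degrees and multipliers -/
  t5 : ℕ
  /-- degrees and multipliers -/
  l3 : ℚ
  /-- degrees and multipliers -/
  l4 : ℚ
  /-- degrees and multipliers -/
  l5 : ℚ

/-- the heights -/
def dl (d3 d4 : ℚ) (ρ : ℕ) : ℚ := if ρ = 3 then d3 else if ρ = 4 then d4 else 0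

/-- the combinatorial check -/
def combOK (r : Row) : Bool :=
  decide (0 ≤ r.b5) && decide (r.b5 ≤ r.b4) && decide (r.b4 ≤ r.b3) && decide (0 ≤ r.p0) &&
    decide (0 ≤ r.d2) && decide (0 ≤ r.d3) && decide (0 ≤ r.d4) &&
    decide (601 / 100 * r.d2 + r.p0 ≤ 2999 / 1000) &&
    cellOK r.k1 r.b3 r.p1 (dl 0 0) 3 (2999 / 1000 - 601 / 100 * r.d3 - 2 * r.b3) &&
    cellOK r.k1 r.b3 r.p1 (dl r.d3 0) 4 (2999 / 1000 - 601 / 100 * r.d4 - 3 * r.b3) &&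
    cellOK r.k1 r.b3 r.p1 (dl r.d3 r.d4) 6 (2999 / 1000 - r.b5 - r.b4 - 3 * r.b3)

theorem NS_of {n ρ : ℕ} {H : ℝ} {T : Finset (V n)} (h : ∀ y ∈ T, NS ρ H {y}) : NS ρ H T :=
  fun y hy => h y hy y (mem_singleton_self y)

theorem NS_dl {d3 d4 : ℚ} {Y : ℝ} {T : Finset (V 6)} (h3 : NS 3 (Y ^ (d3 : ℝ)) T)
    (h4 : NS 4 (Y ^ (d4 : ℝ)) T) (ρ : ℕ) : NS ρ (Y ^ (dl d3 d4 ρ : ℝ)) T := by
  unfold dl
  split_ifs with a b
  · rw [a]
    exact h3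
  · rw [b]
    exact h4
  · rw [Rat.cast_zero, Real.rpow_zero]
    exact NS_one ρ T

theorem NS_zero (ρ : ℕ) (Y : ℝ) (T : Finset (V 6)) : NS ρ (Y ^ ((0 : ℚ) : ℝ)) T := by
  rw [Rat.cast_zero, Real.rpow_zero]
  exact NS_one ρ T

/-- the combinatorial count -/
theorem comb (hE : EndS) (hB : BoxS) (hM : MinorS) (hC : CellS) (hR : RkThinS) (hT : TupS)
    (hK : RkS) (C4 C3 C2 : ℕ) : ∃ C : ℝ, 1 ≤ C ∧ ∀ r : Row, combOK r = true →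
    ∀ (j0 : Fin 6) (S : Finset (V 6)) (Y : ℝ), 1 ≤ Y → NP S → Chart j0 S →
    (∀ y ∈ S, (y j0 : ℝ) ≤ 2 * Y ^ (r.k1 : ℝ)) →
    (∀ T ⊆ S, Nar j0 (Y ^ (-(r.b5 : ℝ))) T → ∀ D, Thin D (C4 * (D + 1) ^ 4) T) →
    (∀ T ⊆ S, Nar j0 (Y ^ (-(r.b4 : ℝ))) T → ∀ D, Thin D (C3 * (D + 1) ^ 3) T) →
    (∀ T ⊆ S, Nar j0 (Y ^ (-(r.b3 : ℝ))) T → ∀ D, Thin D (C2 * (D + 1) ^ 2) T) →
    (∀ T ⊆ S, rk T ≤ 2 → Nar j0 (Y ^ (-(r.p0 : ℝ))) T → T.card ≤ 16) →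
    (∀ T ⊆ S, rk T ≤ 2 → Nar j0 (Y ^ (-(r.p1 : ℝ))) T → NS 2 (Y ^ (r.d2 : ℝ)) T → T.card ≤ 16) →
    (S.card : ℝ) ≤ C * Y ^ (2999 / 1000 : ℝ) := by
  classical
  obtain ⟨Kc, hKc, hcell⟩ := cell_exp hE hB hM hC hR C2
  obtain ⟨Ks, hKs, hstair⟩ := stair hC hR C4 C3
  obtain ⟨K1, hK1, hsp1⟩ := sp_count hT hK hC hR 1
  obtain ⟨K2, hK2, hsp2⟩ := sp_count hT hK hC hR 2
  obtain ⟨K3, hK3, hsp3⟩ := sp_count hT hK hC hR 3
  refine ⟨K1 * 16 + K2 * Kc + K3 * Kc + Ks * Kc, by nlinarith only [hKc, hKs, hK1, hK2, hK3], ?_⟩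
  intro r hok j0 S Y hY hnp hch hy r4 r3 r2 l0 l1
  simp only [combOK, Bool.and_eq_true, decide_eq_true_eq] at hok
  obtain ⟨⟨⟨⟨⟨⟨⟨⟨⟨⟨a1, a2⟩, a3⟩, a4⟩, a5⟩, a6⟩, a7⟩, a8⟩, c3⟩, c4⟩, c6⟩ := hok
  have hY0 : 0 < Y := by linarith only [hY]
  have hKc0 : 0 ≤ Kc := by linarith only [hKc]
  have hone : ∀ a : ℚ, 0 ≤ a → 1 ≤ Y ^ (a : ℝ) := fun a ha =>
    Real.one_le_rpow hY (by exact_mod_cast ha)
  have hneg : ∀ a b : ℚ, a ≤ b → Y ^ (-(b : ℝ)) ≤ Y ^ (-(a : ℝ)) := fun a b hab =>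
    Real.rpow_le_rpow_of_exponent_le hY (neg_le_neg (by exact_mod_cast hab))
  have htwo : ∀ a : ℚ, 0 ≤ a → Y ^ (-(a : ℝ)) ≤ 2 := fun a ha =>
    (Real.rpow_le_one_of_one_le_of_nonpos hY (neg_nonpos.2 (by exact_mod_cast ha))).trans
      one_le_two
  have hinv : ∀ a : ℝ, (Y ^ (-a))⁻¹ = Y ^ a := fun a => by rw [Real.rpow_neg hY0.le, inv_inv]
  have hexp : ∀ (a b c : ℝ) (s : ℕ) (K : ℝ), (Y ^ a) ^ (601 / 100 : ℝ) * (Y ^ (-b))⁻¹ ^ s *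
      (K * Y ^ c) = K * Y ^ (601 / 100 * a + s * b + c) := by
    intro a b c s K
    rw [hinv, ← Real.rpow_natCast, ← Real.rpow_mul hY0.le, ← Real.rpow_mul hY0.le,
      Real.rpow_add hY0, Real.rpow_add hY0, mul_comm a, mul_comm b]
    ring
  have a3' : 0 ≤ r.b3 := a1.trans (a2.trans a3)
  -- the cell estimate inside `S`
  have key : ∀ (d3 d4 z : ℚ) (ρ0 : ℕ), cellOK r.k1 r.b3 r.p1 (dl d3 d4) ρ0 z = true →
      ∀ T ⊆ S, NS 2 (Y ^ (r.d2 : ℝ)) T → NS 3 (Y ^ (d3 : ℝ)) T → NS 4 (Y ^ (d4 : ℝ)) T →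
      rk T ≤ ρ0 → Nar j0 (Y ^ (-(r.b3 : ℝ))) T → (T.card : ℝ) ≤ Kc * Y ^ (z : ℝ) := by
    intro d3 d4 z ρ0 h T hTS n2 n3 n4 hrk hn
    exact hcell r.k1 r.b3 r.p1 z _ ρ0 h j0 T Y hY (hnp.mono hTS) (hch.mono hTS)
      (fun y hy' => hy y (hTS hy')) hn hrk (r2 T hTS hn)
      (fun T' hT' h1 h2 => l1 T' (hT'.trans hTS) h1 h2 (n2.mono hT'))
      fun ρ _ _ => NS_dl n3 n4 ρ
  obtain ⟨P2, hP2⟩ : ∃ P : V 6 → Prop, P = fun y => NS 2 (Y ^ (r.d2 : ℝ)) {y} := ⟨_, rfl⟩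
  obtain ⟨P3, hP3⟩ : ∃ P : V 6 → Prop, P = fun y => NS 3 (Y ^ (r.d3 : ℝ)) {y} := ⟨_, rfl⟩
  obtain ⟨P4, hP4⟩ : ∃ P : V 6 → Prop, P = fun y => NS 4 (Y ^ (r.d4 : ℝ)) {y} := ⟨_, rfl⟩
  have q2 : ∀ T : Finset (V 6), (∀ y ∈ T, P2 y) → NS 2 (Y ^ (r.d2 : ℝ)) T := fun T h =>
    NS_of (by rw [hP2] at h; exact h)
  have q3 : ∀ T : Finset (V 6), (∀ y ∈ T, P3 y) → NS 3 (Y ^ (r.d3 : ℝ)) T := fun T h =>
    NS_of (by rw [hP3] at h; exact h)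
  have q4 : ∀ T : Finset (V 6), (∀ y ∈ T, P4 y) → NS 4 (Y ^ (r.d4 : ℝ)) T := fun T h =>
    NS_of (by rw [hP4] at h; exact h)
  have b1 : ((S.filter fun y => ¬ P2 y).card : ℝ) ≤ K1 * 16 * Y ^ (2999 / 1000 : ℝ) := by
    have hsub : (S.filter fun y => ¬ P2 y) ⊆ S := filter_subset _ _
    have h := hsp1 j0 _ (Y ^ (r.d2 : ℝ)) (Y ^ (-(r.p0 : ℝ))) (16 * Y ^ (0 : ℝ)) (hone _ a5)
      (by positivity) (htwo _ a4) (by positivity) (hch.mono hsub)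
      (fun y hy' => by
        have h1 := (mem_filter.1 hy').2
        rw [hP2] at h1
        exact h1)
      fun T hT' h1 h2 => by
        rw [Real.rpow_zero, mul_one]
        exact_mod_cast l0 T (hT'.trans hsub) h1 h2
    rw [hexp, ← mul_assoc] at h
    refine h.trans (mul_le_mul_of_nonneg_left (Real.rpow_le_rpow_of_exponent_le hY ?_)
      (by linarith only [hK1]))
    have h1 : ((601 / 100 * r.d2 + r.p0 : ℚ) : ℝ) ≤ ((2999 / 1000 : ℚ) : ℝ) := by exact_mod_cast a8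
    push_cast at h1 ⊢
    linarith only [h1]
  have b2 : ((S.filter fun y => P2 y ∧ ¬ P3 y).card : ℝ) ≤ K2 * Kc * Y ^ (2999 / 1000 : ℝ) := by
    have hsub : (S.filter fun y => P2 y ∧ ¬ P3 y) ⊆ S := filter_subset _ _
    have h := hsp2 j0 _ (Y ^ (r.d3 : ℝ)) (Y ^ (-(r.b3 : ℝ))) _ (hone _ a6)
      (by positivity) (htwo _ a3') (by positivity) (hch.mono hsub)
      (fun y hy' => by
        have h1 := (mem_filter.1 hy').2.2
        rw [hP3] at h1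
        exact h1)
      fun T hT' h1 h2 => key 0 0 _ 3 c3 T (hT'.trans hsub)
        (q2 T fun y hy' => (mem_filter.1 (hT' hy')).2.1) (NS_zero _ _ _) (NS_zero _ _ _) h1 h2
    rw [hexp, ← mul_assoc] at h
    refine h.trans (le_of_eq ?_)
    congr 2
    push_cast
    ring
  have b3 : ((S.filter fun y => (P2 y ∧ P3 y) ∧ ¬ P4 y).card : ℝ) ≤
      K3 * Kc * Y ^ (2999 / 1000 : ℝ) := by
    have hsub : (S.filter fun y => (P2 y ∧ P3 y) ∧ ¬ P4 y) ⊆ S := filter_subset _ _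
    have h := hsp3 j0 _ (Y ^ (r.d4 : ℝ)) (Y ^ (-(r.b3 : ℝ))) _ (hone _ a7)
      (by positivity) (htwo _ a3') (by positivity) (hch.mono hsub)
      (fun y hy' => by
        have h1 := (mem_filter.1 hy').2.2
        rw [hP4] at h1
        exact h1)
      fun T hT' h1 h2 => key r.d3 0 _ 4 c4 T (hT'.trans hsub)
        (q2 T fun y hy' => (mem_filter.1 (hT' hy')).2.1.1)
        (q3 T fun y hy' => (mem_filter.1 (hT' hy')).2.1.2) (NS_zero _ _ _) h1 h2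
    rw [hexp, ← mul_assoc] at h
    refine h.trans (le_of_eq ?_)
    congr 2
    push_cast
    ring
  have b4 : ((S.filter fun y => (P2 y ∧ P3 y) ∧ P4 y).card : ℝ) ≤
      Ks * Kc * Y ^ (2999 / 1000 : ℝ) := by
    have hsub : (S.filter fun y => (P2 y ∧ P3 y) ∧ P4 y) ⊆ S := filter_subset _ _
    have h := hstair j0 _ (Y ^ (-(r.b5 : ℝ))) (Y ^ (-(r.b4 : ℝ))) (Y ^ (-(r.b3 : ℝ))) _
      (by positivity) (hneg _ _ a3) (hneg _ _ a2) (htwo _ a1) (by positivity) (hch.mono hsub)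
      (fun T hT' => r4 T (hT'.trans hsub)) (fun T hT' => r3 T (hT'.trans hsub))
      fun T hT' h2 => key r.d3 r.d4 _ 6 c6 T (hT'.trans hsub)
        (q2 T fun y hy' => (mem_filter.1 (hT' hy')).2.1.1)
        (q3 T fun y hy' => (mem_filter.1 (hT' hy')).2.1.2)
        (q4 T fun y hy' => (mem_filter.1 (hT' hy')).2.2) (rk_le T) h2
    refine h.trans (le_of_eq ?_)
    rw [hinv, hinv, hinv, ← Real.rpow_natCast, ← Real.rpow_mul hY0.le, ← Real.rpow_add hY0,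
      ← Real.rpow_add hY0, mul_left_comm _ Kc, ← Real.rpow_add hY0, ← mul_assoc]
    congr 2
    push_cast
    ring
  have hcover : S ⊆ ((S.filter fun y => ¬ P2 y) ∪ (S.filter fun y => P2 y ∧ ¬ P3 y)) ∪
      ((S.filter fun y => (P2 y ∧ P3 y) ∧ ¬ P4 y) ∪ (S.filter fun y => (P2 y ∧ P3 y) ∧ P4 y)) := by
    intro y hy'
    simp only [mem_union, mem_filter]
    tauto
  have hcard : S.card ≤ ((S.filter fun y => ¬ P2 y).card + (S.filter fun y => P2 y ∧ ¬ P3 y).card) +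
      ((S.filter fun y => (P2 y ∧ P3 y) ∧ ¬ P4 y).card +
        (S.filter fun y => (P2 y ∧ P3 y) ∧ P4 y).card) :=
    (card_le_card hcover).trans ((card_union_le _ _).trans
      (add_le_add (card_union_le _ _) (card_union_le _ _)))
  have hcard' : (S.card : ℝ) ≤ (((S.filter fun y => ¬ P2 y).card : ℝ) +
      (S.filter fun y => P2 y ∧ ¬ P3 y).card) +
      ((S.filter fun y => (P2 y ∧ P3 y) ∧ ¬ P4 y).card +
        (S.filter fun y => (P2 y ∧ P3 y) ∧ P4 y).card) := by exact_mod_cast hcard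
  linarith only [hcard', b1, b2, b3, b4]

end Vale.Agent.N018.H.M
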