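import Vale.Agent.P018.Bdl.B12
import Vale.Agent.N018.H.Def

/-! # P018, pair (6,3): the arithmetic packages (statements). -/

namespace Vale.Agent.N018.H

open Finset Polynomial NumberField Vale.Agent.P018 Vale.Agent.P018.K

/-- the conditions on the points: `y` gives `π i = ell (θ i) y` with `c³ (n - θ i) = π i ³ γ i`,
`n = nn y`. -/
structure Dat (L : Type) [Field L] [NumberField L] (θ : Fin 6 → 𝓞 L) (A0 X R : ℝ) (c : ℤ)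
    (nn : V 6 → ℤ) (j0 : Fin 6) (S : Finset (V 6)) : Prop where
  hn : ∀ y ∈ S, |(nn y : ℝ)| ≤ A0 * X
  hy : ∀ y ∈ S, (y j0 : ℝ) ≤ 2 * R
  ch : Chart j0 S
  hN : ∀ y ∈ S, ∃ N : ℤ, ∏ i, ell (θ i) y = (N : 𝓞 L) ∧ R ^ 6 ≤ |(N : ℝ)|
  hγ : ∀ y ∈ S, ∃ γ : Fin 6 → 𝓞 L, ∀ i,
    (c : 𝓞 L) ^ 3 * ((nn y : 𝓞 L) - θ i) = ell (θ i) y ^ 3 * γ i
  mult : ∀ m : ℤ, (S.filter fun y => nn y = m).card ≤ 6
  npi : ∀ y ∈ S, ∀ y' ∈ S, y ≠ y' → ∀ i j, i ≠ j →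
    ell (θ i) y * ell (θ j) y' ≠ ell (θ j) y * ell (θ i) y'

theorem Dat.mono {L : Type} [Field L] [NumberField L] {θ : Fin 6 → 𝓞 L} {A0 X R : ℝ} {c : ℤ}
    {nn : V 6 → ℤ} {j0 : Fin 6} {S S' : Finset (V 6)} (h : Dat L θ A0 X R c nn j0 S)
    (hS : S' ⊆ S) : Dat L θ A0 X R c nn j0 S' :=
  ⟨fun y hy => h.hn y (hS hy), fun y hy => h.hy y (hS hy), h.ch.mono hS,
    fun y hy => h.hN y (hS hy), fun y hy => h.hγ y (hS hy),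
    fun m => (Finset.card_le_card (Finset.filter_subset_filter _ hS)).trans (h.mult m),
    fun y hy y' hy' => h.npi y (hS hy) y' (hS hy')⟩

theorem Dat.np {L : Type} [Field L] [NumberField L] {θ : Fin 6 → 𝓞 L} {A0 X R : ℝ} {c : ℤ}
    {nn : V 6 → ℤ} {j0 : Fin 6} {S : Finset (V 6)} (h : Dat L θ A0 X R c nn j0 S) : NP S := by
  refine ⟨fun y hy h0 => ?_, fun y hy y' hy' hne => ?_⟩
  · have h1 := (h.ch y hy).1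
    rw [h0] at h1
    exact lt_irrefl _ h1
  · by_contra hcon
    push Not at hcon
    refine h.npi y hy y' hy' hne 0 1 (by decide) ?_
    unfold ell
    rw [Finset.sum_mul_sum, Finset.sum_mul_sum, Finset.sum_comm]
    refine Finset.sum_congr rfl fun i _ => Finset.sum_congr rfl fun j _ => ?_
    have h1 : ((y j : ℤ) : 𝓞 L) * (y' i : 𝓞 L) = (y i : 𝓞 L) * (y' j : 𝓞 L) := by
      exact_mod_cast congrArg (fun z : ℤ => (z : 𝓞 L)) (hcon j i)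
    linear_combination (θ 0 ^ (j : ℕ) * θ 1 ^ (i : ℕ)) * h1

/-- the criterion for homogeneous functions of `s + 1` conjugates: `R ≥ X ^ w`, aperture
`X ^ (-b)`. -/
def CritP (s : ℕ) (w b : ℝ) : Prop :=
  ∃ (T K : ℕ) (Λ Vv : ℝ) (B : Finset (ℕ × (Fin (s + 1) → ℤ))),
    (∀ p ∈ B, p.1 ≤ T ∧ needs 3 p.2 ≤ p.1 ∧ ∑ i, p.2 i = -(K : ℤ)) ∧
    (∀ T' : Finset (ℕ × (Fin s → ℕ)), (∀ τ ∈ T', τ.1 ≤ T) →
      ∑ τ ∈ T', ((τ.1 : ℝ) - Λ - b * ∑ i, (τ.2 i : ℝ)) ≤ Vv) ∧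
    Vv < B.card * (w * K - Λ)

/-- I: narrow sets of points are thin -/
def RelS : Prop := ∀ (L : Type) [Field L] [NumberField L] (θ : Fin 6 → 𝓞 L),
  Function.Injective θ → ∀ (A0 : ℝ) (Cs s : ℕ) (w b : ℝ), 1 ≤ A0 → 1 ≤ s → s ≤ 5 → 0 ≤ b →
  CritP s w b → ∃ (C0 : ℕ) (X1 : ℝ), ∀ (X R η : ℝ) (c : ℤ) (nn : V 6 → ℤ) (j0 : Fin 6)
    (S : Finset (V 6)), X1 ≤ X → 1 ≤ X → X ^ w ≤ R → 1 ≤ R → 0 < η → η ≤ X ^ (-b) → c ≠ 0 →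
    |c| ≤ Cs → Dat L θ A0 X R c nn j0 S → Nar j0 η S → ∀ D, Thin D (C0 * (D + 1) ^ s) S

/-- H1: on a line the determinants of the six functions `γ i * u j`, `i ∈ I`, vanish. The points
are `y = u 0 y • v 0 + u 1 y • v 1`. -/
def LineDetS : Prop := ∀ (L : Type) [Field L] [NumberField L] (θ : Fin 6 → 𝓞 L) (A0 : ℝ)
  (Cs : ℕ) (C1 : ℝ), 1 ≤ A0 → 1 ≤ C1 → ∃ K : ℝ, 0 < K ∧ ∀ (X R η H : ℝ) (c : ℤ) (nn : V 6 → ℤ)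
    (j0 : Fin 6) (T : Finset (V 6)) (v : Fin 2 → V 6) (u : Fin 2 → V 6 → ℤ) (J : Fin 2 → Fin 6)
    (γ : V 6 → Fin 6 → 𝓞 L), 1 ≤ X → 1 ≤ R → 0 < η → η ≤ 1 → 1 ≤ X * η ^ 3 → 0 < H →
    K * (X ^ 6 * max (η ^ 15) (η ^ 10 / X)) < R ^ 12 * H ^ 3 → |c| ≤ Cs →
    Dat L θ A0 X R c nn j0 T → Nar j0 η T → (∀ y ∈ T, ∀ j, y j = ∑ i, u i y * v i j) →
    (Matrix.of fun i k => v i (J k)).det ≠ 0 →
    ∏ i, ‖v i‖ ≤ C1 * |(((Matrix.of fun i k => v i (J k)).det : ℤ) : ℝ)| → H ≤ ∏ i, ‖v i‖ →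
    (∀ y ∈ T, ∀ i, (c : 𝓞 L) ^ 3 * ((nn y : 𝓞 L) - θ i) = ell (θ i) y ^ 3 * γ y i) →
    ∀ (I : Fin 3 → Fin 6) (φ : Fin 3 × Fin 2 → V 6), (∀ q, φ q ∈ T) →
      (Matrix.of fun (q f : Fin 3 × Fin 2) =>
        γ (φ q) (I f.1) * ((u f.2 (φ q) : ℤ) : 𝓞 L)).det = 0

/-- H2: the number of points on a short piece of a line -/
def LineS : Prop := ∀ (L : Type) [Field L] [NumberField L] (θ : Fin 6 → 𝓞 L),
  Function.Injective θ → ∀ (A0 : ℝ) (Cs : ℕ), 1 ≤ A0 → ∃ K : ℝ, 0 < K ∧ ∀ (X R η H : ℝ) (c : ℤ)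
    (nn : V 6 → ℤ) (j0 : Fin 6) (T : Finset (V 6)), 1 ≤ X → 1 ≤ R → 0 < η → η ≤ 1 →
    1 ≤ X * η ^ 3 → 0 < H → K * (X ^ 6 * max (η ^ 15) (η ^ 10 / X)) < R ^ 12 * H ^ 3 → c ≠ 0 →
    |c| ≤ Cs → Dat L θ A0 X R c nn j0 T → Nar j0 η T → rk T ≤ 2 → NS 2 H T → T.card ≤ 16

/-- lower bound for the number of functions -/
def Nlow (s D Tn : ℕ) : ℚ :=
  (((Tn - D - (s + 1) : ℕ) : ℚ) + 1) * ((3 * D - s : ℕ) : ℚ) ^ s / s.factorial +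
    ((List.range s).map fun j => ((List.range (j + 1)).map fun i =>
      (((s + 1).choose (j + 1) * j.choose i * (3 * D) ^ (j - i) * 3 ^ (i + (s - 1 - j) + 1) *
        (Tn - D - (s + 1)) ^ (i + (s - 1 - j) + 2) : ℕ) : ℚ) /
      ((j.factorial * (s - 1 - j).factorial * (i + (s - 1 - j) + 1) *
        (i + (s - 1 - j) + 2) : ℕ) : ℚ)).sum).sum

/-- the numerical check of the criterion -/
def critOK (s : ℕ) (κ0 β : ℚ) (D Tn : ℕ) (Λ : ℚ) : Bool :=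
  decide (0 < β) && decide (D + (s + 1) ≤ Tn) && decide (s + 1 ≤ 3 * D) && decide (Λ ≤ Tn) &&
    decide (Λ < κ0 * D) &&
    decide (((Tn : ℚ) - Λ + s * (β / 3) + 1) ^ (s + 2) <
      (s + 2).factorial * (β / 3) ^ s * Nlow s D Tn * (κ0 * D - Λ))

/-- J: the criterion from the check -/
def FamS : Prop := ∀ (s : ℕ) (κ0 β : ℚ) (D Tn : ℕ) (Λ : ℚ), 1 ≤ s →
  critOK s κ0 β D Tn Λ = true → CritP s ((κ0 : ℝ) / 3) ((β : ℝ) / 3)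

/-- K: two points with different primes -/
def NormS : Prop := ∀ (L : Type) [Field L] [NumberField L] (d : ℕ) (G : ℤ[X]), G.Monic →
  G.natDegree = d → Irreducible (G.map (Int.castRingHom ℚ)) → ∀ θ : Fin d → 𝓞 L,
  Function.Injective θ → G.map (algebraMap ℤ (𝓞 L)) = ∏ i, (X - C (θ i)) →
  ∀ (y y' : V d) (p p' : ℕ) (c : ℤ), p.Prime → p'.Prime → p ≠ p' → c ≠ 0 →
    ∏ i, ell (θ i) y = (((p : ℤ) * c : ℤ) : 𝓞 L) → ∏ i, ell (θ i) y' = (((p' : ℤ) * c : ℤ) : 𝓞 L) →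
    ∀ i j, i ≠ j → ell (θ i) y * ell (θ j) y' ≠ ell (θ j) y * ell (θ i) y'

end Vale.Agent.N018.H
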