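import Vale.Agent.P018.Bdl.B10
import Vale.Agent.N018.H.Def2
import Vale.Agent.N018.H.Comb

/-! # P018, pair (6,3): the count for one row of the table. -/

namespace Vale.Agent.N018.H.M

open Finset Polynomial NumberField Vale.Agent.P018 Vale.Agent.P018.K Vale.Agent.N018.H

/-- the check for lines -/
def lineOK (κ0 β δ : ℚ) : Bool :=
  decide (0 ≤ β) && decide (β ≤ 1) && decide (18 - 15 * β < 12 * κ0 + 3 * δ) &&
    decide (15 - 10 * β < 12 * κ0 + 3 * δ)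

/-- the check for one row -/
def rowOK (r : Row) : Bool :=
  combOK r && lineOK r.k0 r.p0 0 && lineOK r.k0 r.p1 r.d2 &&
    critOK 2 r.k0 r.b3 100000 r.t3 r.l3 && critOK 3 r.k0 r.b4 100000 r.t4 r.l4 &&
    critOK 4 r.k0 r.b5 100000 r.t5 r.l5

theorem exists_big (K ε : ℝ) (hε : 0 < ε) : ∃ Y1 : ℝ, ∀ Y, Y1 ≤ Y → K < Y ^ ε :=
  Filter.eventually_atTop.1 ((tendsto_rpow_atTop hε).eventually_gt_atTop K)

theorem line_exp (hL : LineS) (L : Type) [Field L] [NumberField L] (θ : Fin 6 → 𝓞 L)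
    (hθ : Function.Injective θ) (A0 : ℝ) (Cs : ℕ) (hA0 : 1 ≤ A0) (κ0 β δ : ℚ)
    (h : lineOK κ0 β δ = true) : ∃ Y1 : ℝ, ∀ (Y R : ℝ) (c : ℤ) (nn : V 6 → ℤ) (j0 : Fin 6)
    (T : Finset (V 6)), Y1 ≤ Y → 1 ≤ Y → Y ^ (κ0 : ℝ) ≤ R → 1 ≤ R → c ≠ 0 → |c| ≤ Cs →
    Dat L θ A0 (Y ^ 3) R c nn j0 T → rk T ≤ 2 → Nar j0 (Y ^ (-(β : ℝ))) T →
    NS 2 (Y ^ (δ : ℝ)) T → T.card ≤ 16 := by
  simp only [lineOK, Bool.and_eq_true, decide_eq_true_eq] at h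
  obtain ⟨⟨⟨h1, h2⟩, h3⟩, h4⟩ := h
  have g1 : (0 : ℝ) ≤ β := by exact_mod_cast h1
  have g2 : (β : ℝ) ≤ 1 := by exact_mod_cast h2
  have g3 : 18 - 15 * (β : ℝ) < 12 * κ0 + 3 * δ := by exact_mod_cast h3
  have g4 : 15 - 10 * (β : ℝ) < 12 * κ0 + 3 * δ := by exact_mod_cast h4
  obtain ⟨K, hK, hline⟩ := hL L θ hθ A0 Cs hA0
  obtain ⟨m, hm⟩ : ∃ m : ℝ, m = max (18 - 15 * (β : ℝ)) (15 - 10 * (β : ℝ)) := ⟨_, rfl⟩
  have hm1 : 18 - 15 * (β : ℝ) ≤ m := hm ▸ le_max_left _ _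
  have hm2 : 15 - 10 * (β : ℝ) ≤ m := hm ▸ le_max_right _ _
  have hm3 : m < 12 * κ0 + 3 * δ := hm ▸ max_lt g3 g4
  obtain ⟨Y1, hY1⟩ := exists_big K (12 * κ0 + 3 * δ - m) (by linarith only [hm3])
  refine ⟨Y1, ?_⟩
  intro Y R c nn j0 T hY' hY hR hR1 hc hcs hdat hrk hnar hNS
  have hY0 : 0 < Y := by linarith only [hY]
  have hp : ∀ (a : ℝ) (k : ℕ), (Y ^ a) ^ k = Y ^ (a * k) := fun a k => by
    rw [← Real.rpow_natCast, ← Real.rpow_mul hY0.le]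
  have h3' : Y ^ 3 = Y ^ (3 : ℝ) := by rw [← Real.rpow_natCast]; norm_num
  refine hline (Y ^ 3) R (Y ^ (-(β : ℝ))) (Y ^ (δ : ℝ)) c nn j0 T (one_le_pow₀ hY) hR1
    (by positivity) (Real.rpow_le_one_of_one_le_of_nonpos hY (by linarith only [g1])) ?_
    (by positivity) ?_ hc hcs hdat hnar hrk hNS
  · rw [h3', hp, ← Real.rpow_add hY0]
    refine Real.one_le_rpow hY ?_
    push_cast
    linarith only [g2]
  · have e1 : (Y ^ 3) ^ 6 * max ((Y ^ (-(β : ℝ))) ^ 15) ((Y ^ (-(β : ℝ))) ^ 10 / Y ^ 3) ≤ Y ^ m := by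
      rw [mul_max_of_nonneg _ _ (by positivity), h3', hp, hp, hp, ← Real.rpow_sub hY0,
        ← Real.rpow_add hY0, ← Real.rpow_add hY0]
      refine max_le (Real.rpow_le_rpow_of_exponent_le hY ?_)
        (Real.rpow_le_rpow_of_exponent_le hY ?_)
      · push_cast
        linarith only [hm1]
      · push_cast
        linarith only [hm2]
    have e2 : Y ^ (12 * κ0 + 3 * δ - m) * Y ^ m = (Y ^ (κ0 : ℝ)) ^ 12 * (Y ^ (δ : ℝ)) ^ 3 := by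
      rw [hp, hp, ← Real.rpow_add hY0, ← Real.rpow_add hY0]
      congr 1
      push_cast
      ring
    calc _ ≤ K * Y ^ m := mul_le_mul_of_nonneg_left e1 hK.le
      _ < Y ^ (12 * κ0 + 3 * δ - m) * Y ^ m :=
        mul_lt_mul_of_pos_right (hY1 Y hY') (by positivity)
      _ ≤ _ := by
        rw [e2]
        exact mul_le_mul_of_nonneg_right (pow_le_pow_left₀ (by positivity) hR 12) (by positivity)

theorem rel_exp (hRel : RelS) (hF : FamS) (L : Type) [Field L] [NumberField L] (θ : Fin 6 → 𝓞 L)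
    (hθ : Function.Injective θ) (A0 : ℝ) (Cs : ℕ) (hA0 : 1 ≤ A0) (s : ℕ) (hs : 1 ≤ s)
    (hs5 : s ≤ 5) (κ0 β : ℚ) (D Tn : ℕ) (Λ : ℚ) (h : critOK s κ0 β D Tn Λ = true) :
    ∃ (C0 : ℕ) (Y1 : ℝ), ∀ (Y R : ℝ) (c : ℤ) (nn : V 6 → ℤ) (j0 : Fin 6)
    (T : Finset (V 6)), Y1 ≤ Y → 1 ≤ Y → Y ^ (κ0 : ℝ) ≤ R → 1 ≤ R → c ≠ 0 → |c| ≤ Cs →
    Dat L θ A0 (Y ^ 3) R c nn j0 T → Nar j0 (Y ^ (-(β : ℝ))) T →
    ∀ D, Thin D (C0 * (D + 1) ^ s) T := by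
  have hβ : (0 : ℝ) < β := by
    simp only [critOK, Bool.and_eq_true, decide_eq_true_eq] at h
    exact_mod_cast h.1.1.1.1.1
  obtain ⟨C0, X1, hrel⟩ := hRel L θ hθ A0 Cs s _ _ hA0 hs hs5 (by positivity)
    (hF s κ0 β D Tn Λ hs h)
  refine ⟨C0, X1, ?_⟩
  intro Y R c nn j0 T hY' hY hR hR1 hc hcs hdat hnar
  have hY0 : 0 < Y := by linarith only [hY]
  have hp : ∀ a : ℝ, (Y ^ 3) ^ (a / 3) = Y ^ a := fun a => by
    rw [← Real.rpow_natCast, ← Real.rpow_mul hY0.le]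
    congr 1
    push_cast
    ring
  refine hrel (Y ^ 3) R (Y ^ (-(β : ℝ))) c nn j0 T (hY'.trans (le_self_pow₀ hY (by norm_num)))
    (one_le_pow₀ hY) (by rw [hp]; exact hR) hR1 (by positivity) ?_ hc hcs hdat hnar
  rw [← neg_div, hp]

/-- the packages -/
structure Pk : Prop where
  hE : EndS
  hB : BoxS
  hM : MinorS
  hC : CellS
  hR : RkThinS
  hT : TupS
  hK : RkS
  hL : LineS
  hRel : RelS
  hF : FamS
  hN : NormS

theorem arith (H : Pk) (L : Type) [Field L] [NumberField L] (θ : Fin 6 → 𝓞 L)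
    (hθ : Function.Injective θ) (A0 : ℝ) (Cs : ℕ) (hA0 : 1 ≤ A0) (r : Row)
    (h : rowOK r = true) : ∃ C Y1 : ℝ, 1 ≤ C ∧ ∀ (Y R : ℝ) (c : ℤ) (nn : V 6 → ℤ) (j0 : Fin 6)
    (S : Finset (V 6)), Y1 ≤ Y → 1 ≤ Y → Y ^ (r.k0 : ℝ) ≤ R → R ≤ Y ^ (r.k1 : ℝ) → 1 ≤ R →
    c ≠ 0 → |c| ≤ Cs → Dat L θ A0 (Y ^ 3) R c nn j0 S →
    (S.card : ℝ) ≤ C * Y ^ (2999 / 1000 : ℝ) := by
  simp only [rowOK, Bool.and_eq_true] at h
  obtain ⟨⟨⟨⟨⟨h1, h2⟩, h3⟩, h4⟩, h5⟩, h6⟩ := h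
  obtain ⟨Y0, l0⟩ := line_exp H.hL L θ hθ A0 Cs hA0 _ _ _ h2
  obtain ⟨Y1, l1⟩ := line_exp H.hL L θ hθ A0 Cs hA0 _ _ _ h3
  obtain ⟨C2, Y2, r2⟩ := rel_exp H.hRel H.hF L θ hθ A0 Cs hA0 2 (by omega) (by omega) _ _ _ _ _ h4
  obtain ⟨C3, Y3, r3⟩ := rel_exp H.hRel H.hF L θ hθ A0 Cs hA0 3 (by omega) (by omega) _ _ _ _ _ h5
  obtain ⟨C4, Y4, r4⟩ := rel_exp H.hRel H.hF L θ hθ A0 Cs hA0 4 (by omega) (by omega) _ _ _ _ _ h6
  obtain ⟨C, hC1, hC⟩ := comb H.hE H.hB H.hM H.hC H.hR H.hT H.hK C4 C3 C2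
  refine ⟨C, max (max Y0 Y1) (max Y2 (max Y3 Y4)), hC1, ?_⟩
  intro Y R c nn j0 S hY' hY hR0 hR1 hR hc hcs hdat
  simp only [max_le_iff] at hY'
  obtain ⟨⟨y0, y1⟩, y2, y3, y4⟩ := hY'
  exact hC r h1 j0 S Y hY hdat.np hdat.ch
    (fun y hy => (hdat.hy y hy).trans (by linarith only [hR1]))
    (fun T hT => r4 Y R c nn j0 T y4 hY hR0 hR hc hcs (hdat.mono hT))
    (fun T hT => r3 Y R c nn j0 T y3 hY hR0 hR hc hcs (hdat.mono hT))
    (fun T hT => r2 Y R c nn j0 T y2 hY hR0 hR hc hcs (hdat.mono hT))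
    (fun T hT h7 h8 => l0 Y R c nn j0 T y0 hY hR0 hR hc hcs (hdat.mono hT) h7 h8 (NS_zero _ _ _))
    (fun T hT => l1 Y R c nn j0 T y1 hY hR0 hR hc hcs (hdat.mono hT))

/-! ### the points attached to the pairs -/

theorem ell_neg {R : Type*} [CommRing R] {d : ℕ} (θ : R) (y : Fin d → ℤ) :
    ell θ (-y) = -ell θ y := by
  simp [ell, Finset.sum_neg_distrib]

theorem normalise {R : Type*} [CommRing R] (θ : Fin 6 → R) (y : V 6) (hy : y ≠ 0) (N : R)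
    (w γ : Fin 6 → R) (B : ℕ) (h0 : ∀ j, |y j| ^ 6 ≤ B) (h1 : ∏ i, ell (θ i) y = N)
    (h2 : ∀ i, w i = ell (θ i) y ^ 3 * γ i) :
    ∃ (y' : V 6) (j0 : Fin 6), 0 < y' j0 ∧ (∀ j, |y' j| ≤ y' j0) ∧ y' j0 ^ 6 ≤ B ∧
      ∏ i, ell (θ i) y' = N ∧ ∃ γ' : Fin 6 → R, ∀ i, w i = ell (θ i) y' ^ 3 * γ' i := by
  obtain ⟨j0, hj0⟩ := Finite.exists_max fun j => |y j|
  have hne : y j0 ≠ 0 := by
    intro h
    refine hy (funext fun j => ?_)
    have h3 := hj0 j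
    rw [h, abs_zero] at h3
    exact abs_nonpos_iff.1 h3
  rcases lt_or_gt_of_ne hne with h | h
  · refine ⟨-y, j0, neg_pos.2 h, fun j => ?_, ?_, ?_, -γ, fun i => ?_⟩
    · rw [Pi.neg_apply, Pi.neg_apply, abs_neg, ← abs_of_neg h]
      exact hj0 j
    · rw [Pi.neg_apply, ← abs_of_neg h]
      exact h0 j0
    · rw [← h1]
      simp only [ell_neg, Fin.prod_univ_six]
      ring
    · rw [h2, ell_neg, Pi.neg_apply]
      ring
  · refine ⟨y, j0, h, fun j => ?_, ?_, h1, γ, h2⟩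
    · rw [← abs_of_pos h]
      exact hj0 j
    · rw [← abs_of_pos h]
      exact h0 j0

theorem extract (hN : NormS) (f : ℤ[X]) (hirr : Irreducible (f.map (Int.castRingHom ℚ)))
    (hd : f.natDegree = 6) : ∃ (L : Type) (_ : Field L) (_ : NumberField L) (θ : Fin 6 → 𝓞 L)
    (A0 : ℝ) (Cs D X1 : ℕ), Function.Injective θ ∧ 1 ≤ A0 ∧ ∀ (X P : ℕ) (R M : ℝ), X1 ≤ X →
    X ≤ P → 0 ≤ R → R ^ 6 = P → 0 ≤ M →
    (∀ (c : ℤ) (nn : V 6 → ℤ) (j0 : Fin 6) (S : Finset (V 6)), c ≠ 0 → |c| ≤ Cs →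
      Dat L θ A0 X R c nn j0 S → (S.card : ℝ) ≤ M) → ((pairs f 3 X P).card : ℝ) ≤ D * M := by
  classical
  have hfield := exists_field f hirr (by omega)
  rw [hd] at hfield
  obtain ⟨L, _, _, θ, G, a0, ha0, hGm, hGd, hGi, hθ, hGθ, hGe⟩ := hfield
  obtain ⟨Cs, hCs1, hsmall⟩ := exists_small L (by omega) G hGm hGd hGi θ hGθ 3 (by omega)
  obtain ⟨D1, hD1⟩ := loc_mult_n f hirr 3 (by omega)
  obtain ⟨X1, hX1⟩ := loc_mult_p f hirr (by omega) 3 (by omega)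
  refine ⟨L, inferInstance, inferInstance, θ, |(a0 : ℝ)| + 1, Cs,
    D1 * (Finset.Icc (-(Cs : ℤ)) Cs ×ˢ (univ : Finset (Fin 6))).card, max X1 Cs, hθ,
    by linarith only [abs_nonneg (a0 : ℝ)], ?_⟩
  intro X P R M hX hXP hR hRP hM hcount
  have hXX1 : X1 ≤ X := le_trans (le_max_left _ _) hX
  have hXCs : Cs ≤ X := le_trans (le_max_right _ _) hX
  have hmem : ∀ z ∈ pairs f 3 X P, 1 ≤ z.1 ∧ z.1 ≤ X ∧ P < z.2 ∧ z.2 ≤ 2 * P ∧ z.2.Prime ∧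
      (z.2 : ℤ) ^ 3 ∣ f.eval (z.1 : ℤ) := by
    intro z hz
    rw [pairs, Finset.mem_filter, Finset.mem_product, Finset.mem_Icc, Finset.mem_Ioc] at hz
    exact ⟨hz.1.1.1, hz.1.1.2, hz.1.2.1, hz.1.2.2, hz.2.1, hz.2.2⟩
  obtain ⟨Pr, hPr⟩ : ∃ Pr, Pr = (pairs f 3 X P).image Prod.snd := ⟨_, rfl⟩
  have h1 : (pairs f 3 X P).card ≤ D1 * Pr.card := by
    rw [hPr]
    apply Finset.card_le_mul_card_image
    intro p hp
    obtain ⟨z0, hz0, rfl⟩ := Finset.mem_image.1 hp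
    refine le_trans ?_ (hD1 X P z0.2 hXP (hmem z0 hz0).2.2.1 (hmem z0 hz0).2.2.2.2.1)
    apply Finset.card_le_card_of_injOn Prod.fst
    · intro z hz
      have hz' := Finset.mem_filter.1 (Finset.mem_coe.1 hz)
      have hz3 := hmem z hz'.1
      rw [Finset.mem_coe, Finset.mem_filter, Finset.mem_Icc]
      rw [hz'.2] at hz3
      exact ⟨⟨hz3.1, hz3.2.1⟩, hz3.2.2.2.2.2⟩
    · intro z hz w hw hzw
      exact Prod.ext hzw ((Finset.mem_filter.1 (Finset.mem_coe.1 hz)).2.trans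
        (Finset.mem_filter.1 (Finset.mem_coe.1 hw)).2.symm)
  have hdata : ∀ p ∈ Pr, ∃ (n : ℕ) (c : ℤ) (y : V 6) (j0 : Fin 6), (n, p) ∈ pairs f 3 X P ∧
      c ≠ 0 ∧ |c| ≤ Cs ∧ 0 < y j0 ∧ (∀ j, |y j| ≤ y j0) ∧ y j0 ^ 6 ≤ p ∧
      ∏ i, ell (θ i) y = (((p : ℤ) * c : ℤ) : 𝓞 L) ∧ ∃ γ : Fin 6 → 𝓞 L, ∀ i,
        (c : 𝓞 L) ^ 3 * (((a0 * n : ℤ) : 𝓞 L) - θ i) = ell (θ i) y ^ 3 * γ i := by
    intro p hp
    rw [hPr] at hp
    obtain ⟨z, hz, rfl⟩ := Finset.mem_image.1 hp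
    obtain ⟨-, -, m3, -, m5, m6⟩ := hmem z hz
    obtain ⟨y, c, γ, g1, g2, g3, g4, g5, g6⟩ := hsmall z.2 (a0 * z.1) m5 (by omega) (by
      rw [hGe]
      exact m6.mul_left _)
    obtain ⟨y', j0, k⟩ := normalise θ y g1 _ _ γ z.2 g2 g5 g6
    exact ⟨z.1, c, y', j0, hz, g3, g4, k⟩
  choose! n c y j0 d1 d2 d3 d4 d5 d6 d7 d8 using hdata
  have hcls : ∀ κ : ℤ × Fin 6, ((Pr.filter fun p => (c p, j0 p) = κ).card : ℝ) ≤ M := by
    intro κ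
    obtain ⟨Q, hQ⟩ : ∃ Q, Q = Pr.filter fun p => (c p, j0 p) = κ := ⟨_, rfl⟩
    rw [← hQ]
    have hQm : ∀ p ∈ Q, p ∈ Pr ∧ c p = κ.1 ∧ j0 p = κ.2 := by
      intro p hp
      rw [hQ, mem_filter] at hp
      exact ⟨hp.1, congrArg Prod.fst hp.2, congrArg Prod.snd hp.2⟩
    rcases Q.eq_empty_or_nonempty with h0 | ⟨p0, hp0⟩
    · rw [h0]
      simpa using hM
    have hc0 : κ.1 ≠ 0 := (hQm p0 hp0).2.1 ▸ d2 p0 (hQm p0 hp0).1
    have hinj : Set.InjOn y Q := by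
      intro p hp p' hp' hpp
      have e1 := d7 p (hQm p hp).1
      rw [hpp, d7 p' (hQm p' hp').1, (hQm p hp).2.1, (hQm p' hp').2.1] at e1
      have e3 : (p' : ℤ) * κ.1 = (p : ℤ) * κ.1 := by exact_mod_cast e1
      exact_mod_cast (mul_right_cancel₀ hc0 e3).symm
    rw [← Finset.card_image_of_injOn hinj]
    have hg : ∀ w ∈ Q.image y, ∃ p ∈ Q, y p = w := fun w hw => Finset.mem_image.1 hw
    choose! g hg1 hg2 using hg
    have hg3 : ∀ w ∈ Q.image y, g w ∈ Pr := fun w hw => (hQm _ (hg1 w hw)).1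
    have hg4 : ∀ w ∈ Q.image y, ∏ i, ell (θ i) w = (((g w : ℤ) * κ.1 : ℤ) : 𝓞 L) := by
      intro w hw
      have e1 := d7 _ (hg3 w hw)
      rwa [hg2 w hw, (hQm _ (hg1 w hw)).2.1] at e1
    refine hcount κ.1 (fun w => a0 * n (g w)) κ.2 (Q.image y) hc0
      ((hQm p0 hp0).2.1 ▸ d3 p0 (hQm p0 hp0).1) ⟨fun w hw => ?_, fun w hw => ?_, fun w hw => ?_,
        fun w hw => ⟨_, hg4 w hw, ?_⟩, fun w hw => ?_, fun m => ?_, fun w hw w' hw' hne => ?_⟩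
    · have e1 : (n (g w) : ℝ) ≤ X := by exact_mod_cast (hmem _ (d1 _ (hg3 w hw))).2.1
      push_cast
      rw [abs_mul, Nat.abs_cast]
      exact mul_le_mul (by linarith only []) e1 (Nat.cast_nonneg _) (by positivity)
    · have e1 := d6 _ (hg3 w hw)
      rw [hg2 w hw, (hQm _ (hg1 w hw)).2.2] at e1
      have e2 : (w κ.2 : ℝ) ^ 6 ≤ g w := by exact_mod_cast e1
      have e3 : (g w : ℝ) ≤ 2 * P := by exact_mod_cast (hmem _ (d1 _ (hg3 w hw))).2.2.2.1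
      refine le_of_pow_le_pow_left₀ (n := 6) (by norm_num) (by positivity) ?_
      rw [mul_pow, hRP]
      linarith only [e2, e3, (Nat.cast_nonneg P : (0 : ℝ) ≤ P)]
    · have e1 := d4 _ (hg3 w hw)
      have e2 := d5 _ (hg3 w hw)
      rw [hg2 w hw, (hQm _ (hg1 w hw)).2.2] at e1 e2
      exact ⟨e1, e2⟩
    · have e1 : (P : ℝ) ≤ g w := by exact_mod_cast (hmem _ (d1 _ (hg3 w hw))).2.2.1.le
      have e2 : (1 : ℝ) ≤ |(κ.1 : ℝ)| := by exact_mod_cast Int.one_le_abs hc0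
      push_cast
      rw [hRP, abs_mul, Nat.abs_cast]
      exact e1.trans (le_mul_of_one_le_right (Nat.cast_nonneg _) e2)
    · have e1 := d8 _ (hg3 w hw)
      rwa [hg2 w hw, (hQm _ (hg1 w hw)).2.1] at e1
    · rcases ((Q.image y).filter fun w => a0 * (n (g w) : ℤ) = m).eq_empty_or_nonempty with
        h0 | ⟨w1, hw1⟩
      · rw [h0]
        simp
      rw [mem_filter] at hw1
      refine le_trans ?_ ((hX1 X P hXX1 hXP (n (g w1))).trans hd.le)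
      apply Finset.card_le_card_of_injOn fun w => (n (g w), g w)
      · intro w hw
        have hw' := Finset.mem_filter.1 (Finset.mem_coe.1 hw)
        rw [Finset.mem_coe, Finset.mem_filter]
        refine ⟨d1 _ (hg3 w hw'.1), ?_⟩
        exact_mod_cast mul_left_cancel₀ ha0 (hw'.2.trans hw1.2.symm)
      · intro w hw w' hw' hww
        have e1 : g w = g w' := congrArg Prod.snd hww
        rw [← hg2 w (Finset.mem_filter.1 (Finset.mem_coe.1 hw)).1,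
          ← hg2 w' (Finset.mem_filter.1 (Finset.mem_coe.1 hw')).1, e1]
    · refine hN L 6 G hGm hGd hGi θ hθ hGθ w w' (g w) (g w') κ.1
        (hmem _ (d1 _ (hg3 w hw))).2.2.2.2.1 (hmem _ (d1 _ (hg3 w' hw'))).2.2.2.2.1 ?_ hc0
        (hg4 w hw) (hg4 w' hw')
      intro e1
      exact hne (by rw [← hg2 w hw, ← hg2 w' hw', e1])
  have h2 : (Pr.card : ℝ) ≤ (Finset.Icc (-(Cs : ℤ)) Cs ×ˢ (univ : Finset (Fin 6))).card * M := by
    have h3 := Finset.card_eq_sum_card_fiberwise (f := fun p => (c p, j0 p)) (s := Pr)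
      (t := Finset.Icc (-(Cs : ℤ)) Cs ×ˢ (univ : Finset (Fin 6))) fun p hp => by
        rw [Finset.mem_coe, mem_product, mem_Icc]
        exact ⟨abs_le.1 (d3 p hp), mem_univ _⟩
    rw [h3, Nat.cast_sum, ← nsmul_eq_mul, ← sum_const]
    exact sum_le_sum fun κ _ => hcls κ
  have h4 : ((pairs f 3 X P).card : ℝ) ≤ D1 * Pr.card := by exact_mod_cast h1
  rw [Nat.cast_mul, mul_assoc]
  exact h4.trans (mul_le_mul_of_nonneg_left h2 (Nat.cast_nonneg _))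

/-- one row -/
theorem fin_row (H : Pk) (f : ℤ[X]) (hirr : Irreducible (f.map (Int.castRingHom ℚ)))
    (hd : f.natDegree = 6) (r : Row) (h : rowOK r = true) :
    FinP f 3 (Set.Icc (2 * (r.k0 : ℝ)) (2 * (r.k1 : ℝ))) := by
  obtain ⟨L, _, _, θ, A0, Cs, D, X1, hθ, hA0, hex⟩ := extract H.hN f hirr hd
  obtain ⟨C, Y1, hC, har⟩ := arith H L θ hθ A0 Cs hA0 r h
  obtain ⟨X2, hX2⟩ := exists_big Y1 (1 / 3) (by norm_num)
  refine ⟨1 / 3000, D * C + 1, by norm_num, by positivity, max (max X1 2) ⌈X2⌉₊, ?_⟩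
  intro X P hX hXP hm
  have h1 : X1 ≤ X := le_trans (le_trans (le_max_left _ _) (le_max_left _ _)) hX
  have h2 : 2 ≤ X := le_trans (le_trans (le_max_right _ _) (le_max_left _ _)) hX
  have h3 : X2 ≤ X := Nat.ceil_le.1 (le_trans (le_max_right _ _) hX)
  have hXr : (1 : ℝ) < X := by exact_mod_cast (show 1 < X by omega)
  have hX0 : (0 : ℝ) < X := by linarith only [hXr]
  have hPr : (1 : ℝ) < P := by exact_mod_cast (show 1 < P by omega)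
  have hP0 : (0 : ℝ) < P := by linarith only [hPr]
  have hl : 0 < Real.log X := Real.log_pos hXr
  rw [Set.mem_Icc, le_div_iff₀ hl, div_le_iff₀ hl] at hm
  have hY3 : ((X : ℝ) ^ (1 / 3 : ℝ)) ^ 3 = X := by
    rw [← Real.rpow_natCast, ← Real.rpow_mul hX0.le]
    norm_num
  have hR6 : ((P : ℝ) ^ (1 / 6 : ℝ)) ^ 6 = P := by
    rw [← Real.rpow_natCast, ← Real.rpow_mul hP0.le]
    norm_num
  have hlog : ∀ a : ℝ, ((X : ℝ) ^ (1 / 3 : ℝ)) ^ a = Real.exp (2 * a * Real.log X / 6) := by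
    intro a
    rw [← Real.rpow_mul hX0.le, Real.rpow_def_of_pos hX0]
    congr 1
    ring
  have hlogP : (P : ℝ) ^ (1 / 6 : ℝ) = Real.exp (Real.log P / 6) := by
    rw [Real.rpow_def_of_pos hP0]
    congr 1
    ring
  have h4 := hex X P ((P : ℝ) ^ (1 / 6 : ℝ)) (C * ((X : ℝ) ^ (1 / 3 : ℝ)) ^ (2999 / 1000 : ℝ)) h1
    hXP (by positivity) hR6 (by positivity) fun c nn j0 S hc hcs hdat =>
      har _ ((P : ℝ) ^ (1 / 6 : ℝ)) c nn j0 S (hX2 X h3).le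
        (Real.one_le_rpow hXr.le (by norm_num))
        (by rw [hlog, hlogP]; exact Real.exp_le_exp.2 (by linarith only [hm.1]))
        (by rw [hlog, hlogP]; exact Real.exp_le_exp.2 (by linarith only [hm.2]))
        (Real.one_le_rpow hPr.le (by norm_num)) hc hcs (by rw [hY3]; exact hdat)
  rw [← Real.rpow_mul hX0.le, ← mul_assoc] at h4
  refine h4.trans ?_
  have e : (1 / 3 : ℝ) * (2999 / 1000) = 1 - 1 / 3000 := by norm_num
  rw [e]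
  exact mul_le_mul_of_nonneg_right (by linarith only []) (by positivity)

end Vale.Agent.N018.H.M
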