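import Vale.Agent.N018.H.Def3
import Vale.Agent.N018.H.Arith

/-! # P018, general pairs: the points attached to the pairs. -/

namespace Vale.Agent.N018.H.M

open Finset Polynomial NumberField Vale.Agent.P018 Vale.Agent.P018.K Vale.Agent.N018.H

theorem normaliseG {R : Type*} [CommRing R] {d : ℕ} (k : ℕ) (θ : Fin d → R) (y : V d) (hy : y ≠ 0)
    (p c : ℤ) (w γ : Fin d → R) (B : ℕ) (h0 : ∀ j, |y j| ^ d ≤ B)
    (h1 : ∏ i, ell (θ i) y = ((p * c : ℤ) : R))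
    (h2 : ∀ i, (c : R) ^ k * w i = ell (θ i) y ^ k * γ i) :
    ∃ (c' : ℤ) (y' : V d) (j0 : Fin d), |c'| = |c| ∧ 0 < y' j0 ∧ (∀ j, |y' j| ≤ y' j0) ∧
      y' j0 ^ d ≤ B ∧ ∏ i, ell (θ i) y' = ((p * c' : ℤ) : R) ∧
      ∃ γ' : Fin d → R, ∀ i, (c' : R) ^ k * w i = ell (θ i) y' ^ k * γ' i := by
  obtain ⟨j1, -⟩ := Function.ne_iff.1 hy
  have : Nonempty (Fin d) := ⟨j1⟩
  obtain ⟨j0, hj0⟩ := Finite.exists_max fun j => |y j|
  have hne : y j0 ≠ 0 := by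
    intro h
    refine hy (funext fun j => ?_)
    have h3 := hj0 j
    rw [h, abs_zero] at h3
    exact abs_nonpos_iff.1 h3
  rcases lt_or_gt_of_ne hne with h | h
  · refine ⟨(-1) ^ d * c, -y, j0, by simp [abs_mul], neg_pos.2 h, fun j => ?_, ?_, ?_,
      fun i => (-1) ^ (d * k + k) * γ i, fun i => ?_⟩
    · rw [Pi.neg_apply, Pi.neg_apply, abs_neg, ← abs_of_neg h]
      exact hj0 j
    · rw [Pi.neg_apply, ← abs_of_neg h]
      exact h0 j0
    · simp only [ell_neg]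
      rw [Finset.prod_neg, h1, Finset.card_univ, Fintype.card_fin]
      push_cast
      ring
    · have e : ((-1 : R) ^ k) * (-1) ^ k = 1 := by rw [← mul_pow]; simp
      rw [ell_neg, neg_pow (ell (θ i) y)]
      push_cast
      rw [mul_pow, ← pow_mul, pow_add]
      linear_combination (-1) ^ (d * k) * h2 i -
        (-1) ^ (d * k) * ell (θ i) y ^ k * γ i * e
  · refine ⟨c, y, j0, rfl, h, fun j => ?_, ?_, h1, γ, h2⟩
    · rw [← abs_of_pos h]
      exact hj0 j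
    · rw [← abs_of_pos h]
      exact h0 j0

theorem extractG (hN : NormS) : ExtractG := by
  intro f d k hirr hd hd2 hk
  classical
  have : Nonempty (Fin d) := ⟨⟨0, by omega⟩⟩
  have hfield := exists_field f hirr (by omega)
  rw [hd] at hfield
  obtain ⟨L, _, _, θ, G, a0, ha0, hGm, hGd, hGi, hθ, hGθ, hGe⟩ := hfield
  obtain ⟨Cs, hCs1, hsmall⟩ := exists_small L (by omega) G hGm hGd hGi θ hGθ k hk
  obtain ⟨D1, hD1⟩ := loc_mult_n f hirr k hk
  obtain ⟨X1, hX1⟩ := loc_mult_p f hirr (by omega) k hk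
  refine ⟨L, inferInstance, inferInstance, θ, |(a0 : ℝ)| + 1, Cs,
    D1 * (Finset.Icc (-(Cs : ℤ)) Cs ×ˢ (univ : Finset (Fin d))).card, max X1 Cs, hθ,
    by linarith only [abs_nonneg (a0 : ℝ)], ?_⟩
  intro X P R M hX hXP hR hRP hM hcount
  have hXX1 : X1 ≤ X := le_trans (le_max_left _ _) hX
  have hXCs : Cs ≤ X := le_trans (le_max_right _ _) hX
  have hmem : ∀ z ∈ pairs f k X P, 1 ≤ z.1 ∧ z.1 ≤ X ∧ P < z.2 ∧ z.2 ≤ 2 * P ∧ z.2.Prime ∧
      (z.2 : ℤ) ^ k ∣ f.eval (z.1 : ℤ) := by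
    intro z hz
    rw [pairs, Finset.mem_filter, Finset.mem_product, Finset.mem_Icc, Finset.mem_Ioc] at hz
    exact ⟨hz.1.1.1, hz.1.1.2, hz.1.2.1, hz.1.2.2, hz.2.1, hz.2.2⟩
  obtain ⟨Pr, hPr⟩ : ∃ Pr, Pr = (pairs f k X P).image Prod.snd := ⟨_, rfl⟩
  have h1 : (pairs f k X P).card ≤ D1 * Pr.card := by
    rw [hPr]
    apply Finset.card_le_mul_card_image
    intro p hp
    obtain ⟨z0, hz0, rfl⟩ := Finset.mem_image.1 hp
    refine le_trans ?_ (hD1 X P z0.2 hXP (hmem z0 hz0).2.2.1 (hmem z0 hz0).2.2.2.2.1)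
    apply Finset.card_le_card_of_injOn Prod.fst
    · intro z hz
      have hz' := Finset.mem_filter.1 (Finset.mem_coe.1 hz)
      have hz3 := hmem z hz'.1
      rw [Finset.mem_coe, Finset.mem_filter, Finset.mem_Icc]
      rw [hz'.2] at hz3
      exact ⟨⟨hz3.1, hz3.2.1⟩, hz3.2.2.2.2.2⟩
    · intro z hz w hw hzw
      exact Prod.ext hzw ((Finset.mem_filter.1 (Finset.mem_coe.1 hz)).2.trans
        (Finset.mem_filter.1 (Finset.mem_coe.1 hw)).2.symm)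
  have hdata : ∀ p ∈ Pr, ∃ (n : ℕ) (c : ℤ) (y : V d) (j0 : Fin d), (n, p) ∈ pairs f k X P ∧
      c ≠ 0 ∧ |c| ≤ Cs ∧ 0 < y j0 ∧ (∀ j, |y j| ≤ y j0) ∧ y j0 ^ d ≤ p ∧
      ∏ i, ell (θ i) y = (((p : ℤ) * c : ℤ) : 𝓞 L) ∧ ∃ γ : Fin d → 𝓞 L, ∀ i,
        (c : 𝓞 L) ^ k * (((a0 * n : ℤ) : 𝓞 L) - θ i) = ell (θ i) y ^ k * γ i := by
    intro p hp
    rw [hPr] at hp
    obtain ⟨z, hz, rfl⟩ := Finset.mem_image.1 hp
    obtain ⟨-, -, m3, -, m5, m6⟩ := hmem z hz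
    obtain ⟨y, c, γ, g1, g2, g3, g4, g5, g6⟩ := hsmall z.2 (a0 * z.1) m5 (by omega) (by
      rw [hGe]
      exact m6.mul_left _)
    obtain ⟨c', y', j0, k0, k1⟩ := normaliseG k θ y g1 _ c _ γ z.2 g2 g5 g6
    exact ⟨z.1, c', y', j0, hz, fun h => g3 (by rwa [h, abs_zero, eq_comm, abs_eq_zero] at k0),
      k0 ▸ g4, k1⟩
  choose! n c y j0 d1 d2 d3 d4 d5 d6 d7 d8 using hdata
  have hcls : ∀ κ : ℤ × Fin d, ((Pr.filter fun p => (c p, j0 p) = κ).card : ℝ) ≤ M := by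
    intro κ
    obtain ⟨Q, hQ⟩ : ∃ Q, Q = Pr.filter fun p => (c p, j0 p) = κ := ⟨_, rfl⟩
    rw [← hQ]
    have hQm : ∀ p ∈ Q, p ∈ Pr ∧ c p = κ.1 ∧ j0 p = κ.2 := by
      intro p hp
      rw [hQ, mem_filter] at hp
      exact ⟨hp.1, congrArg Prod.fst hp.2, congrArg Prod.snd hp.2⟩
    rcases Q.eq_empty_or_nonempty with h0 | ⟨p0, hp0⟩
    · rw [h0]
      simpa using hM
    have hc0 : κ.1 ≠ 0 := (hQm p0 hp0).2.1 ▸ d2 p0 (hQm p0 hp0).1
    have hinj : Set.InjOn y Q := by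
      intro p hp p' hp' hpp
      have e1 := d7 p (hQm p hp).1
      rw [hpp, d7 p' (hQm p' hp').1, (hQm p hp).2.1, (hQm p' hp').2.1] at e1
      have e3 : (p' : ℤ) * κ.1 = (p : ℤ) * κ.1 := by exact_mod_cast e1
      exact_mod_cast (mul_right_cancel₀ hc0 e3).symm
    rw [← Finset.card_image_of_injOn hinj]
    have hg : ∀ w ∈ Q.image y, ∃ p ∈ Q, y p = w := fun w hw => Finset.mem_image.1 hw
    choose! g hg1 hg2 using hg
    have hg3 : ∀ w ∈ Q.image y, g w ∈ Pr := fun w hw => (hQm _ (hg1 w hw)).1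
    have hg4 : ∀ w ∈ Q.image y, ∏ i, ell (θ i) w = (((g w : ℤ) * κ.1 : ℤ) : 𝓞 L) := by
      intro w hw
      have e1 := d7 _ (hg3 w hw)
      rwa [hg2 w hw, (hQm _ (hg1 w hw)).2.1] at e1
    refine hcount κ.1 (fun w => a0 * n (g w)) κ.2 (Q.image y) hc0
      ((hQm p0 hp0).2.1 ▸ d3 p0 (hQm p0 hp0).1) ⟨fun w hw => ?_, fun w hw => ?_, fun w hw => ?_,
        fun w hw => ⟨_, hg4 w hw, ?_⟩, fun w hw => ?_, fun m => ?_, fun w hw w' hw' hne => ?_⟩
    · have e1 : (n (g w) : ℝ) ≤ X := by exact_mod_cast (hmem _ (d1 _ (hg3 w hw))).2.1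
      push_cast
      rw [abs_mul, Nat.abs_cast]
      exact mul_le_mul (by linarith only []) e1 (Nat.cast_nonneg _) (by positivity)
    · have e1 := d6 _ (hg3 w hw)
      rw [hg2 w hw, (hQm _ (hg1 w hw)).2.2] at e1
      have e2 : (w κ.2 : ℝ) ^ d ≤ g w := by exact_mod_cast e1
      have e3 : (g w : ℝ) ≤ 2 * P := by exact_mod_cast (hmem _ (d1 _ (hg3 w hw))).2.2.2.1
      refine le_of_pow_le_pow_left₀ (n := d) (by omega) (by positivity) ?_
      rw [mul_pow, hRP]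
      exact e2.trans (e3.trans (mul_le_mul_of_nonneg_right
        (le_self_pow₀ (by norm_num) (by omega)) (Nat.cast_nonneg _)))
    · have e1 := d4 _ (hg3 w hw)
      have e2 := d5 _ (hg3 w hw)
      rw [hg2 w hw, (hQm _ (hg1 w hw)).2.2] at e1 e2
      exact ⟨e1, e2⟩
    · have e1 : (P : ℝ) ≤ g w := by exact_mod_cast (hmem _ (d1 _ (hg3 w hw))).2.2.1.le
      have e2 : (1 : ℝ) ≤ |(κ.1 : ℝ)| := by exact_mod_cast Int.one_le_abs hc0
      push_cast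
      rw [hRP, abs_mul, Nat.abs_cast]
      exact e1.trans (le_mul_of_one_le_right (Nat.cast_nonneg _) e2)
    · have e1 := d8 _ (hg3 w hw)
      rwa [hg2 w hw, (hQm _ (hg1 w hw)).2.1] at e1
    · rcases ((Q.image y).filter fun w => a0 * (n (g w) : ℤ) = m).eq_empty_or_nonempty with
        h0 | ⟨w1, hw1⟩
      · rw [h0]
        simp
      rw [mem_filter] at hw1
      refine le_trans ?_ ((hX1 X P hXX1 hXP (n (g w1))).trans hd.le)
      apply Finset.card_le_card_of_injOn fun w => (n (g w), g w)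
      · intro w hw
        have hw' := Finset.mem_filter.1 (Finset.mem_coe.1 hw)
        rw [Finset.mem_coe, Finset.mem_filter]
        refine ⟨d1 _ (hg3 w hw'.1), ?_⟩
        exact_mod_cast mul_left_cancel₀ ha0 (hw'.2.trans hw1.2.symm)
      · intro w hw w' hw' hww
        have e1 : g w = g w' := congrArg Prod.snd hww
        rw [← hg2 w (Finset.mem_filter.1 (Finset.mem_coe.1 hw)).1,
          ← hg2 w' (Finset.mem_filter.1 (Finset.mem_coe.1 hw')).1, e1]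
    · refine hN L d G hGm hGd hGi θ hθ hGθ w w' (g w) (g w') κ.1
        (hmem _ (d1 _ (hg3 w hw))).2.2.2.2.1 (hmem _ (d1 _ (hg3 w' hw'))).2.2.2.2.1 ?_ hc0
        (hg4 w hw) (hg4 w' hw')
      intro e1
      exact hne (by rw [← hg2 w hw, ← hg2 w' hw', e1])
  have h2 : (Pr.card : ℝ) ≤ (Finset.Icc (-(Cs : ℤ)) Cs ×ˢ (univ : Finset (Fin d))).card * M := by
    have h3 := Finset.card_eq_sum_card_fiberwise (f := fun p => (c p, j0 p)) (s := Pr)
      (t := Finset.Icc (-(Cs : ℤ)) Cs ×ˢ (univ : Finset (Fin d))) fun p hp => by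
        rw [Finset.mem_coe, mem_product, mem_Icc]
        exact ⟨abs_le.1 (d3 p hp), mem_univ _⟩
    rw [h3, Nat.cast_sum, ← nsmul_eq_mul, ← sum_const]
    exact sum_le_sum fun κ _ => hcls κ
  have h4 : ((pairs f k X P).card : ℝ) ≤ D1 * Pr.card := by exact_mod_cast h1
  rw [Nat.cast_mul, mul_assoc]
  exact h4.trans (mul_le_mul_of_nonneg_left h2 (Nat.cast_nonneg _))

end Vale.Agent.N018.H.M
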