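import Vale.Agent.N018.H.Def3
import Vale.Agent.N018.H.Fam

/-! # P018, general `k`: the criterion from the numerical check. -/

namespace Vale.Agent.N018.H

open Finset Vale.Agent.P018 Vale.Agent.P018.K

namespace J

theorem lev_memG {k r D y : ℕ} (hk : 1 ≤ k) {e : Fin r → ℤ} (he : e ∈ lev r (k * D) (k * y)) :
    needs k e ≤ D + r + y ∧ ∑ i, e i = -((k * D : ℕ) : ℤ) := by
  obtain ⟨x, hx, rfl⟩ := mem_image.1 he
  obtain ⟨h1, h2, h3, -, h5, h6⟩ := idx_mem hx
  have hc := card_le_univ x.1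
  rw [Fintype.card_fin] at hc
  have h0 : k * (D + y) ≤ k * (D + r + y - x.1.card) := Nat.mul_le_mul_left k (by omega)
  rw [Nat.mul_add] at h0
  refine ⟨family_e_needs k hk _ _ _ _ (by omega) (by omega), ?_⟩
  have h7 := family_e_sum x.1 x.2.2.1 x.2.2.2 h6
  have h8 : ∑ i, x.2.2.2 i = x.2.1 + x.1.card - k * D := by
    rw [← h5]
    exact (sum_subset (subset_univ _) fun i _ hi => h6 i hi).symm
  have h9 : ∑ i, x.2.2.2 i + k * D = ∑ i ∈ x.1, x.2.2.1 i + x.1.card := by omega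
  have h10 : ((∑ i, x.2.2.2 i + k * D : ℕ) : ℝ) = ((∑ i ∈ x.1, x.2.2.1 i + x.1.card : ℕ) : ℝ) := by
    rw [h9]
  push_cast at h10
  have h11 : ((∑ i, family_e x.1 x.2.2.1 x.2.2.2 i : ℤ) : ℝ) = ((-((k * D : ℕ) : ℤ) : ℤ) : ℝ) := by
    push_cast
    linarith
  exact_mod_cast h11

/-- one term of the lower bound -/
theorem term_leG (k K Y j m : ℕ) :
    ∑ i ∈ range (j + 1), (j.choose i : ℝ) * (K : ℝ) ^ (j - i) * (k : ℝ) ^ (i + m + 1) *
      (Y : ℝ) ^ (i + m + 2) / (((i + m : ℕ) + 1) * ((i + m : ℕ) + 2)) ≤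
    ∑ y ∈ range (Y + 1), ∑ x ∈ range (k * y + 1), ((x : ℝ) + K) ^ j * (x : ℝ) ^ m := by
  have e : ∀ x : ℝ, (x + K) ^ j * x ^ m =
      ∑ i ∈ range (j + 1), (j.choose i : ℝ) * (K : ℝ) ^ (j - i) * x ^ (i + m) := fun x => by
    rw [add_pow, sum_mul]
    exact sum_congr rfl fun i _ => by ring
  simp only [e]
  have e2 : ∀ y : ℕ, ∑ x ∈ range (k * y + 1), ∑ i ∈ range (j + 1),
      (j.choose i : ℝ) * (K : ℝ) ^ (j - i) * (x : ℝ) ^ (i + m) = ∑ i ∈ range (j + 1),
      (j.choose i : ℝ) * (K : ℝ) ^ (j - i) * ∑ x ∈ range (k * y + 1), (x : ℝ) ^ (i + m) :=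
    fun y => by rw [sum_comm]; simp only [mul_sum]
  simp only [e2]
  rw [sum_comm]
  refine sum_le_sum fun i _ => ?_
  rw [← mul_sum]
  have h1 : ∑ y ∈ range (Y + 1), (k : ℝ) ^ (i + m + 1) / (((i + m : ℕ) : ℝ) + 1) * (y : ℝ) ^ (i + m + 1) ≤
      ∑ y ∈ range (Y + 1), ∑ x ∈ range (k * y + 1), (x : ℝ) ^ (i + m) :=
    sum_le_sum fun y _ => le_trans (le_of_eq (by rw [Nat.cast_mul, mul_pow]; ring))
      (pow_sum (i + m) (k * y))
  rw [← mul_sum] at h1
  have h2 := pow_sum (i + m + 1) Y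
  have h3 := (mul_le_mul_of_nonneg_left h2
    (show (0 : ℝ) ≤ (k : ℝ) ^ (i + m + 1) / (((i + m : ℕ) : ℝ) + 1) by positivity)).trans h1
  refine le_trans (le_of_eq ?_) (mul_le_mul_of_nonneg_left h3 (by positivity))
  push_cast
  field_simp
  ring

theorem nlow_leG (k s D Tn : ℕ) (hK : s + 1 ≤ k * D) : ((NlowG k s D Tn : ℚ) : ℝ) ≤
    ∑ y ∈ range (Tn - D - (s + 1) + 1), ((idx (s + 1) (k * D) (k * y)).card : ℝ) := by
  refine le_trans ?_ (sum_le_sum fun y _ => idx_card s (k * D) (k * y) hK)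
  unfold NlowG
  simp only [list_sum]
  generalize Tn - D - (s + 1) = Y
  generalize k * D = K
  have e : ∀ y : ℕ, ∑ l ∈ range (s + 2), ((s + 1).choose l : ℝ) * g s K (k * y) l =
      ((K - s : ℕ) : ℝ) ^ s / s.factorial + ∑ j ∈ range s, ((s + 1).choose (j + 1) : ℝ) /
        (j.factorial * (s - 1 - j).factorial) *
        ∑ x ∈ range (k * y + 1), ((x : ℝ) + K) ^ j * (x : ℝ) ^ (s - 1 - j) := fun y => by
    rw [sum_range_succ, sum_range_succ', add_comm]
    have a1 : g s K (k * y) (s + 1) = ((K - s : ℕ) : ℝ) ^ s / s.factorial := if_pos rfl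
    have a2 : g s K (k * y) 0 = 0 := by
      unfold g
      rw [if_neg (by omega), if_pos rfl]
    rw [a1, a2, Nat.choose_self, Nat.cast_one, one_mul, mul_zero, add_zero]
    congr 1
    refine sum_congr rfl fun j hj => ?_
    rw [mem_range] at hj
    unfold g
    rw [if_neg (by omega), if_neg (by omega), Nat.add_sub_cancel,
      show s - (j + 1) = s - 1 - j by omega, ← sum_div]
    ring
  simp only [e]
  rw [sum_add_distrib, sum_const, card_range, nsmul_eq_mul, sum_comm]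
  push_cast
  refine add_le_add (le_of_eq (by ring)) (sum_le_sum fun j _ => ?_)
  rw [← mul_sum]
  refine le_trans (le_of_eq ?_) (mul_le_mul_of_nonneg_left (term_leG k K Y j (s - 1 - j))
    (by positivity))
  rw [mul_sum]
  refine sum_congr rfl fun i _ => ?_
  push_cast
  field_simp

end J

theorem famG : FamG := by
  intro k s κ0 β D Tn Λ hk _ h
  have hk0 : (0 : ℝ) < k := by exact_mod_cast hk
  simp only [critOKG, Bool.and_eq_true, decide_eq_true_eq] at h
  obtain ⟨⟨⟨⟨⟨h1, h2⟩, h3⟩, h4⟩, h5⟩, h6⟩ := h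
  have hb : (0 : ℝ) < (β : ℝ) / k := by
    have : (0 : ℝ) < β := by exact_mod_cast h1
    positivity
  have h4' : (Λ : ℝ) ≤ Tn := by exact_mod_cast h4
  have h5' : (Λ : ℝ) < κ0 * D := by exact_mod_cast h5
  have h6' : ((Tn : ℝ) - Λ + s * (β / k) + 1) ^ (s + 2) <
      (s + 2).factorial * (β / k) ^ s * ((NlowG k s D Tn : ℚ) : ℝ) * (κ0 * D - Λ) := by
    exact_mod_cast h6
  refine ⟨Tn, k * D, Λ, _, ((range (Tn - D - (s + 1) + 1)).sigma
    fun y => J.lev (s + 1) (k * D) (k * y)).image fun x => (D + (s + 1) + x.1, x.2), ?_,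
    J.upper' s Tn (β / k) Λ hb h4', ?_⟩
  · intro p hp
    obtain ⟨x, hx, rfl⟩ := mem_image.1 hp
    rw [mem_sigma, mem_range] at hx
    exact ⟨by have := hx.1; simp only; omega, J.lev_memG hk hx.2⟩
  · rw [card_image_of_injOn, card_sigma, Nat.cast_sum]
    · simp only [J.lev_card]
      have h7 := J.nlow_leG k s D Tn h3
      have e : (κ0 : ℝ) / k * ((k * D : ℕ) : ℝ) - Λ = κ0 * D - Λ := by push_cast; field_simp
      rw [e, div_lt_iff₀ (by positivity)]
      refine h6'.trans_le ?_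
      have h8 := mul_le_mul_of_nonneg_right h7 (sub_pos.2 h5').le
      have h9 := mul_le_mul_of_nonneg_right h8
        (show (0 : ℝ) ≤ (s + 2).factorial * (β / k) ^ s by positivity)
      exact le_trans (le_of_eq (by ring)) h9
    · rintro ⟨y, e⟩ _ ⟨y', e'⟩ _ h
      simp only [Prod.mk.injEq] at h
      obtain ⟨a, rfl⟩ := h
      have : y = y' := by omega
      rw [this]

end Vale.Agent.N018.H
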