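import Vale.Agent.N018.H.Def3
import Vale.Agent.N018.H.Rel

/-! # P018, general `(d, k)`: narrow sets of points are thin. -/

namespace Vale.Agent.N018.H

open Finset Polynomial NumberField Vale.Agent.P018 Vale.Agent.P018.K

namespace I

theorem det_cxG {k : ℕ} (hk : 1 ≤ k) {s : ℕ} {ι : Type} [Fintype ι] [DecidableEq ι] (t : ι → ℕ)
    (e : ι → Fin (s + 1) → ℤ) (E Kt K T : ℕ) (hE : ∀ f i, (e f i).natAbs ≤ E)
    (hK : ∀ f, ∑ i, (e f i + E).toNat = Kt) (hKK : Kt + K = (s + 1) * E)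
    (ht : ∀ f, needs k (e f) ≤ t f) (htT : ∀ f, t f ≤ T) (A : ℝ) (hA : 1 ≤ A) :
    ∃ C : ℝ, 0 < C ∧ ∀ (X R η W : ℝ), 1 ≤ X → 0 < R → 0 < η → 0 ≤ W →
      ∀ (θ : Fin (s + 1) → ℂ) (c : ℂ) (n : ι → ℂ) (z γ : ι → Fin (s + 1) → ℂ) (x0 : Fin s → ℂ),
      (∀ i, ‖θ i‖ ≤ A) → ‖c‖ ≤ A → (∀ q, ‖n q‖ ≤ A * X) → (∀ q i, R / A ≤ ‖z q i‖) →
      (∀ q i, ‖z q i‖ ≤ A * R) → (∀ q (i : Fin s), ‖z q i.succ / z q 0 - x0 i‖ ≤ A * η) →
      (∀ i, ‖x0 i‖ ≤ A) → (∀ q i, z q i ^ k * γ q i = c * (n q - θ i)) →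
      (∀ m : ι → ℕ × (Fin s → ℕ), Function.Injective m → (∀ f, (m f).1 ≤ t f) →
        ∏ f, (X ^ (m f).1 * η ^ (∑ i, (m f).2 i)) ≤ W) →
      ‖(Matrix.of fun q f => fn k (n q) (z q) (γ q) (t f) (e f)).det‖ *
        R ^ (K * Fintype.card ι) ≤ C * W := by
  have hA0 : 0 < A := by linarith only [hA]
  obtain ⟨C, hC, hdet⟩ := det_gen t E (fun f (i : Fin s) => (e f i.succ + E).toNat)
    (fun f i => by
      have := hE f i.succ
      omega) A ((2 * A ^ 2) ^ T) hA (by positivity)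
  set N := Fintype.card ι with hN
  refine ⟨A ^ ((s + 1) * E * N) * A ^ (Kt * N) * C, by positivity, ?_⟩
  intro X R η W hX hR hη hW θ c n z γ x0 hθ hc hn hzl hzu hx hx0 hz hW'
  have hp : 0 < R / A := by positivity
  have h0 : ∀ q, z q 0 ≠ 0 := fun q => norm_pos_iff.1 (hp.trans_le (hzl q 0))
  have h1 := hdet X η W hX hη hW (fun f => pl k c θ (t f) (e f)) n
    (fun q i => z q i.succ / z q 0) x0 (fun f => dets_pl_natDegree k c θ (ht f))
    (fun f j => (dets_pl_coeff hA k hc hθ (ht f) j).trans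
      (pow_le_pow_right₀ (by nlinarith) (htT f))) hn hx hx0 hW'
  have h2 := congrArg norm (det_hom t e hE hk hK n c z γ θ h0 hz)
  rw [norm_mul, norm_mul] at h2
  have hlow : (R / A) ^ ((s + 1) * E * N) ≤ ‖∏ q, ∏ i, z q i ^ E‖ := by
    rw [norm_prod]
    have h3 : (R / A) ^ ((s + 1) * E * N) = ∏ _q : ι, ∏ _i : Fin (s + 1), (R / A) ^ E := by
      rw [Finset.prod_const, Finset.prod_const, Finset.card_univ, Finset.card_univ,
        Fintype.card_fin, ← pow_mul, ← pow_mul]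
      congr 1
      ring
    rw [h3]
    refine Finset.prod_le_prod (fun q _ => by positivity) fun q _ => ?_
    rw [norm_prod]
    refine Finset.prod_le_prod (fun i _ => by positivity) fun i _ => ?_
    rw [norm_pow]
    exact pow_le_pow_left₀ hp.le (hzl q i) _
  have hup : ‖∏ q, z q 0 ^ Kt‖ ≤ (A * R) ^ (Kt * N) := by
    rw [norm_prod]
    have h3 : (A * R) ^ (Kt * N) = ∏ _q : ι, (A * R) ^ Kt := by
      rw [Finset.prod_const, Finset.card_univ, ← pow_mul]
    rw [h3]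
    refine Finset.prod_le_prod (fun q _ => norm_nonneg _) fun q _ => ?_
    rw [norm_pow]
    exact pow_le_pow_left₀ (norm_nonneg _) (hzu q 0) _
  set Dt := ‖(Matrix.of fun q f => fn k (n q) (z q) (γ q) (t f) (e f)).det‖ with hDt
  have hDt0 : 0 ≤ Dt := norm_nonneg _
  have h4 : (R / A) ^ ((s + 1) * E * N) * Dt ≤ (A * R) ^ (Kt * N) * (C * W) := by
    refine (mul_le_mul_of_nonneg_right hlow hDt0).trans ?_
    rw [h2]
    exact mul_le_mul hup h1 (norm_nonneg _) (by positivity)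
  have h5 : R ^ ((s + 1) * E * N) = R ^ (Kt * N) * R ^ (K * N) := by
    rw [← pow_add, ← hKK, add_mul]
  have h6 : 0 < R ^ (Kt * N) := by positivity
  refine le_of_mul_le_mul_left ?_ h6
  have h7 : 0 < A ^ ((s + 1) * E * N) := by positivity
  rw [div_pow, h5, div_mul_eq_mul_div, div_le_iff₀ h7, mul_pow] at h4
  refine le_trans (le_of_eq ?_) (h4.trans (le_of_eq ?_)) <;> ring

end I

open I in
theorem relG : RelG := by
  classical
  intro d k hk L _ _ θ hθ A0 Cs s w b hA0 hs1 hsd hb hcr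
  obtain ⟨d, rfl⟩ : ∃ e, d = e + 1 := ⟨d - 1, by omega⟩
  obtain ⟨T, K, Λ, Vv, B, hB, hV, hcrit⟩ := hcr
  obtain ⟨A, hA1, hAθ, hAd, hAs⟩ := exists_size L (d := d + 1) (by omega) θ
  have hA0' : 0 < A := by linarith only [hA1]
  obtain ⟨E, hE⟩ : ∃ E : ℕ, ∀ (f : B) i, (f.1.2 i).natAbs ≤ E :=
    ⟨Finset.univ.sup (fun f : B => Finset.univ.sup fun i => (f.1.2 i).natAbs), fun f i =>
      (Finset.le_sup (f := fun i => (f.1.2 i).natAbs) (Finset.mem_univ i)).trans
        (Finset.le_sup (f := fun f : B => Finset.univ.sup fun i => (f.1.2 i).natAbs)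
          (Finset.mem_univ f))⟩
  have hK0 : ∀ f : B, ∑ i, (f.1.2 i + E).toNat + K = (s + 1) * E := by
    intro f
    have h1 : ∀ i, (((f.1.2 i + E).toNat : ℕ) : ℤ) = f.1.2 i + E := fun i => by
      have := hE f i
      omega
    have h2 : ((∑ i, (f.1.2 i + E).toNat : ℕ) : ℤ) = -(K : ℤ) + ((s + 1) * E : ℕ) := by
      rw [Nat.cast_sum, Finset.sum_congr rfl fun i _ => h1 i, Finset.sum_add_distrib,
        (hB f.1 f.2).2.2, Finset.sum_const, Finset.card_univ, Fintype.card_fin, nsmul_eq_mul]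
      push_cast
      ring
    omega
  have hBne : B.Nonempty := by
    rw [Finset.nonempty_iff_ne_empty]
    intro h
    have h1 := hV ∅ (by simp)
    rw [h] at hcrit
    simp only [Finset.sum_empty, Finset.card_empty, Nat.cast_zero, zero_mul] at h1 hcrit
    linarith only [h1, hcrit]
  obtain ⟨p0, hp0⟩ := hBne
  obtain ⟨Kt, hKt⟩ : ∃ Kt : ℕ, Kt = (s + 1) * E - K := ⟨_, rfl⟩
  have hK : ∀ f : B, ∑ i, (f.1.2 i + E).toNat = Kt := fun f => by
    have := hK0 f
    omega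
  have hKK : Kt + K = (s + 1) * E := by
    have := hK0 ⟨p0, hp0⟩
    omega
  obtain ⟨A', hA'⟩ : ∃ A' : ℝ, A' = 4 * A ^ 4 + (Cs : ℝ) ^ k + A0 := ⟨_, rfl⟩
  have hCs0 : (0 : ℝ) ≤ (Cs : ℝ) ^ k := by positivity
  have hA2 : A ≤ A ^ 2 := le_self_pow₀ hA1 (by norm_num)
  have hA4 : A ^ 2 ≤ A ^ 4 := pow_le_pow_right₀ hA1 (by norm_num)
  have hA4' : 4 * A ^ 4 ≤ A' := by linarith only [hA', hCs0, hA0]
  have hA2' : A ^ 2 ≤ A' := by linarith only [hA4', hA4, hA2, hA1]
  have hAA' : A ≤ A' := hA2.trans hA2'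
  have hA'1 : 1 ≤ A' := hA1.trans hAA'
  obtain ⟨C, hC, hdet⟩ := det_cxG hk (ι := B) (fun f => f.1.1) (fun f => f.1.2) E Kt K T hE hK hKK
    (fun f => (hB f.1 f.2).2.1) (fun f => (hB f.1 f.2).1) A' hA'1
  obtain ⟨C0, hC0⟩ := thin_of_rel d s (s * (2 * E) + T) (d + 1) hs1
  obtain ⟨δ, hδ⟩ : ∃ δ : ℝ, δ = B.card * (w * K - Λ) - Vv := ⟨_, rfl⟩
  have hδ0 : 0 < δ := by linarith only [hδ, hcrit]
  refine ⟨C0, C ^ (1 / δ) + 1, ?_⟩
  intro X R η c nn j0 S hX1 hX hXR hR hη hηX hc hcs hD hNar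
  have hX0 : 0 < X := by linarith only [hX]
  have hR0 : 0 < R := by linarith only [hR]
  have hCX : C < X ^ δ := by
    calc C = (C ^ (1 / δ)) ^ δ := by
          rw [← Real.rpow_mul hC.le, one_div, inv_mul_cancel₀ hδ0.ne', Real.rpow_one]
      _ < X ^ δ := Real.rpow_lt_rpow (by positivity) (by linarith only [hX1]) hδ0
  have hfin : C * X ^ (Vv + Fintype.card B * Λ) < R ^ (K * Fintype.card B) := by
    have h1 : (X ^ w) ^ (K * Fintype.card B) ≤ R ^ (K * Fintype.card B) :=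
      pow_le_pow_left₀ (by positivity) hXR _
    refine lt_of_lt_of_le ?_ h1
    have h2 : (X ^ w) ^ (K * Fintype.card B) = X ^ δ * X ^ (Vv + Fintype.card B * Λ) := by
      rw [← Real.rpow_natCast, ← Real.rpow_mul hX0.le, ← Real.rpow_add hX0, hδ, Fintype.card_coe]
      congr 1
      push_cast
      ring
    rw [h2]
    exact mul_lt_mul_of_pos_right hCX (by positivity)
  have hγ := hD.hγ
  choose! Γ hΓ using hγ
  have hyR : ∀ y ∈ S, ∀ j, |(y j : ℝ)| ≤ 2 * R := by
    intro y hy j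
    have h1 : |(y j : ℝ)| ≤ (y j0 : ℝ) := by exact_mod_cast (hD.ch y hy).2 j
    exact h1.trans (hD.hy y hy)
  have hsz : ∀ (σ : L →+* ℂ) (i : Fin (d + 1)), ∀ y ∈ S, ‖σ (ell (θ i : L) y)‖ ≤ A * R ∧
      R / A ≤ ‖σ (ell (θ i : L) y)‖ := by
    intro σ i y hy
    obtain ⟨N, hN1, hN2⟩ := hD.hN y hy
    exact hAs σ i y R N hR (hyR y hy) hN1 hN2
  have hne : ∀ y ∈ S, ∀ i, ell (θ i : L) y ≠ 0 := by
    intro y hy i h0
    obtain ⟨σ⟩ : Nonempty (L →+* ℂ) := inferInstance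
    have h1 := (hsz σ i y hy).2
    rw [h0, map_zero, norm_zero] at h1
    have h2 : 0 < R / A := by positivity
    linarith only [h1, h2]
  have hcl : ∀ (σ : L →+* ℂ) (i : Fin (d + 1)), ∀ y ∈ S, ∀ y' ∈ S,
      ‖(((y' j0 : ℤ) : ℝ) : ℂ) * σ (ell (θ i : L) y) - ((y j0 : ℤ) : ℝ) * σ (ell (θ i : L) y')‖ ≤
        A * (η * y j0 * y' j0) := by
    intro σ i y hy y' hy'
    have ha : (0 : ℝ) < y j0 := by exact_mod_cast (hD.ch y hy).1
    have hb' : (0 : ℝ) < y' j0 := by exact_mod_cast (hD.ch y' hy').1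
    have h1 := hAd σ i (fun j => y j * y' j0) (fun j => y' j * y j0) (η * y j0 * y' j0) (by
      intro j
      have h2 := hNar y hy y' hy' j
      have e : (((y j * y' j0 : ℤ) : ℝ) - ((y' j * y j0 : ℤ) : ℝ)) =
          ((y j : ℝ) / y j0 - (y' j : ℝ) / y' j0) * (y j0 * y' j0) := by
        push_cast
        field_simp
      rw [e, abs_mul, abs_of_pos (mul_pos ha hb'), mul_assoc]
      exact mul_le_mul_of_nonneg_right h2 (mul_pos ha hb').le)
    rw [ell_smul, ell_smul, map_mul, map_mul, map_intCast, map_intCast] at h1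
    rw [Complex.ofReal_intCast, Complex.ofReal_intCast]
    exact h1
  have hθL : Function.Injective fun i => (θ i : L) := fun i j h =>
    hθ (RingOfIntegers.coe_injective h)
  refine hC0 L (fun i => (θ i : L)) hθL nn S (fun y hy => hne y hy 0) hD.mult ?_
  intro J
  obtain ⟨I, hI0, hI1⟩ : ∃ I : Fin (s + 1) → Fin (d + 1), I 0 = 0 ∧ ∀ i : Fin s, I i.succ = (J i).succ :=
    ⟨Fin.cons 0 fun i => (J i).succ, rfl, fun i => rfl⟩
  have hc3 : ((c : L) ^ k) ≠ 0 := pow_ne_zero _ (by exact_mod_cast hc)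
  obtain ⟨α, hα0, hα⟩ := exists_kernel (fun (q : S) (f : B) =>
      (pl k ((c : L) ^ k) (fun i => (θ (I i) : L)) f.1.1 f.1.2).eval (nn q.1 : L) *
        ∏ i : Fin s, xv (fun i => (θ i : L)) (J i) q.1 ^ (f.1.2 i.succ + E).toNat) (by
    intro φ
    set Mo : Matrix B B (𝓞 L) := Matrix.of fun q f =>
      fn k (nn (φ q).1 : 𝓞 L) (fun i => ell (θ (I i)) (φ q).1) (fun i => Γ (φ q).1 (I i))
        f.1.1 f.1.2 with hMo
    have hmap : ∀ {F : Type} [CommRing F] (σ : 𝓞 L →+* F), σ Mo.det =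
        (Matrix.of fun (q : B) (f : B) => fn k ((nn (φ q).1 : ℤ) : F)
          (fun i => ell (σ (θ (I i))) (φ q).1) (fun i => σ (Γ (φ q).1 (I i)))
          f.1.1 f.1.2).det := by
      intro F _ σ
      rw [RingHom.map_det]
      congr 1
      ext q f
      simp only [hMo, RingHom.mapMatrix_apply, Matrix.map_apply, Matrix.of_apply, loc_map_fn,
        loc_map_ell, map_intCast]
    have hzγ : ∀ {F : Type} [CommRing F] (σ : 𝓞 L →+* F) (q : B) (i : Fin (s + 1)),
        ell (σ (θ (I i))) (φ q).1 ^ k * σ (Γ (φ q).1 (I i)) =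
          (c : F) ^ k * (((nn (φ q).1 : ℤ) : F) - σ (θ (I i))) := by
      intro F _ σ q i
      have h3 := congrArg σ (hΓ _ (φ q).2 (I i))
      simp only [map_mul, map_pow, map_sub, map_intCast, loc_map_ell] at h3
      exact h3.symm
    have hzero : Mo.det = 0 := by
      apply eq_zero_of_conj_lt_one L
      intro σ
      have h1 := hmap (σ.comp (algebraMap (𝓞 L) L))
      have h2 : σ ((Mo.det : 𝓞 L) : L) = (σ.comp (algebraMap (𝓞 L) L)) Mo.det := rfl
      rw [h2, h1]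
      have hel : ∀ (i : Fin (d + 1)) (y : V (d + 1)),
          ell ((σ.comp (algebraMap (𝓞 L) L)) (θ i)) y = σ (ell (θ i : L) y) := fun i y =>
        (loc_map_ell σ _ y).symm
      obtain ⟨y0, hy0⟩ : ∃ y0 : V (d + 1), y0 ∈ S := ⟨(φ ⟨p0, hp0⟩).1, (φ ⟨p0, hp0⟩).2⟩
      have h3 := hdet X R η (X ^ (Vv + Fintype.card B * Λ)) hX hR0 hη (by positivity)
        (fun i => (σ.comp (algebraMap (𝓞 L) L)) (θ (I i))) ((c : ℂ) ^ k)
        (fun q => ((nn (φ q).1 : ℤ) : ℂ))
        (fun q i => ell ((σ.comp (algebraMap (𝓞 L) L)) (θ (I i))) (φ q).1)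
        (fun q i => (σ.comp (algebraMap (𝓞 L) L)) (Γ (φ q).1 (I i)))
        (fun i => σ (ell (θ (J i).succ : L) y0) / σ (ell (θ 0 : L) y0))
        (fun i => (hAθ σ (I i)).trans hAA')
        (by
          rw [norm_pow]
          have h3 : ‖(c : ℂ)‖ ≤ Cs := by
            rw [Complex.norm_intCast]
            exact_mod_cast hcs
          have h4 : (0 : ℝ) ≤ 4 * A ^ 4 := by positivity
          calc ‖(c : ℂ)‖ ^ k ≤ (Cs : ℝ) ^ k := pow_le_pow_left₀ (norm_nonneg _) h3 k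
            _ ≤ A' := by linarith only [hA', hA0, h4])
        (by
          intro q
          rw [Complex.norm_intCast]
          refine (hD.hn _ (φ q).2).trans ?_
          have h4 : (0 : ℝ) ≤ 4 * A ^ 4 := by positivity
          have : A0 ≤ A' := by linarith only [hA', hCs0, h4]
          exact mul_le_mul_of_nonneg_right this hX0.le)
        (by
          intro q i
          rw [hel]
          exact le_trans (div_le_div_of_nonneg_left hR0.le hA0' hAA') (hsz σ _ _ (φ q).2).2)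
        (by
          intro q i
          rw [hel]
          exact (hsz σ _ _ (φ q).2).1.trans (mul_le_mul_of_nonneg_right hAA' hR0.le))
        (by
          intro q i
          rw [hel, hel, hI0, hI1]
          have ha : (0 : ℝ) < (φ q).1 j0 := by exact_mod_cast (hD.ch _ (φ q).2).1
          have hb' : (0 : ℝ) < y0 j0 := by exact_mod_cast (hD.ch y0 hy0).1
          refine (ratio_close hA1 hη hR0 ha hb' (hD.hy _ (φ q).2) (hcl σ _ _ (φ q).2 y0 hy0)
            (hcl σ _ _ (φ q).2 y0 hy0) (hsz σ _ _ hy0).1 (hsz σ _ _ hy0).1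
            (hsz σ _ _ (φ q).2).2 (hsz σ _ _ hy0).2).trans ?_
          exact mul_le_mul_of_nonneg_right hA4' hη.le)
        (by
          intro i
          have hp : 0 < R / A := by positivity
          rw [norm_div, div_le_iff₀ (hp.trans_le (hsz σ _ _ hy0).2)]
          refine (hsz σ _ _ hy0).1.trans ?_
          have h4 : A * R = A ^ 2 * (R / A) := by field_simp
          rw [h4]
          exact mul_le_mul hA2' (hsz σ _ _ hy0).2 hp.le (by linarith only [hA'1]))
        (fun q i => hzγ _ q i)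
        (fun m hm hmt => prod_bound T b Λ Vv hV hX hη hηX m hm
          fun f => (hmt f).trans (hB f.1 f.2).1)
      have h4 := lt_of_le_of_lt h3 hfin
      have h5 : 0 < R ^ (K * Fintype.card B) := by positivity
      exact (mul_lt_iff_lt_one_left h5).1 h4
    have h1 := hmap (algebraMap (𝓞 L) L)
    rw [hzero, map_zero] at h1
    have h2 := det_hom (fun f : B => f.1.1) (fun f : B => f.1.2) hE hk hK
      (fun q => ((nn (φ q).1 : ℤ) : L)) ((c : L) ^ k)
      (fun q i => ell (algebraMap (𝓞 L) L (θ (I i))) (φ q).1)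
      (fun q i => algebraMap (𝓞 L) L (Γ (φ q).1 (I i))) (fun i => algebraMap (𝓞 L) L (θ (I i)))
      (fun q => hne _ (φ q).2 _) (fun q i => hzγ _ q i)
    rw [← h1, mul_zero] at h2
    have h3 := (mul_eq_zero.1 h2.symm).resolve_left
      (Finset.prod_ne_zero_iff.2 fun q _ => pow_ne_zero _ (hne _ (φ q).2 _))
    simp only [hI0, hI1] at h3
    exact h3)
  obtain ⟨F, hF0, hFD, hF⟩ := rel_gen (fun f : B => f.1.1)
    (fun (f : B) (i : Fin s) => (f.1.2 i.succ + E).toNat) (s * (2 * E) + T)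
    (fun f => ⟨by
      have h1 : ∑ i : Fin s, (f.1.2 i.succ + E).toNat ≤ ∑ _i : Fin s, 2 * E :=
        Finset.sum_le_sum fun i _ => by
          have := hE f i.succ
          omega
      rw [Finset.sum_const, Finset.card_univ, Fintype.card_fin, smul_eq_mul] at h1
      omega, (hB f.1 f.2).1.trans (Nat.le_add_left _ _)⟩)
    (fun f g h1 h2 => by
      refine Subtype.ext (Prod.ext h1 ?_)
      have h3 : ∀ i : Fin s, f.1.2 i.succ = g.1.2 i.succ := fun i => by
        have h4 := congrFun h2 i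
        have := hE f i.succ
        have := hE g i.succ
        omega
      have h5 := (hB f.1 f.2).2.2
      have h6 := (hB g.1 g.2).2.2
      rw [Fin.sum_univ_succ] at h5 h6
      rw [Finset.sum_congr rfl fun i _ => h3 i] at h5
      funext i
      refine Fin.cases ?_ h3 i
      linarith only [h5, h6])
    (fun f => pl k ((c : L) ^ k) (fun i => (θ (I i) : L)) f.1.1 f.1.2)
    (fun f => by
      rw [pl_eq]
      exact mul_ne_zero (C_ne_zero.2 (pow_ne_zero _ hc3)) (rel_M_monic _ _ _).ne_zero)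
    (fun f => by
      rw [pl_eq, natDegree_C_mul (pow_ne_zero _ hc3)]
      exact rel_M_natDegree k _ (p := (f.1.1, f.1.2)) (hB f.1 f.2).2.1)
    α hα0
  exact ⟨F, hF0, hFD, fun y hy => (hF _ _).trans (hα ⟨y, hy⟩)⟩

end Vale.Agent.N018.H
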