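import Vale.Agent.N018.H.All
import Vale.Agent.N018.H.TabG
import Vale.Agent.N018.H.End2
import Vale.Agent.N018.H.Cover2
import Vale.Agent.N018.H.AlgG
import Vale.Agent.N018.H.LineDetG
import Vale.Agent.N018.H.LineG
import Vale.Agent.N018.H.RelG
import Vale.Agent.N018.H.FamG
import Vale.Agent.N018.H.ExtG

/-! # P018, pairs (9,4), (12,5): all packages together. -/

namespace Vale.Agent.N018.H

open Polynomial

theorem pkG : M.PkG :=
  ⟨end2S (cover2S minkS (basisS minkS)) jarnikS, boxS minkS (basisS minkS), minorS, cellS, rkThinS,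
    tupS, rkS, lineG (basisS minkS) lineDetG rkThinS npS, relG, famG, M.extractG normS⟩

/-- the tail for the pair `(9, 4)` -/
theorem tail94 (f : ℤ[X]) (hirr : Irreducible (f.map (Int.castRingHom ℚ)))
    (hd : f.natDegree = 9) : Vale.Agent.P018.H867P.TailPow f 4 := M.tail94 pkG algG f hirr hd

/-- the tail for the pair `(12, 5)` -/
theorem tail125 (f : ℤ[X]) (hirr : Irreducible (f.map (Int.castRingHom ℚ)))
    (hd : f.natDegree = 12) : Vale.Agent.P018.H867P.TailPow f 5 := M.tail125 pkG algG f hirr hd

end Vale.Agent.N018.H
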