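import Vale.Agent.N018.H.CombG
import Vale.Agent.N018.H.Tail

/-! # P018, general pairs: the count for one row of the table, and the tail. -/

namespace Vale.Agent.N018.H.M

open Finset Polynomial NumberField Filter Vale.Agent.P018 Vale.Agent.P018.K Vale.Agent.N018.H
  Vale.Agent.P018.H867 Vale.Agent.P018.H867P

/-- the check for lines -/
def lineOKG (k m : ℕ) (κ0 β δ : ℚ) : Bool :=
  decide (0 ≤ β) && (List.range (2 * m + 1)).all fun a =>
    decide (((k * (2 * m - a) : ℕ) : ℚ) - β * (((2 * m - a).choose 2 + a.choose 2 : ℕ) : ℚ) <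
      κ0 * ((2 * m * (k - 1) : ℕ) : ℚ) + δ * m)

/-- the check for one row -/
def rowOKG (e k m : ℕ) (r : RowG) : Bool :=
  combOKG e (k - 1 / 2000) r && lineOKG k m r.k0 r.p0 0 && lineOKG k m r.k0 r.p1 (r.dt 2) &&
    (List.range e).all fun i => critOKG k (i + 2) r.k0 (r.b (i + 3)) 100000
      (r.bs.getD i 0).2.1 (r.bs.getD i 0).2.2

theorem line_expG (hL : LineG) (d k m : ℕ) (hk : 2 ≤ k) (hm : 1 ≤ m) (hd : 2 ≤ d)
    (hA : AlgP d k m) (L : Type) [Field L] [NumberField L] (θ : Fin d → 𝓞 L)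
    (hθ : Function.Injective θ) (A0 : ℝ) (Cs : ℕ) (hA0 : 1 ≤ A0) (κ0 β δ : ℚ)
    (h : lineOKG k m κ0 β δ = true) : ∀ᶠ Y : ℝ in atTop, ∀ (R : ℝ) (c : ℤ) (nn : V d → ℤ)
    (j0 : Fin d) (T : Finset (V d)), Y ^ (κ0 : ℝ) ≤ R → 1 ≤ R → c ≠ 0 → |c| ≤ Cs →
    DatG L k θ A0 (Y ^ k) R c nn j0 T → rk T ≤ 2 → Nar j0 (Y ^ (-(β : ℝ))) T →
    NS 2 (Y ^ (δ : ℝ)) T → T.card ≤ 2 * k * m + 4 := by
  simp only [lineOKG, Bool.and_eq_true, decide_eq_true_eq, List.all_eq_true, List.mem_range] at h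
  obtain ⟨h1, h2⟩ := h
  have g1 : (0 : ℝ) ≤ β := by exact_mod_cast h1
  obtain ⟨K, hK, hline⟩ := hL d k m hk hm hd hA L θ hθ A0 Cs hA0
  obtain ⟨u, hu⟩ : ∃ u : ℕ → ℝ, u = fun a => ((k * (2 * m - a) : ℕ) : ℝ) -
    β * (((2 * m - a).choose 2 + a.choose 2 : ℕ) : ℝ) := ⟨_, rfl⟩
  obtain ⟨w, hw⟩ : ∃ w : ℝ, w = κ0 * ((2 * m * (k - 1) : ℕ) : ℝ) + δ * m := ⟨_, rfl⟩
  have hev : ∀ᶠ Y : ℝ in atTop, ∀ a ∈ range (2 * m + 1), K < Y ^ (w - u a) := by
    refine (eventually_all_finset _).2 fun a ha => ?_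
    refine (tendsto_rpow_atTop (sub_pos.2 ?_)).eventually_gt_atTop K
    rw [hu, hw]
    beta_reduce
    exact_mod_cast h2 a (mem_range.1 ha)
  filter_upwards [hev, eventually_ge_atTop (1 : ℝ)] with Y hY1 hY
  intro R c nn j0 T hR hR1 hc hcs hdat hrk hnar hNS
  have hY0 : 0 < Y := by linarith only [hY]
  have hp : ∀ (a : ℝ) (k : ℕ), (Y ^ a) ^ k = Y ^ (a * k) := fun a k => by
    rw [← Real.rpow_natCast, ← Real.rpow_mul hY0.le]
  refine hline (Y ^ k) R (Y ^ (-(β : ℝ))) (Y ^ (δ : ℝ)) c nn j0 T (one_le_pow₀ hY) hR1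
    (by positivity) (Real.rpow_le_one_of_one_le_of_nonpos hY (by linarith only [g1]))
    (by positivity) (fun a ha => ?_) hc hcs hdat hnar hrk hNS
  have e1 : (Y ^ k) ^ (2 * m - a) * (Y ^ (-(β : ℝ))) ^ ((2 * m - a).choose 2 + a.choose 2) =
      Y ^ u a := by
    rw [← pow_mul, ← Real.rpow_natCast, hp, ← Real.rpow_add hY0, hu]
    congr 1
    ring
  have e2 : Y ^ (w - u a) * Y ^ u a =
      (Y ^ (κ0 : ℝ)) ^ (2 * m * (k - 1)) * (Y ^ (δ : ℝ)) ^ m := by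
    rw [hp, hp, ← Real.rpow_add hY0, ← Real.rpow_add hY0, hw]
    congr 1
    ring
  calc _ = K * Y ^ u a := by rw [e1]
    _ < Y ^ (w - u a) * Y ^ u a :=
      mul_lt_mul_of_pos_right (hY1 a (mem_range.2 (by omega))) (by positivity)
    _ ≤ _ := by
      rw [e2]
      exact mul_le_mul_of_nonneg_right (pow_le_pow_left₀ (by positivity) hR _) (by positivity)

theorem rel_expG (hRel : RelG) (hF : FamG) (d k : ℕ) (hk : 1 ≤ k) (L : Type) [Field L]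
    [NumberField L] (θ : Fin d → 𝓞 L) (hθ : Function.Injective θ) (A0 : ℝ) (Cs : ℕ)
    (hA0 : 1 ≤ A0) (s : ℕ) (hs : 1 ≤ s) (hsd : s + 1 ≤ d) (κ0 β : ℚ) (D Tn : ℕ) (Λ : ℚ)
    (h : critOKG k s κ0 β D Tn Λ = true) :
    ∃ C0 : ℕ, ∀ᶠ Y : ℝ in atTop, ∀ (R : ℝ) (c : ℤ) (nn : V d → ℤ) (j0 : Fin d)
    (T : Finset (V d)), Y ^ (κ0 : ℝ) ≤ R → 1 ≤ R → c ≠ 0 → |c| ≤ Cs →
    DatG L k θ A0 (Y ^ k) R c nn j0 T → Nar j0 (Y ^ (-(β : ℝ))) T →
    ∀ D, Thin D (C0 * (D + 1) ^ s) T := by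
  have hβ : (0 : ℝ) < β := by
    simp only [critOKG, Bool.and_eq_true, decide_eq_true_eq] at h
    exact_mod_cast h.1.1.1.1.1
  obtain ⟨C0, X1, hrel⟩ := hRel d k hk L θ hθ A0 Cs s _ _ hA0 hs hsd (by positivity)
    (hF k s κ0 β D Tn Λ hk hs h)
  refine ⟨C0, ?_⟩
  filter_upwards [eventually_ge_atTop X1, eventually_ge_atTop (1 : ℝ)] with Y hY' hY
  intro R c nn j0 T hR hR1 hc hcs hdat hnar
  have hY0 : 0 < Y := by linarith only [hY]
  have hk0 : (k : ℝ) ≠ 0 := by exact_mod_cast (show k ≠ 0 by omega)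
  have hp : ∀ a : ℝ, (Y ^ k) ^ (a / k) = Y ^ a := fun a => by
    rw [← Real.rpow_natCast, ← Real.rpow_mul hY0.le, mul_div_cancel₀ _ hk0]
  refine hrel (Y ^ k) R (Y ^ (-(β : ℝ))) c nn j0 T (hY'.trans (le_self_pow₀ hY (by omega)))
    (one_le_pow₀ hY) (by rw [hp]; exact hR) hR1 (by positivity) ?_ hc hcs hdat hnar
  rw [← neg_div, hp]

/-- the packages -/
structure PkG : Prop where
  hE : End2S
  hB : BoxS
  hM : MinorS
  hC : CellS
  hR : RkThinS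
  hT : TupS
  hK : RkS
  hL : LineG
  hRel : RelG
  hF : FamG
  hX : ExtractG

theorem arithG (H : PkG) (e k m : ℕ) (hk : 2 ≤ k) (hm : 1 ≤ m) (hA : AlgP (e + 3) k m)
    (L : Type) [Field L] [NumberField L] (θ : Fin (e + 3) → 𝓞 L)
    (hθ : Function.Injective θ) (A0 : ℝ) (Cs : ℕ) (hA0 : 1 ≤ A0) (r : RowG)
    (h : rowOKG e k m r = true) : ∃ C : ℝ, 1 ≤ C ∧ ∀ᶠ Y : ℝ in atTop, ∀ (R : ℝ) (c : ℤ)
    (nn : V (e + 3) → ℤ) (j0 : Fin (e + 3)) (S : Finset (V (e + 3))), Y ^ (r.k0 : ℝ) ≤ R →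
    R ≤ Y ^ (r.k1 : ℝ) → 1 ≤ R → c ≠ 0 → |c| ≤ Cs → DatG L k θ A0 (Y ^ k) R c nn j0 S →
    (S.card : ℝ) ≤ C * Y ^ ((k : ℝ) - 1 / 2000) := by
  simp only [rowOKG, Bool.and_eq_true, List.all_eq_true, List.mem_range] at h
  obtain ⟨⟨⟨h1, h2⟩, h3⟩, h4⟩ := h
  have l0 := line_expG H.hL _ k m hk hm (by omega) hA L θ hθ A0 Cs hA0 _ _ _ h2
  have l1 := line_expG H.hL _ k m hk hm (by omega) hA L θ hθ A0 Cs hA0 _ _ _ h3
  have rel := fun (i : Fin e) => rel_expG H.hRel H.hF (e + 3) k (by omega) L θ hθ A0 Cs hA0 (i + 2)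
    (by omega) (by omega) _ _ _ _ _ (h4 i i.2)
  choose Cr hCr using rel
  obtain ⟨C, hC1, hC⟩ := combG H.hE H.hB H.hM H.hC H.hR H.hT H.hK e (∑ i, Cr i + 1)
    (2 * k * m + 4) (by omega) (by omega)
  refine ⟨C, hC1, ?_⟩
  filter_upwards [l0, l1, eventually_all.2 hCr, eventually_ge_atTop (1 : ℝ)] with Y l0 l1 rel hY
  intro R c nn j0 S hR0 hR1 hR hc hcs hdat
  have h5 := hC _ r h1 j0 S Y hY (hdat.np (by omega)) hdat.ch
    (fun y hy => (hdat.hy y hy).trans (by linarith only [hR1]))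
    (fun s hs1 hs2 T hT hn D => by
      obtain ⟨i, rfl⟩ : ∃ i, s = i + 2 := ⟨s - 2, by omega⟩
      refine (rel ⟨i, by omega⟩ R c nn j0 T hR0 hR hc hcs (hdat.mono hT) hn D).le
        (Nat.mul_le_mul_right _ ?_)
      exact (single_le_sum (f := Cr) (fun _ _ => Nat.zero_le _) (mem_univ _)).trans (Nat.le_succ _))
    (fun T hT h7 h8 => l0 R c nn j0 T hR0 hR hc hcs (hdat.mono hT) h7 h8 (by
      rw [Rat.cast_zero, Real.rpow_zero]
      exact NS_one _ _))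
    (fun T hT => l1 R c nn j0 T hR0 hR hc hcs (hdat.mono hT))
  push_cast at h5
  exact h5

/-- one row -/
theorem fin_rowG (H : PkG) (e k m : ℕ) (hk : 2 ≤ k) (hm : 1 ≤ m) (hA : AlgP (e + 3) k m)
    (f : ℤ[X]) (hirr : Irreducible (f.map (Int.castRingHom ℚ))) (hd : f.natDegree = e + 3)
    (r : RowG) (h : rowOKG e k m r = true) :
    FinP f k {a | (r.k0 : ℝ) ≤ a / (e + 3 : ℕ) * k ∧ a / (e + 3 : ℕ) * k ≤ r.k1} := by
  obtain ⟨L, _, _, θ, A0, Cs, D, X1, hθ, hA0, hex⟩ := H.hX f (e + 3) k hirr hd (by omega) (by omega)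
  obtain ⟨C, hC, har⟩ := arithG H e k m hk hm hA L θ hθ A0 Cs hA0 r h
  have hk0 : (0 : ℝ) < k := by exact_mod_cast (show 0 < k by omega)
  obtain ⟨d, hdd⟩ : ∃ d : ℝ, d = ((e + 3 : ℕ) : ℝ) := ⟨_, rfl⟩
  have hd0 : 0 < d := by rw [hdd]; positivity
  obtain ⟨X2, hX2⟩ := eventually_atTop.1
    ((tendsto_rpow_atTop (show 0 < 1 / (k : ℝ) by positivity)).eventually har)
  refine ⟨1 / 2000 / k, D * C + 1, by positivity, by positivity, max (max X1 2) ⌈X2⌉₊, ?_⟩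
  intro X P hX hXP hmem
  have h1 : X1 ≤ X := le_trans (le_trans (le_max_left _ _) (le_max_left _ _)) hX
  have h2 : 2 ≤ X := le_trans (le_trans (le_max_right _ _) (le_max_left _ _)) hX
  have h3 : X2 ≤ X := Nat.ceil_le.1 (le_trans (le_max_right _ _) hX)
  have hXr : (1 : ℝ) < X := by exact_mod_cast (show 1 < X by omega)
  have hX0 : (0 : ℝ) < X := by linarith only [hXr]
  have hPr : (1 : ℝ) < P := by exact_mod_cast (show 1 < P by omega)
  have hP0 : (0 : ℝ) < P := by linarith only [hPr]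
  have hl : 0 < Real.log X := Real.log_pos hXr
  rw [Set.mem_ofPred_eq, ← hdd] at hmem
  have hY3 : ((X : ℝ) ^ (1 / (k : ℝ))) ^ k = X := by
    rw [← Real.rpow_natCast, ← Real.rpow_mul hX0.le, one_div_mul_cancel hk0.ne', Real.rpow_one]
  have hR6 : ((P : ℝ) ^ (1 / d)) ^ (e + 3) = P := by
    rw [← Real.rpow_natCast, ← Real.rpow_mul hP0.le, ← hdd, one_div_mul_cancel hd0.ne',
      Real.rpow_one]
  have hlog : ((X : ℝ) ^ (1 / (k : ℝ))) ^ (Real.log P / Real.log X / d * k) = (P : ℝ) ^ (1 / d) := by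
    rw [← Real.rpow_mul hX0.le, Real.rpow_def_of_pos hX0, Real.rpow_def_of_pos hP0]
    congr 1
    field_simp
  have hY1 : 1 ≤ (X : ℝ) ^ (1 / (k : ℝ)) := Real.one_le_rpow hXr.le (by positivity)
  have h4 := hex X P ((P : ℝ) ^ (1 / d)) (C * ((X : ℝ) ^ (1 / (k : ℝ))) ^ ((k : ℝ) - 1 / 2000)) h1
    hXP (by positivity) hR6 (by positivity) fun c nn j0 S hc hcs hdat =>
      hX2 X h3 ((P : ℝ) ^ (1 / d)) c nn j0 S
        (by rw [← hlog]; exact Real.rpow_le_rpow_of_exponent_le hY1 hmem.1)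
        (by rw [← hlog]; exact Real.rpow_le_rpow_of_exponent_le hY1 hmem.2)
        (Real.one_le_rpow hPr.le (by positivity)) hc hcs (by rw [hY3]; exact hdat)
  rw [← Real.rpow_mul hX0.le, ← mul_assoc] at h4
  refine h4.trans ?_
  have e1 : 1 / (k : ℝ) * (k - 1 / 2000) = 1 - 1 / 2000 / k := by field_simp
  rw [e1]
  exact mul_le_mul_of_nonneg_right (by linarith only []) (by positivity)

/-- the rows are correct and cover the interval from `a` to `b` -/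
def covOKG (e k m : ℕ) (b : ℚ) : ℚ → List RowG → Bool
  | a, [] => decide (b ≤ a)
  | a, r :: l => rowOKG e k m r && decide (r.k0 ≤ a) && covOKG e k m b r.k1 l

theorem fin_covG (H : PkG) (e k m : ℕ) (hk : 2 ≤ k) (hm : 1 ≤ m) (hA : AlgP (e + 3) k m)
    (f : ℤ[X]) (hirr : Irreducible (f.map (Int.castRingHom ℚ))) (hd : f.natDegree = e + 3)
    (b : ℚ) (l : List RowG) : ∀ a : ℚ, covOKG e k m b a l = true →
    FinP f k {x | (a : ℝ) ≤ x / (e + 3 : ℕ) * k ∧ x / (e + 3 : ℕ) * k < b} := by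
  induction l with
  | nil =>
    intro a h
    have h1 : (b : ℝ) ≤ a := by exact_mod_cast of_decide_eq_true h
    exact ⟨1, 1, one_pos, one_pos, 0, fun X P _ _ h =>
      absurd (h.1.trans_lt h.2) (by linarith only [h1])⟩
  | cons r l ih =>
    intro a h
    simp only [covOKG, Bool.and_eq_true, decide_eq_true_eq] at h
    have h1 : (r.k0 : ℝ) ≤ a := by exact_mod_cast h.1.2
    refine fin_mono (fin_union f k (fin_rowG H e k m hk hm hA f hirr hd r h.1.1) (ih r.k1 h.2))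
      fun x hx => ?_
    rcases le_total (x / (e + 3 : ℕ) * k) (r.k1 : ℝ) with h2 | h2
    · exact Or.inl ⟨h1.trans hx.1, h2⟩
    · exact Or.inr ⟨h2, hx.2⟩

/-- the tail from a table for the middle exponents and the affine staircase for the others -/
theorem tailG (H : PkG) (e k m : ℕ) (hk : 2 ≤ k) (hkd : k < e + 3) (hm : 1 ≤ m)
    (hA : AlgP (e + 3) k m) (a b : ℚ) (l : List RowG) (h : covOKG e k m b a l = true)
    (hone : K2.Adm2 (e + 3) k 1)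
    (hadm : ∀ x : ℝ, 1 ≤ x → x ≤ ((e + 3 : ℕ) : ℝ) / k →
      x / (e + 3 : ℕ) * k ≤ a ∨ (b : ℝ) ≤ x / (e + 3 : ℕ) * k → K2.Adm2 (e + 3) k x)
    (f : ℤ[X]) (hirr : Irreducible (f.map (Int.castRingHom ℚ))) (hd : f.natDegree = e + 3) :
    TailPow f k := by
  have h1 := fin_covG H e k m hk hm hA f hirr hd b l a h
  have hnear : NearOne f k := nearOne_of_adm f hirr k hk (by omega) (by rw [hd]; exact hone)
  refine tailPow_of_hpp f hirr k hk (by omega) (hpp_of_hp f k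
    (hp_of_fin f k hk (by omega) fun x hx hx2 => ?_) hnear)
  by_cases h2 : x / (e + 3 : ℕ) * k ≤ a ∨ (b : ℝ) ≤ x / (e + 3 : ℕ) * k
  · exact K2.fin_near2 f hirr k hk (by omega) x hx
      (by rw [hd] at hx2 ⊢; exact hadm x hx hx2 h2)
  · push Not at h2
    have hc : Continuous fun x : ℝ => x / (e + 3 : ℕ) * k := by fun_prop
    obtain ⟨ε, hε, h3⟩ := Metric.eventually_nhds_iff_ball.1
      (hc.continuousAt.eventually (Ioo_mem_nhds h2.1 h2.2))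
    refine ⟨ε, hε, fin_mono h1 fun y hy => ?_⟩
    have h4 := h3 y (by rw [Real.ball_eq_Ioo]; exact hy)
    exact ⟨h4.1.le, h4.2⟩

end Vale.Agent.N018.H.M
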