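import Vale.Agent.N018.H.Def3
import Vale.Agent.N018.H.Comb

/-! # P018, general pairs: the combinatorial assembly. -/

namespace Vale.Agent.N018.H.M

open Finset Vale.Agent.N018.H

/-- the number of points in one cell -/
theorem cell_est2 (hE : End2S) (hB : BoxS) (hM : MinorS) (hC : CellS) (hR : RkThinS)
    (n C0 N0 : ℕ) (hN0 : 1 ≤ N0) :
    ∃ C : ℝ, 1 ≤ C ∧ ∀ (j0 : Fin n) (T : Finset (V n)) (R η η' Z : ℝ) (H A Q : ℕ → ℝ) (ρ0 : ℕ),
    NP T → Chart j0 T → (∀ y ∈ T, (y j0 : ℝ) ≤ 2 * R) → 0 < η' → η' ≤ η →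
    Nar j0 η T → rk T ≤ ρ0 → (∀ D, Thin D (C0 * (D + 1) ^ 2) T) →
    (∀ T' ⊆ T, rk T' ≤ 2 → Nar j0 η' T' → T'.card ≤ N0) →
    (∀ ρ, 3 ≤ ρ → ρ ≤ ρ0 → 0 < H ρ ∧ NS ρ (H ρ) T) →
    Monotone Q → (∀ ρ, 1 ≤ Q ρ) → (∀ ρ, 1 ≤ A ρ) →
    (∀ ρ, 3 ≤ ρ → ρ ≤ ρ0 → R ^ ρ * η ^ (ρ - 1) / H ρ ≤ A ρ ^ (ρ - 1) ∧
      R ^ ρ * η ^ (ρ - 1) / H ρ ≤ Q ρ ^ ρ) →
    η / η' ≤ Z → (∀ ρ, 3 ≤ ρ → ρ ≤ ρ0 → A ρ * (η / η') ≤ Z) →
    (∀ ρ, 5 ≤ ρ → ρ ≤ ρ0 → A ρ * Q (ρ - 2) ≤ Z) →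
    (∀ ρ, 4 ≤ ρ → ρ ≤ ρ0 → A ρ ^ (2 * ρ - 3) ≤ Z ^ (ρ - 1)) → (T.card : ℝ) ≤ C * Z := by
  choose CB hCB1 hCB using hB n
  obtain ⟨CE, hCE1, hCE⟩ := hE n (8 * C0)
  obtain ⟨CL, hCL1, hCL⟩ := rk_cell hC hR n 1
  obtain ⟨C1, hC1⟩ : ∃ C1 : ℝ, C1 = ∑ ρ ∈ range (n + 1), CB ρ * (ρ.factorial * 2 ^ ρ) := ⟨_, rfl⟩
  have hterm : ∀ ρ, 1 ≤ CB ρ * ((ρ.factorial : ℝ) * 2 ^ ρ) := by
    intro ρ
    have h1 : (1 : ℝ) ≤ ρ.factorial := by exact_mod_cast Nat.factorial_pos ρ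
    have h2 : (1 : ℝ) ≤ 2 ^ ρ := one_le_pow₀ (by norm_num)
    exact one_le_mul_of_one_le_of_one_le (hCB1 ρ) (one_le_mul_of_one_le_of_one_le h1 h2)
  have hle : ∀ ρ, ρ ≤ n → CB ρ * ((ρ.factorial : ℝ) * 2 ^ ρ) ≤ C1 := by
    intro ρ hρ
    rw [hC1]
    exact Finset.single_le_sum (f := fun ρ => CB ρ * ((ρ.factorial : ℝ) * 2 ^ ρ))
      (fun i _ => zero_le_one.trans (hterm i)) (mem_range.2 (by omega))
  have hC11 : 1 ≤ C1 := (hterm 0).trans (hle 0 (by omega))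
  obtain ⟨N, hN⟩ : ∃ N : ℝ, N = N0 * CL := ⟨_, rfl⟩
  have hN1 : 1 ≤ N := hN ▸ one_le_mul_of_one_le_of_one_le (by exact_mod_cast hN0) hCL1
  have hK0 : 1 ≤ C1 * (N + C1) :=
    one_le_mul_of_one_le_of_one_le hC11 (by linarith only [hN1, hC11])
  have hK : 1 ≤ C1 * (C1 * (N + C1)) := one_le_mul_of_one_le_of_one_le hC11 hK0
  refine ⟨CE * (C1 * (C1 * (N + C1))), one_le_mul_of_one_le_of_one_le hCE1 hK, ?_⟩
  intro j0 T R η η' Z H A Q ρ0 hnp hch hy hη' hηη hnar hrk hthin hline hNS hQm hQ1 hA1 hW hZ1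
    hZ2 hZ3 hZ4
  have hη : 0 < η := lt_of_lt_of_le hη' hηη
  have hq1 : 1 ≤ η / η' := (one_le_div hη').2 hηη
  have hZ0 : 0 ≤ Z := by linarith only [hq1, hZ1]
  have hC10 : 0 ≤ C1 := by linarith only [hC11]
  rw [mul_assoc]
  refine hCE T (N * (η / η')) (C1 * (C1 * (N + C1)) * Z) (fun ρ => C1 * A ρ)
    (fun ρ => if ρ ≤ 2 then 0 else C1 * Q ρ) (C0 * (4 * (8 * C0) + 1) ^ 2) hnp ?_ ?_ ?_ ?_ ?_ ?_
    ?_ ?_ ?_ ?_ ?_ (hthin _)
  · exact one_le_mul_of_one_le_of_one_le hN1 hq1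
  · have h1 : N * (η / η') ≤ N * Z := mul_le_mul_of_nonneg_left hZ1 (by linarith only [hN1])
    have h2 : N ≤ C1 * (N + C1) := by nlinarith only [hN1, hC11]
    have h3 : C1 * (N + C1) ≤ C1 * (C1 * (N + C1)) :=
      le_mul_of_one_le_left (by linarith only [hK0]) hC11
    exact h1.trans (mul_le_mul_of_nonneg_right (h2.trans h3) hZ0)
  · intro a b hab
    simp only
    split_ifs with h1 h2 h2
    · exact le_rfl
    · exact mul_nonneg hC10 (by linarith only [hQ1 b])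
    · omega
    · exact mul_le_mul_of_nonneg_left (hQm hab) hC10
  · intro ρ
    split_ifs
    · exact le_rfl
    · exact mul_nonneg hC10 (by linarith only [hQ1 ρ])
  · intro ρ hρ
    rw [if_neg (by omega)]
    exact one_le_mul_of_one_le_of_one_le hC11 (hQ1 ρ)
  · exact fun ρ => one_le_mul_of_one_le_of_one_le hC11 (hA1 ρ)
  · intro T' hT' hr
    have h1 := hCL j0 T' η η' N0 (fun y hy => (hch y (hT' hy)).1) hη' hηη (by positivity)
      (hnar.mono hT') hr fun T'' hT'' hn => by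
        exact_mod_cast hline T'' (hT''.trans hT') ((rk_mono hT'').trans hr) hn
    rw [pow_one] at h1
    rw [hN]
    linarith only [h1]
  · intro T' hT' hr
    obtain ⟨s, hs⟩ : ∃ s, rk T' = s + 1 := ⟨rk T' - 1, by omega⟩
    have hs0 : s + 1 ≤ ρ0 := by
      have := rk_mono hT'
      omega
    have hs6 : s + 1 ≤ n := hs ▸ rk_le T'
    rw [hs] at hr ⊢
    obtain ⟨hH, hN⟩ := hNS (s + 1) hr hs0
    have hbox := hCB (s + 1) T' (((s + 1).factorial : ℝ) * (2 * R) ^ (s + 1) * η ^ s) (H (s + 1))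
      hs (by omega) hH (hN.mono hT') fun x hx J => by
        exact_mod_cast hM n s j0 T' (2 * R) η hη.le (hch.mono hT') (hnar.mono hT')
          (fun y hy' => hy y (hT' hy')) x hx J
    refine hbox.le ?_
    obtain ⟨h1, h2⟩ := hW (s + 1) hr hs0
    rw [Nat.add_sub_cancel] at h1 h2 ⊢
    have e : CB (s + 1) * (((s + 1).factorial : ℝ) * (2 * R) ^ (s + 1) * η ^ s) / H (s + 1) =
        CB (s + 1) * (((s + 1).factorial : ℝ) * 2 ^ (s + 1)) *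
          (R ^ (s + 1) * η ^ s / H (s + 1)) := by
      rw [mul_pow]
      ring
    have h3 := hle (s + 1) hs6
    have h4 := zero_le_one.trans (hterm (s + 1))
    rw [e, if_neg (by omega), mul_pow, mul_pow]
    refine le_min ?_ ?_
    · refine (mul_le_mul_of_nonneg_left h1 h4).trans (mul_le_mul_of_nonneg_right
        (h3.trans (le_self_pow₀ hC11 (by omega))) ?_)
      exact pow_nonneg (by linarith only [hA1 (s + 1)]) _
    · refine (mul_le_mul_of_nonneg_left h2 h4).trans (mul_le_mul_of_nonneg_right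
        (h3.trans (le_self_pow₀ hC11 (by omega))) ?_)
      exact pow_nonneg (by linarith only [hQ1 (s + 1)]) _
  · intro ρ h3 hρ
    have h1 := hZ2 ρ h3 (hρ.trans hrk)
    have h2 : A ρ * (if ρ - 2 ≤ 2 then 0 else C1 * Q (ρ - 2)) ≤ C1 * Z := by
      split_ifs with h
      · rw [mul_zero]
        exact mul_nonneg hC10 hZ0
      · rw [mul_left_comm]
        exact mul_le_mul_of_nonneg_left (hZ3 ρ (by omega) (hρ.trans hrk)) hC10
    have h4 : N * (A ρ * (η / η')) ≤ N * Z :=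
      mul_le_mul_of_nonneg_left h1 (by linarith only [hN1])
    have h5 : (N + C1) * Z ≤ C1 * (N + C1) * Z :=
      mul_le_mul_of_nonneg_right (le_mul_of_one_le_left (by linarith only [hN1, hC11]) hC11) hZ0
    rw [mul_assoc, mul_assoc C1]
    refine mul_le_mul_of_nonneg_left ?_ hC10
    linarith only [h2, h4, h5]
  · intro ρ h4 hρ
    rw [mul_pow, mul_pow]
    refine mul_le_mul ?_ (hZ4 ρ h4 (hρ.trans hrk)) (pow_nonneg (by linarith only [hA1 ρ]) _)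
      (by positivity)
    calc C1 ^ (2 * ρ - 3) ≤ C1 ^ (2 * (ρ - 1)) := pow_le_pow_right₀ hC11 (by omega)
      _ = (C1 * C1) ^ (ρ - 1) := by rw [pow_mul, sq]
      _ ≤ _ := pow_le_pow_left₀ (by positivity) (mul_le_mul_of_nonneg_left
        (le_mul_of_one_le_right hC10 (by linarith only [hN1, hC11])) hC10) _
  · have h1 : (4 * (8 * C0) + 1) ^ 2 ≤ 16 * (8 * C0 + 1) ^ 2 := by
      calc (4 * (8 * C0) + 1) ^ 2 ≤ (4 * (8 * C0 + 1)) ^ 2 := Nat.pow_le_pow_left (by omega) 2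
        _ = _ := by ring
    have h2 : 0 < (8 * C0 + 1) ^ 2 := by positivity
    calc C0 * (4 * (8 * C0) + 1) ^ 2 ≤ C0 * (16 * (8 * C0 + 1) ^ 2) := Nat.mul_le_mul_left _ h1
      _ = (16 * C0) * (8 * C0 + 1) ^ 2 := by ring
      _ < _ := Nat.mul_lt_mul_of_pos_right (by omega) h2

/-- the check for one cell -/
def cellOK2 (κ β β' : ℚ) (δ : ℕ → ℚ) (ρ0 : ℕ) (z : ℚ) : Bool :=
  decide (β ≤ β') && decide (β' - β ≤ z) && (List.range (ρ0 + 1)).all fun ρ =>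
    (decide (ρ < 3) || decide (al κ β δ ρ + (β' - β) ≤ z)) &&
      (decide (ρ < 5) || decide (al κ β δ ρ + qq κ β δ (ρ - 2) ≤ z)) &&
      (decide (ρ < 4) || decide (al κ β δ ρ * ((2 * ρ - 3 : ℕ) : ℚ) ≤ z * ((ρ - 1 : ℕ) : ℚ)))

theorem cell_exp2 (hE : End2S) (hB : BoxS) (hM : MinorS) (hC : CellS) (hR : RkThinS)
    (n C0 N0 : ℕ) (hN0 : 1 ≤ N0) :
    ∃ C : ℝ, 1 ≤ C ∧ ∀ (κ β β' z : ℚ) (δ : ℕ → ℚ) (ρ0 : ℕ), cellOK2 κ β β' δ ρ0 z = true →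
    ∀ (j0 : Fin n) (T : Finset (V n)) (Y : ℝ), 1 ≤ Y → NP T → Chart j0 T →
    (∀ y ∈ T, (y j0 : ℝ) ≤ 2 * Y ^ (κ : ℝ)) → Nar j0 (Y ^ (-(β : ℝ))) T → rk T ≤ ρ0 →
    (∀ D, Thin D (C0 * (D + 1) ^ 2) T) →
    (∀ T' ⊆ T, rk T' ≤ 2 → Nar j0 (Y ^ (-(β' : ℝ))) T' → T'.card ≤ N0) →
    (∀ ρ, 3 ≤ ρ → ρ ≤ ρ0 → NS ρ (Y ^ (δ ρ : ℝ)) T) → (T.card : ℝ) ≤ C * Y ^ (z : ℝ) := by
  obtain ⟨C, hC1, h⟩ := cell_est2 hE hB hM hC hR n C0 N0 hN0
  refine ⟨C, hC1, ?_⟩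
  intro κ β β' z δ ρ0 hok j0 T Y hY hnp hch hy hnar hrk hthin hline hNS
  have hY0 : 0 < Y := by linarith only [hY]
  simp only [cellOK2, Bool.and_eq_true, Bool.or_eq_true, decide_eq_true_eq, List.all_eq_true,
    List.mem_range] at hok
  obtain ⟨⟨h1, h2⟩, h3⟩ := hok
  have hdiv : Y ^ (-(β : ℝ)) / Y ^ (-(β' : ℝ)) = Y ^ ((β' - β : ℚ) : ℝ) := by
    rw [← Real.rpow_sub hY0]
    congr 1
    push_cast
    ring
  have hv : ∀ ρ : ℕ, (Y ^ (κ : ℝ)) ^ ρ * (Y ^ (-(β : ℝ))) ^ (ρ - 1) / Y ^ (δ ρ : ℝ) =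
      Y ^ (vv κ β δ ρ : ℝ) := by
    intro ρ
    rw [← Real.rpow_natCast, ← Real.rpow_natCast, ← Real.rpow_mul hY0.le, ← Real.rpow_mul hY0.le,
      ← Real.rpow_add hY0, ← Real.rpow_sub hY0, vv]
    congr 1
    push_cast
    ring
  have hp : ∀ (a : ℚ) (m : ℕ), (Y ^ (a : ℝ)) ^ m = Y ^ ((a * m : ℚ) : ℝ) := by
    intro a m
    rw [← Real.rpow_natCast, ← Real.rpow_mul hY0.le]
    congr 1
    push_cast
    ring
  have hm : ∀ a b : ℚ, Y ^ (a : ℝ) * Y ^ (b : ℝ) = Y ^ ((a + b : ℚ) : ℝ) := by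
    intro a b
    rw [← Real.rpow_add hY0]
    congr 1
    push_cast
    ring
  have hone : ∀ a : ℚ, 0 ≤ a → 1 ≤ Y ^ (a : ℝ) := fun a ha =>
    Real.one_le_rpow hY (by exact_mod_cast ha)
  refine h j0 T (Y ^ (κ : ℝ)) (Y ^ (-(β : ℝ))) (Y ^ (-(β' : ℝ))) (Y ^ (z : ℝ))
    (fun ρ => Y ^ (δ ρ : ℝ)) (fun ρ => Y ^ (al κ β δ ρ : ℝ)) (fun ρ => Y ^ (qq κ β δ ρ : ℝ)) ρ0
    hnp hch hy (by positivity) ?_ hnar hrk hthin hline
    (fun ρ h3 h4 => ⟨by positivity, hNS ρ h3 h4⟩) ?_ ?_ ?_ ?_ ?_ ?_ ?_ ?_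
  · refine Real.rpow_le_rpow_of_exponent_le hY (neg_le_neg ?_)
    exact_mod_cast h1
  · exact fun a b hab => pow_le hY (qq_mono κ β δ hab)
  · exact fun ρ => hone _ (qq_mono κ β δ (Nat.zero_le ρ))
  · exact fun ρ => hone _ (le_max_left _ _)
  · intro ρ h4 _
    rw [hv, hp, hp]
    exact ⟨pow_le hY (al_ge κ β δ ρ h4), pow_le hY (qq_ge κ β δ ρ h4)⟩
  · rw [hdiv]
    exact pow_le hY h2
  · intro ρ h4 h5
    rw [hdiv, hm]
    exact pow_le hY ((h3 ρ (by omega)).1.1.resolve_left (by omega))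
  · intro ρ h4 h5
    rw [hm]
    exact pow_le hY ((h3 ρ (by omega)).1.2.resolve_left (by omega))
  · intro ρ h4 h5
    rw [hp, hp]
    exact pow_le hY ((h3 ρ (by omega)).2.resolve_left (by omega))

/-- the cost of the staircase in dimension `s + 2` -/
def st (b : ℕ → ℚ) : ℕ → ℚ
  | 0 => 2 * b 3
  | s + 1 => st b s + b (s + 3)

/-- the staircase -/
theorem stairG (hC : CellS) (n C0 s : ℕ) : ∃ C : ℝ, 1 ≤ C ∧ ∀ (j0 : Fin n) (S : Finset (V n))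
    (Y η0 M : ℝ) (b : ℕ → ℚ), 1 ≤ Y → b 2 = b 3 → (∀ r, r < s + 2 → b (r + 1) ≤ b r) →
    Y ^ (-(b (s + 2) : ℝ)) ≤ η0 → 0 ≤ M → (∀ y ∈ S, 0 < y j0) → Nar j0 η0 S →
    (∀ D, Thin D (C0 * (D + 1) ^ (s + 2)) S) →
    (∀ r, 2 ≤ r → r < s + 2 → ∀ T ⊆ S, Nar j0 (Y ^ (-(b (r + 1) : ℝ))) T →
      ∀ D, Thin D (C0 * (D + 1) ^ r) T) →
    (∀ T ⊆ S, Nar j0 (Y ^ (-(b 3 : ℝ))) T → (∀ D, Thin D (C0 * (D + 1) ^ 2) T) →
      (T.card : ℝ) ≤ M) →
    (S.card : ℝ) ≤ C * (η0 ^ (s + 2) * (Y ^ (st b s : ℝ) * M)) := by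
  induction s with
  | zero =>
    obtain ⟨K, hK1, hK⟩ := hC n 2 C0
    refine ⟨K, hK1, ?_⟩
    intro j0 S Y η0 M b hY h23 _ hη hM hpos hnar hthin _ hT
    have hY0 : 0 < Y := by linarith only [hY]
    rw [zero_add, h23] at hη
    refine (hK j0 S η0 _ M hpos (by positivity) hη hM hnar hthin fun T hTS hn =>
      hT T hTS hn fun D => (hthin D).mono hTS).trans (le_of_eq ?_)
    have e : Y ^ (st b 0 : ℝ) = (Y ^ (b 3 : ℝ)) ^ 2 := by
      rw [← Real.rpow_natCast, ← Real.rpow_mul hY0.le, st]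
      congr 1
      push_cast
      ring
    rw [e, Real.rpow_neg hY0.le, div_inv_eq_mul]
    ring
  | succ s ih =>
    obtain ⟨K, hK1, hK⟩ := hC n (s + 3) C0
    obtain ⟨C, hC1, ih⟩ := ih
    refine ⟨K * C, one_le_mul_of_one_le_of_one_le hK1 hC1, ?_⟩
    intro j0 S Y η0 M b hY h23 hanti hη hM hpos hnar hthin hrel hT
    have hY0 : 0 < Y := by linarith only [hY]
    have hC0 : 0 ≤ C := by linarith only [hC1]
    refine (hK j0 S η0 (Y ^ (-(b (s + 3) : ℝ))) _ hpos (by positivity) hη (by positivity) hnar hthin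
      fun T hTS hn => ih j0 T Y (Y ^ (-(b (s + 3) : ℝ))) M b hY h23
        (fun r hr => hanti r (by omega)) ?_ hM (fun y hy => hpos y (hTS hy)) hn
        (hrel (s + 2) (by omega) (by omega) T hTS hn)
        (fun r h1 h2 T' hT' => hrel r h1 (by omega) T' (hT'.trans hTS))
        (fun T' hT' => hT T' (hT'.trans hTS))).trans (le_of_eq ?_)
    · refine Real.rpow_le_rpow_of_exponent_le hY (neg_le_neg ?_)
      exact_mod_cast hanti (s + 2) (by omega)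
    · have e : Y ^ (st b (s + 1) : ℝ) = Y ^ (st b s : ℝ) * Y ^ (b (s + 3) : ℝ) := by
        rw [← Real.rpow_add hY0, st]
        congr 1
        push_cast
        ring
      have hp : 0 < Y ^ (b (s + 3) : ℝ) := by positivity
      rw [e, Real.rpow_neg hY0.le, div_inv_eq_mul, mul_pow, inv_pow]
      field_simp
      ring

/-- the points in linear spaces which are spanned by short vectors -/
theorem sp_tup (hT : TupS) (hK : RkS) (n ρ : ℕ) : ∃ C : ℝ, 1 ≤ C ∧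
    ∀ (S : Finset (V n)) (H M : ℝ), 1 ≤ H → 0 ≤ M → (∀ y ∈ S, ¬ NS ρ H {y}) →
    (∀ T ⊆ S, rk T ≤ ρ → (T.card : ℝ) ≤ M) →
    (S.card : ℝ) ≤ C * (H ^ ((n : ℝ) + 1 / 100) * M) := by
  classical
  obtain ⟨K1, h11, h1⟩ := hT n ρ (1 / 100) (by norm_num)
  refine ⟨K1, h11, ?_⟩
  intro S H M hH hM hS hcell
  have hv : ∀ y ∈ S, ∃ v : Fin ρ → V n, ((∀ i, v i ≠ 0) ∧ ∏ i, ‖v i‖ ≤ H) ∧ InSp v y := by
    intro y hy
    have h3 := hS y hy
    unfold NS at h3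
    push Not at h3
    obtain ⟨y', hy', v, h4, h5, h6⟩ := h3
    rw [mem_singleton] at hy'
    exact ⟨v, ⟨h4, h6.le⟩, hy' ▸ h5⟩
  choose! v hv1 hv2 using hv
  have hfib : ∀ w ∈ S.image v, ((S.filter fun y => v y = w).card : ℝ) ≤ M := by
    intro w _
    refine hcell _ (filter_subset _ _) ((hK n).2 ρ w _ fun y hy => ?_)
    rw [mem_filter] at hy
    exact hy.2 ▸ hv2 y hy.1
  have himg := h1 H hH (S.image v) fun w hw => by
    obtain ⟨y, hy, rfl⟩ := mem_image.1 hw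
    exact hv1 y hy
  calc (S.card : ℝ) = ∑ w ∈ S.image v, ((S.filter fun y => v y = w).card : ℝ) := by
        exact_mod_cast card_eq_sum_card_image v S
    _ ≤ ∑ _w ∈ S.image v, M := sum_le_sum hfib
    _ = (S.image v).card * M := by rw [sum_const, nsmul_eq_mul]
    _ ≤ K1 * H ^ ((n : ℝ) + 1 / 100) * M := mul_le_mul_of_nonneg_right himg hM
    _ = _ := mul_assoc _ _ _

/-- one row of the table -/
structure RowG where
  /-- lower exponent of `R` -/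
  k0 : ℚ
  /-- upper exponent of `R` -/
  k1 : ℚ
  /-- aperture for all lines -/
  p0 : ℚ
  /-- aperture for lines of large height -/
  p1 : ℚ
  /-- apertures for `3, 4, ...` conjugates, degrees and multipliers -/
  bs : List (ℚ × ℕ × ℚ)
  /-- heights of lines, planes, ... -/
  ds : List ℚ

/-- the aperture for `j` conjugates -/
def RowG.b (r : RowG) (j : ℕ) : ℚ := (r.bs.getD (j - 3) 0).1

/-- the height in rank `j` -/
def RowG.dt (r : RowG) (j : ℕ) : ℚ := r.ds.getD (j - 2) 0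

/-- the heights below the rank `ρ` -/
def RowG.dtr (r : RowG) (ρ j : ℕ) : ℚ := if j < ρ then r.dt j else 0

/-- the combinatorial check in dimension `e + 3` -/
def combOKG (e : ℕ) (E : ℚ) (r : RowG) : Bool :=
  ((List.range (e + 3)).all fun j => decide (r.b (j + 1) ≤ r.b j) && decide (0 ≤ r.dt j)) &&
    decide (0 ≤ r.b (e + 3)) && decide (0 ≤ r.p0) &&
    decide (((e + 3 : ℕ) + 1 / 100) * r.dt 2 + r.p0 ≤ E) &&
    ((List.range e).all fun s => cellOK2 r.k1 (r.b 3) r.p1 (r.dtr (s + 3)) (s + 3)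
      (E - ((e + 3 : ℕ) + 1 / 100) * r.dt (s + 3) - st r.b s)) &&
    cellOK2 r.k1 (r.b 3) r.p1 (r.dtr (e + 3)) (e + 3) (E - st r.b e)

/-- the combinatorial count -/
theorem combG (hE : End2S) (hB : BoxS) (hM : MinorS) (hC : CellS) (hR : RkThinS) (hT : TupS)
    (hK : RkS) (e C0 N0 : ℕ) (hC0 : 1 ≤ C0) (hN0 : 1 ≤ N0) : ∃ C : ℝ, 1 ≤ C ∧
    ∀ (E : ℚ) (r : RowG), combOKG e E r = true →
    ∀ (j0 : Fin (e + 3)) (S : Finset (V (e + 3))) (Y : ℝ), 1 ≤ Y → NP S → Chart j0 S →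
    (∀ y ∈ S, (y j0 : ℝ) ≤ 2 * Y ^ (r.k1 : ℝ)) →
    (∀ s, 2 ≤ s → s < e + 2 → ∀ T ⊆ S, Nar j0 (Y ^ (-(r.b (s + 1) : ℝ))) T →
      ∀ D, Thin D (C0 * (D + 1) ^ s) T) →
    (∀ T ⊆ S, rk T ≤ 2 → Nar j0 (Y ^ (-(r.p0 : ℝ))) T → T.card ≤ N0) →
    (∀ T ⊆ S, rk T ≤ 2 → Nar j0 (Y ^ (-(r.p1 : ℝ))) T → NS 2 (Y ^ (r.dt 2 : ℝ)) T →
      T.card ≤ N0) →
    (S.card : ℝ) ≤ C * Y ^ (E : ℝ) := by
  classical
  obtain ⟨Kc, hKc, hcell⟩ := cell_exp2 hE hB hM hC hR (e + 3) C0 N0 hN0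
  choose Ks hKs hstair using stairG hC (e + 3) C0
  choose Kt hKt htup using sp_tup hT hK (e + 3)
  obtain ⟨Kl, hKl, hrk⟩ := rk_cell hC hR (e + 3) 1
  obtain ⟨W, hW⟩ : ∃ W : ℕ → ℝ, W = fun s => Ks s * (2 ^ (s + 2) * Kc) := ⟨_, rfl⟩
  have hW1 : ∀ s, 1 ≤ W s := fun s => by
    rw [hW]
    exact one_le_mul_of_one_le_of_one_le (hKs s)
      (one_le_mul_of_one_le_of_one_le (one_le_pow₀ (by norm_num)) hKc)
  have hKl0 : 0 ≤ Kl := by linarith only [hKl]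
  have hKt0 : ∀ ρ, 0 ≤ Kt ρ := fun ρ => by linarith only [hKt ρ]
  have hW0 : ∀ s, 0 ≤ W s := fun s => by linarith only [hW1 s]
  have hsum : 0 ≤ ∑ s ∈ range e, Kt (s + 3) * W s :=
    sum_nonneg fun s _ => mul_nonneg (hKt0 _) (hW0 _)
  have hl0 : 0 ≤ Kt 2 * (Kl * 2 * N0) := mul_nonneg (hKt0 _) (by positivity)
  refine ⟨W e + Kt 2 * (Kl * 2 * N0) + ∑ s ∈ range e, Kt (s + 3) * W s,
    by linarith only [hW1 e, hsum, hl0], ?_⟩
  intro E r hok j0 S Y hY hnp hch hy rel l0 l1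
  simp only [combOKG, Bool.and_eq_true, decide_eq_true_eq, List.all_eq_true, List.mem_range] at hok
  obtain ⟨⟨⟨⟨⟨a1, a2⟩, a3⟩, a4⟩, c1⟩, c2⟩ := hok
  have hY0 : 0 < Y := by linarith only [hY]
  have hKc0 : 0 ≤ Kc := by linarith only [hKc]
  have hone : ∀ a : ℚ, 0 ≤ a → 1 ≤ Y ^ (a : ℝ) := fun a ha =>
    Real.one_le_rpow hY (by exact_mod_cast ha)
  have htwo : ∀ a : ℚ, 0 ≤ a → Y ^ (-(a : ℝ)) ≤ 2 := fun a ha =>
    (Real.rpow_le_one_of_one_le_of_nonpos hY (neg_nonpos.2 (by exact_mod_cast ha))).trans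
      one_le_two
  have hb0 : ∀ j, j ≤ e + 3 → 0 ≤ r.b j := by
    intro j hj
    induction hj using Nat.decreasingInduction with
    | self => exact a2
    | of_succ j hj ih => exact ih.trans (a1 j hj).1
  obtain ⟨P, hP⟩ : ∃ P : ℕ → V (e + 3) → Prop, P = fun j y => NS j (Y ^ (r.dt j : ℝ)) {y} :=
    ⟨_, rfl⟩
  obtain ⟨G, hG⟩ : ∃ G : ℕ → V (e + 3) → Prop, ∀ ρ y, G ρ y ↔ ∀ j, 2 ≤ j → j < ρ → P j y :=
    ⟨_, fun _ _ => Iff.rfl⟩
  -- sets of rank at most `s + 3`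
  have key : ∀ (s : ℕ) (z : ℚ), s ≤ e →
      cellOK2 r.k1 (r.b 3) r.p1 (r.dtr (s + 3)) (s + 3) z = true → ∀ T ⊆ S,
      (∀ y ∈ T, G (s + 3) y) → rk T ≤ s + 3 →
      (T.card : ℝ) ≤ W s * Y ^ ((st r.b s + z : ℚ) : ℝ) := by
    intro s z hs h T hTS hP' hrkT
    have hN : ∀ j, 2 ≤ j → j < s + 3 → NS j (Y ^ (r.dt j : ℝ)) T := fun j h1 h2 =>
      NS_of fun y hy' => by
        have h3 := (hG _ _).1 (hP' y hy') j h1 h2
        rw [hP] at h3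
        exact h3
    have h1 := hstair s j0 T Y 2 (Kc * Y ^ (z : ℝ)) r.b hY rfl
      (fun j hj => (a1 j (by omega)).1) (htwo _ (hb0 _ (by omega))) (by positivity)
      (fun y hy' => (hch y (hTS hy')).1) (nar_two (hch.mono hTS))
      (fun D => (hR _ (s + 2) D T hrkT).le (Nat.le_mul_of_pos_left _ hC0))
      (fun j h1 h2 T' hT' => rel j h1 (by omega) T' (hT'.trans hTS))
      fun T' hT' hn hthin => hcell r.k1 (r.b 3) r.p1 z _ (s + 3) h j0 T' Y hY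
        (hnp.mono (hT'.trans hTS)) (hch.mono (hT'.trans hTS))
        (fun y hy' => hy y (hTS (hT' hy'))) hn ((rk_mono hT').trans hrkT) hthin
        (fun T'' hT'' h1 h2 => l1 T'' (hT''.trans (hT'.trans hTS)) h1 h2
          ((hN 2 le_rfl (by omega)).mono (hT''.trans hT')))
        fun ρ h1 _ => by
          unfold RowG.dtr
          split_ifs with h2
          · exact (hN ρ (by omega) h2).mono hT'
          · rw [Rat.cast_zero, Real.rpow_zero]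
            exact NS_one _ _
    refine h1.trans (le_of_eq ?_)
    rw [hW, Rat.cast_add, Real.rpow_add hY0]
    ring
  have hexp : ∀ (a c : ℝ) (K : ℝ), (Y ^ a) ^ (((e + 3 : ℕ) : ℝ) + 1 / 100) * (K * Y ^ c) =
      K * Y ^ ((((e + 3 : ℕ) : ℝ) + 1 / 100) * a + c) := by
    intro a c K
    rw [← Real.rpow_mul hY0.le, Real.rpow_add hY0, mul_comm a]
    ring
  have b0 : ((S.filter fun y => G (e + 3) y).card : ℝ) ≤ W e * Y ^ (E : ℝ) := by
    have h := key e _ le_rfl c2 _ (filter_subset _ S) (fun y hy' => (mem_filter.1 hy').2) (rk_le _)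
    rwa [add_sub_cancel] at h
  have b1 : ((S.filter fun y => ¬ P 2 y).card : ℝ) ≤ Kt 2 * (Kl * 2 * N0) * Y ^ (E : ℝ) := by
    have hsub : (S.filter fun y => ¬ P 2 y) ⊆ S := filter_subset _ _
    have h := htup 2 _ (Y ^ (r.dt 2 : ℝ)) (Kl * 2 * N0 * Y ^ (r.p0 : ℝ))
      (hone _ (a1 2 (by omega)).2) (by positivity)
      (fun y hy' => by
        have h1 := (mem_filter.1 hy').2
        rw [hP] at h1
        exact h1)
      fun T hT' h1 => (hrk j0 T 2 (Y ^ (-(r.p0 : ℝ))) N0 (fun y hy' => (hch y (hsub (hT' hy'))).1)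
        (by positivity) (htwo _ a3) (by positivity) (nar_two (hch.mono (hT'.trans hsub))) h1
        fun T' hT'' h2 => by
          exact_mod_cast l0 T' (hT''.trans (hT'.trans hsub)) ((rk_mono hT'').trans h1) h2).trans
        (le_of_eq (by rw [Real.rpow_neg hY0.le, div_inv_eq_mul]; ring))
    rw [hexp, ← mul_assoc] at h
    refine h.trans (mul_le_mul_of_nonneg_left (Real.rpow_le_rpow_of_exponent_le hY ?_) hl0)
    have h1 : (((((e + 3 : ℕ) : ℚ) + 1 / 100) * r.dt 2 + r.p0 : ℚ) : ℝ) ≤ (E : ℝ) := by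
      exact_mod_cast a4
    push_cast at h1 ⊢
    exact h1
  have b2 : ∀ s ∈ range e, ((S.filter fun y => ¬ P (s + 3) y ∧ G (s + 3) y).card : ℝ) ≤
      Kt (s + 3) * W s * Y ^ (E : ℝ) := by
    intro s hs
    rw [mem_range] at hs
    have hsub : (S.filter fun y => ¬ P (s + 3) y ∧ G (s + 3) y) ⊆ S := filter_subset _ _
    have h := htup (s + 3) _ (Y ^ (r.dt (s + 3) : ℝ)) _ (hone _ (a1 (s + 3) (by omega)).2)
      (mul_nonneg (hW0 s) (by positivity))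
      (fun y hy' => by
        have h1 := (mem_filter.1 hy').2.1
        rw [hP] at h1
        exact h1)
      fun T hT' h1 => key s _ hs.le (c1 s hs) T (hT'.trans hsub)
        (fun y hy' => (mem_filter.1 (hT' hy')).2.2) h1
    rw [hexp, ← mul_assoc] at h
    refine h.trans (le_of_eq ?_)
    congr 2
    push_cast
    ring
  have hcover : S ⊆ ((S.filter fun y => G (e + 3) y) ∪
      (S.filter fun y => ¬ P 2 y)) ∪ (range e).biUnion fun s =>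
        S.filter fun y => ¬ P (s + 3) y ∧ G (s + 3) y := by
    intro y hy'
    simp only [mem_union, mem_filter, mem_biUnion, mem_range, hG]
    by_cases h : ∃ j, (2 ≤ j ∧ j < e + 3) ∧ ¬ P j y
    · have h1 := Nat.find_spec h
      have h2 := fun j => Nat.find_min h (m := j)
      generalize Nat.find h = ρ at h1 h2
      rcases Nat.lt_or_ge ρ 3 with h3 | h3
      · have h4 : ρ = 2 := by omega
        exact Or.inl (Or.inr ⟨hy', h4 ▸ h1.2⟩)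
      · obtain ⟨s, rfl⟩ : ∃ s, ρ = s + 3 := ⟨ρ - 3, by omega⟩
        refine Or.inr ⟨s, by omega, hy', h1.2, fun j h4 h5 => ?_⟩
        by_contra h6
        exact h2 j h5 ⟨⟨h4, by omega⟩, h6⟩
    · refine Or.inl (Or.inl ⟨hy', fun j h1 h2 => ?_⟩)
      by_contra h3
      exact h ⟨j, ⟨h1, h2⟩, h3⟩
  have hcard := (card_le_card hcover).trans ((card_union_le _ _).trans
      (add_le_add (card_union_le _ _) card_biUnion_le))
  have hcard' := (Nat.cast_le (α := ℝ)).2 hcard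
  push_cast at hcard'
  have b3 := sum_le_sum b2
  rw [← sum_mul] at b3
  linarith only [hcard', b0, b1, b3]

end Vale.Agent.N018.H.M
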