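import Vale.Agent.N018.H.Def

/-! # P018, pair (6,3): package A (Hilbert functions of finite sets). -/

namespace Vale.Agent.N018.H

open Finset

namespace A

variable {n : ℕ}

theorem exists_kernel {I J K : Type*} [Field K] [Fintype J] [DecidableEq J] (v : I → J → K)
    (h : ∀ φ : J → I, (Matrix.of fun i j => v (φ i) j).det = 0) :
    ∃ α : J → K, α ≠ 0 ∧ ∀ i, ∑ j, α j * v i j = 0 := by
  classical
  by_cases htop : Submodule.span K (Set.range v) = ⊤
  · exfalso
    obtain ⟨κ, a, -, hspan, hli⟩ := exists_linearIndependent' K v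
    rw [htop] at hspan
    let b : Module.Basis κ K (J → K) := Module.Basis.mk hli hspan.ge
    let e : J ≃ κ := (Pi.basisFun K J).indexEquiv b
    have hli2 : LinearIndependent K (fun i : J => v (a (e i))) := hli.comp e e.injective
    have h3 : IsUnit (Matrix.of fun i j => v (a (e i)) j) := by
      rw [← Matrix.linearIndependent_rows_iff_isUnit]
      exact hli2
    rw [Matrix.isUnit_iff_isUnit_det] at h3
    exact h3.ne_zero (h (fun i => a (e i)))
  · obtain ⟨g, hg0, hg⟩ := Submodule.exists_le_ker_of_lt_top (Submodule.span K (Set.range v))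
      (lt_top_iff_ne_top.mpr htop)
    refine ⟨fun j => g (Pi.single j 1), ?_, ?_⟩
    · intro h0
      apply hg0
      refine (Pi.basisFun K J).ext fun j => ?_
      have := congrFun h0 j
      simpa using this
    · intro i
      have h1 : g (v i) = 0 := hg (Submodule.subset_span ⟨i, rfl⟩)
      have h2 : v i = ∑ j, v i j • (Pi.single j 1 : J → K) := by
        funext k
        simp [Finset.sum_apply, Pi.single_apply]
      rw [h2, map_sum] at h1
      rw [← h1]
      refine Finset.sum_congr rfl fun j _ => ?_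
      rw [map_smul, smul_eq_mul, mul_comm]

/-- raising the degree -/
theorem pad {D D' : ℕ} {T : Finset (V n)} (h : Sep D T) (h0 : ∀ y ∈ T, y ≠ 0) (hD : D ≤ D') :
    Sep D' T := by
  intro y hy
  obtain ⟨F, h1, h2, h3⟩ := h y hy
  obtain ⟨l, hl⟩ := Function.ne_iff.1 (h0 y hy)
  refine ⟨F * (fun z : V n => (z l : ℚ)) ^ (D' - D), ?_, ?_, ?_⟩
  · have := HP_mul h1 (HP_pow (HP_coord l) (D' - D))
    rwa [one_mul, Nat.add_sub_cancel' hD] at this
  · simp only [Pi.mul_apply, Pi.pow_apply]
    exact mul_ne_zero h2 (pow_ne_zero _ (by exact_mod_cast hl))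
  · intro y' hy' hne
    simp only [Pi.mul_apply, h3 y' hy' hne, zero_mul]

/-- points on a hyperplane and points off it -/
theorem union {D : ℕ} {T0 T1 : Finset (V n)} {h : Fin n → ℚ} (h0 : ∀ y ∈ T0, dq h y = 0)
    (h1 : ∀ y ∈ T1, dq h y ≠ 0) (s0 : Sep (D + 1) T0) (s1 : Sep D T1) :
    Sep (D + 1) (T0 ∪ T1) := by
  classical
  have key : ∀ y ∈ T1, ∃ G ∈ HP n (D + 1), G y ≠ 0 ∧ (∀ z ∈ T0, G z = 0) ∧
      ∀ z ∈ T1, z ≠ y → G z = 0 := by
    intro y hy
    obtain ⟨F, f1, f2, f3⟩ := s1 y hy
    refine ⟨F * fun z => dq h z, HP_mul f1 (HP_dq h), mul_ne_zero f2 (h1 y hy), ?_, ?_⟩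
    · intro z hz
      simp only [Pi.mul_apply, h0 z hz, mul_zero]
    · intro z hz hne
      simp only [Pi.mul_apply, f3 z hz hne, zero_mul]
  intro y hy
  rcases mem_union.1 hy with hy0 | hy1
  · choose! G g1 g2 g3 g4 using key
    obtain ⟨F, f1, f2, f3⟩ := s0 y hy0
    refine ⟨F - ∑ z ∈ T1, (F z / G z z) • G z,
      Submodule.sub_mem _ f1 (Submodule.sum_mem _ fun z hz => Submodule.smul_mem _ _ (g1 z hz)),
      ?_, ?_⟩
    · have : (∑ z ∈ T1, (F z / G z z) • G z) y = 0 := by
        rw [Finset.sum_apply]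
        exact Finset.sum_eq_zero fun z hz => by simp [g3 z hz y hy0]
      rw [Pi.sub_apply, this, sub_zero]
      exact f2
    · intro x hx hne
      rcases mem_union.1 hx with hx0 | hx1
      · have : (∑ z ∈ T1, (F z / G z z) • G z) x = 0 := by
          rw [Finset.sum_apply]
          exact Finset.sum_eq_zero fun z hz => by simp [g3 z hz x hx0]
        rw [Pi.sub_apply, this, sub_zero]
        exact f3 x hx0 hne
      · have : (∑ z ∈ T1, (F z / G z z) • G z) x = F x := by
          rw [Finset.sum_apply, Finset.sum_eq_single x]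
          · simp only [Pi.smul_apply, smul_eq_mul]
            exact div_mul_cancel₀ _ (g2 x hx1)
          · intro z hz hzx
            simp [g4 z hz x hx1 (Ne.symm hzx)]
          · intro hx
            exact absurd hx1 hx
        rw [Pi.sub_apply, this, sub_self]
  · obtain ⟨G, g1, g2, g3, g4⟩ := key y hy1
    refine ⟨G, g1, g2, fun x hx hne => ?_⟩
    rcases mem_union.1 hx with hx0 | hx1
    · exact g3 x hx0
    · exact g4 x hx1 hne

/-- separated points: the restrictions of the forms are all functions -/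
theorem sep_top {D : ℕ} {T : Finset (V n)} (h : Sep D T) (U : Submodule ℚ (T → ℚ))
    (hU : ∀ F ∈ HP n D, (fun y : T => F y) ∈ U) : U = ⊤ := by
  classical
  rw [eq_top_iff, ← (Pi.basisFun ℚ T).span_eq, Submodule.span_le]
  rintro _ ⟨y, rfl⟩
  obtain ⟨F, f1, f2, f3⟩ := h y y.2
  have h1 := U.smul_mem (F y)⁻¹ (hU F f1)
  have e : (Pi.basisFun ℚ T) y = (F y)⁻¹ • fun z : T => F z := by
    funext z
    by_cases hz : z = y
    · subst hz
      simp [f2]
    · have : F z = 0 := f3 z z.2 fun h' => hz (Subtype.ext h')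
      simp [Pi.single_eq_of_ne hz, this]
  rw [SetLike.mem_coe, e]
  exact h1

/-- forms of degree `D` in the functions `c k` -/
def GP {X : Type} {r : ℕ} (c : Fin r → X → ℚ) (D : ℕ) : Submodule ℚ (X → ℚ) :=
  Submodule.span ℚ {F | ∃ a : Fin r → ℕ, ∑ i, a i = D ∧ F = fun y => ∏ i, c i y ^ a i}

section GP

variable {X : Type} {r : ℕ} {c : Fin r → X → ℚ}

theorem GP_mul {D D' : ℕ} {F G : X → ℚ} (hF : F ∈ GP c D) (hG : G ∈ GP c D') :
    F * G ∈ GP c (D + D') := by
  have h := Submodule.mul_mem_mul hF hG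
  unfold GP at h
  rw [Submodule.span_mul_span] at h
  refine Submodule.span_mono ?_ h
  rintro _ ⟨_, ⟨a, ha, rfl⟩, _, ⟨b, hb, rfl⟩, rfl⟩
  refine ⟨a + b, ?_, ?_⟩
  · simp only [Pi.add_apply, Finset.sum_add_distrib, ha, hb]
  · funext y
    simp only [Pi.mul_apply, Pi.add_apply, pow_add, Finset.prod_mul_distrib]

theorem GP_one : (1 : X → ℚ) ∈ GP c 0 :=
  Submodule.subset_span ⟨0, by simp, by funext y; simp⟩

theorem GP_coord (j : Fin r) : c j ∈ GP c 1 := by
  refine Submodule.subset_span ⟨Pi.single j 1, by simp, ?_⟩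
  funext y
  rw [Finset.prod_eq_single j]
  · simp
  · intro i _ hi
    rw [Pi.single_eq_of_ne hi, pow_zero]
  · intro h
    exact absurd (mem_univ j) h

theorem GP_pow {D : ℕ} {F : X → ℚ} (hF : F ∈ GP c D) (e : ℕ) : F ^ e ∈ GP c (D * e) := by
  induction e with
  | zero => simpa using GP_one
  | succ e ih =>
    rw [pow_succ, Nat.mul_succ]
    exact GP_mul ih hF

theorem GP_prod {ι : Type*} (s : Finset ι) (F : ι → X → ℚ) (D : ι → ℕ)
    (h : ∀ i ∈ s, F i ∈ GP c (D i)) : ∏ i ∈ s, F i ∈ GP c (∑ i ∈ s, D i) := by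
  classical
  induction s using Finset.induction_on with
  | empty => simpa using GP_one
  | insert i s hi ih =>
    rw [Finset.prod_insert hi, Finset.sum_insert hi]
    exact GP_mul (h i (mem_insert_self i s)) (ih fun j hj => h j (mem_insert_of_mem hj))

end GP

theorem GP_finrank {X : Type} {s : ℕ} (c : Fin (s + 1) → X → ℚ) (D : ℕ) [Finite X] :
    Module.finrank ℚ (GP c D) ≤ (D + 1) ^ s := by
  classical
  let g : (Fin s → Fin (D + 1)) → X → ℚ := fun b y =>
    c 0 y ^ (D - ∑ i, (b i : ℕ)) * ∏ i, c i.succ y ^ (b i : ℕ)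
  have h1 : GP c D ≤ Submodule.span ℚ (Set.range g) := by
    refine Submodule.span_mono ?_
    rintro _ ⟨a, ha, rfl⟩
    rw [Fin.sum_univ_succ] at ha
    have hb : ∀ i : Fin s, a i.succ < D + 1 := by
      intro i
      have : a i.succ ≤ ∑ i : Fin s, a i.succ :=
        Finset.single_le_sum (f := fun i : Fin s => a i.succ) (fun _ _ => Nat.zero_le _)
          (mem_univ i)
      omega
    refine ⟨fun i => ⟨a i.succ, hb i⟩, ?_⟩
    funext y
    simp only [g]
    rw [Fin.prod_univ_succ]
    congr 2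
    omega
  refine (Submodule.finrank_mono h1).trans ?_
  have h2 := finrank_range_le_card (R := ℚ) g
  simpa [Set.finrank] using h2

/-- a spanning family with a prescribed number of vectors -/
theorem exists_span (T : Finset (V n)) (r : ℕ) (h : rk T ≤ r) :
    ∃ w : Fin r → Fin n → ℚ, ∀ y ∈ T, ∃ c : Fin r → ℚ, ∀ j, (y j : ℚ) = ∑ k, c k * w k j := by
  classical
  set W := Submodule.span ℚ ((fun (y : V n) (j : Fin n) => (y j : ℚ)) '' (T : Set (V n))) with hW
  let b := Module.finBasis ℚ W
  have hr : Module.finrank ℚ W ≤ r := h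
  let w : Fin r → Fin n → ℚ := fun k =>
    if hk : (k : ℕ) < Module.finrank ℚ W then (b ⟨k, hk⟩ : Fin n → ℚ) else 0
  have hle : W ≤ Submodule.span ℚ (Set.range w) := by
    intro x hx
    have e : x = ∑ i, b.repr ⟨x, hx⟩ i • (b i : Fin n → ℚ) := by
      have := congrArg (fun z : W => (z : Fin n → ℚ)) (b.sum_repr ⟨x, hx⟩)
      simp only [Submodule.coe_sum, Submodule.coe_smul] at this
      exact this.symm
    rw [e]
    refine Submodule.sum_mem _ fun i _ => Submodule.smul_mem _ _ (Submodule.subset_span ?_)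
    refine ⟨Fin.castLE hr i, ?_⟩
    simp [w]
  refine ⟨w, fun y hy => ?_⟩
  have hy' : (fun j => (y j : ℚ)) ∈ Submodule.span ℚ (Set.range w) :=
    hle (Submodule.subset_span ⟨y, hy, rfl⟩)
  obtain ⟨c, hc⟩ := (Submodule.mem_span_range_iff_exists_fun ℚ).1 hy'
  refine ⟨c, fun j => ?_⟩
  have := congrFun hc j
  simp only [Finset.sum_apply, Pi.smul_apply, smul_eq_mul] at this
  exact this.symm

end A

open A

theorem sliceS : SliceS := by
  intro n D m N1 N2 hN1 hN2 𝒜
  classical
  induction 𝒜 using Finset.induction_on with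
  | empty =>
    intro j M S _ _ _ hcov _
    have : S = ∅ := by
      rw [Finset.eq_empty_iff_forall_notMem]
      intro y hy
      obtain ⟨h, hh, -⟩ := hcov y hy
      exact absurd hh (Finset.notMem_empty h)
    subst this
    simp only [card_empty, Nat.cast_zero, zero_mul, zero_add]
    positivity
  | insert h 𝒜 hh ih =>
    intro j M S h0 hM hT hcov hN
    set S0 := S.filter fun y => dq h y = 0 with hS0
    set S1 := S.filter fun y => ¬ dq h y = 0 with hS1
    have hcard : (S.card : ℝ) = S0.card + S1.card := by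
      exact_mod_cast (Finset.card_filter_add_card_filter_not (s := S) (fun y => dq h y = 0)).symm
    have s0 : S0 ⊆ S := filter_subset _ _
    have s1 : S1 ⊆ S := filter_subset _ _
    have z0 : ∀ y ∈ S0, dq h y = 0 := fun y hy => (mem_filter.1 hy).2
    have z1 : ∀ y ∈ S1, dq h y ≠ 0 := fun y hy => (mem_filter.1 hy).2
    have hcov1 : ∀ y ∈ S1, ∃ h' ∈ 𝒜, dq h' y = 0 := by
      intro y hy
      obtain ⟨h', hh', e⟩ := hcov y (s1 hy)
      rcases mem_insert.1 hh' with rfl | hh'
      · exact absurd e (z1 y hy)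
      · exact ⟨h', hh', e⟩
    have hN1' : ∀ h' ∈ 𝒜, ∀ T ⊆ S1, (∀ y ∈ T, dq h' y = 0) →
        (Thin D m T → (T.card : ℝ) ≤ N1) ∧ (T.card : ℝ) ≤ N2 :=
      fun h' hh' T hT' e => hN h' (mem_insert_of_mem hh') T (hT'.trans s1) e
    have hS0' := hN h (mem_insert_self _ _) S0 s0 z0
    rw [card_insert_of_notMem hh, hcard]
    push_cast
    by_cases hth : Thin D m S0
    · have := ih j M S1 (fun y hy => h0 y (s1 hy)) hM (hT.mono s1) hcov1 hN1'
      have := hS0'.1 hth
      linarith
    · unfold Thin at hth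
      push Not at hth
      obtain ⟨T0, hT0, hsep, hc0⟩ := hth
      have n0 : ∀ y ∈ T0, y ≠ 0 := fun y hy => h0 y (s0 (hT0 hy))
      have c1 : T0.card ≤ M := hT T0 (hT0.trans s0) (pad hsep n0 (Nat.le_add_right _ _))
      obtain ⟨j', rfl⟩ : ∃ j', j = j' + 1 := by
        rcases j with _ | j'
        · omega
        · exact ⟨j', rfl⟩
      have hth1 : Thin (D + j') (M - (m + 1)) S1 := by
        intro T1 hT1 hsep1
        have hu : Sep (D + j' + 1) (T0 ∪ T1) :=
          A.union (fun y hy => z0 y (hT0 hy)) (fun y hy => z1 y (hT1 hy))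
            (pad hsep n0 (by omega)) hsep1
        have hc := hT (T0 ∪ T1) (union_subset (hT0.trans s0) (hT1.trans s1)) hu
        have hd : Disjoint T0 T1 := by
          rw [Finset.disjoint_left]
          intro y hy0 hy1
          exact z1 y (hT1 hy1) (z0 y (hT0 hy0))
        rw [card_union_of_disjoint hd] at hc
        omega
      have hM' : M - (m + 1) < (j' + 1) * (m + 1) := by
        have : (j' + 1 + 1) * (m + 1) = (j' + 1) * (m + 1) + (m + 1) := by ring
        omega
      have := ih j' (M - (m + 1)) S1 (fun y hy => h0 y (s1 hy)) hM' hth1 hcov1 hN1'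
      have := hS0'.2
      push_cast
      linarith

theorem npS : NpS := by
  intro n m T hT hth
  classical
  by_contra hc
  push Not at hc
  obtain ⟨T', hT', hcard⟩ := Finset.exists_subset_card_eq (s := T) (n := m + 1) hc
  have hsep : Sep m T' := by
    intro y hy
    have key : ∀ y' ∈ T'.erase y, ∃ L ∈ HP n 1, L y ≠ 0 ∧ L y' = 0 := by
      intro y' hy'
      obtain ⟨i, j, hij⟩ := hT.2 y (hT' hy) y' (hT' (mem_of_mem_erase hy'))
        (ne_of_mem_erase hy').symm
      refine ⟨(y' j : ℚ) • (fun z : V n => (z i : ℚ)) - (y' i : ℚ) • (fun z : V n => (z j : ℚ)),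
        Submodule.sub_mem _ (Submodule.smul_mem _ _ (HP_coord i))
          (Submodule.smul_mem _ _ (HP_coord j)), ?_, ?_⟩
      · simp only [Pi.sub_apply, Pi.smul_apply, smul_eq_mul]
        intro e
        apply hij
        have : (y i : ℚ) * y' j = y j * y' i := by linarith
        exact_mod_cast this
      · simp only [Pi.sub_apply, Pi.smul_apply, smul_eq_mul]
        ring
    choose! L l1 l2 l3 using key
    refine ⟨∏ y' ∈ T'.erase y, L y', ?_, ?_, ?_⟩
    · have := HP_prod (T'.erase y) L (fun _ => 1) l1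
      rwa [Finset.sum_const, card_erase_of_mem hy, hcard, smul_eq_mul, mul_one,
        Nat.add_sub_cancel] at this
    · rw [Finset.prod_apply]
      exact Finset.prod_ne_zero_iff.2 l2
    · intro y' hy' hne
      rw [Finset.prod_apply]
      exact Finset.prod_eq_zero (mem_erase.2 ⟨hne, hy'⟩) (l3 y' (mem_erase.2 ⟨hne, hy'⟩))
  have := hth T' hT' hsep
  omega

theorem kerS : KerS := by
  intro n D m S ι _ F hT hm hF
  classical
  by_contra hcon
  push Not at hcon
  have h1 : ¬ ∀ φ : ι → S, (Matrix.of fun i j => F j (φ i)).det = 0 := by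
    intro h
    obtain ⟨α, h0, hα⟩ := exists_kernel (fun (y : S) j => F j y) h
    obtain ⟨y, hy, hne⟩ := hcon α h0
    exact hne (hα ⟨y, hy⟩)
  push Not at h1
  obtain ⟨φ, hφ⟩ := h1
  set A : Matrix ι ι ℚ := Matrix.of fun i j => F j (φ i) with hAdef
  have hinj : Function.Injective fun i => (φ i : V n) := fun i i' h => by
    by_contra hne
    refine hφ (Matrix.det_zero_of_row_eq hne ?_)
    funext j
    simp only [hAdef, Matrix.of_apply]
    exact congrArg (F j) h
  have hA : A * A⁻¹ = 1 := Matrix.mul_nonsing_inv A (isUnit_iff_ne_zero.2 hφ)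
  have hev : ∀ i i', (∑ j, A⁻¹ j i • F j) (φ i') = (1 : Matrix ι ι ℚ) i' i := by
    intro i i'
    rw [← hA, Matrix.mul_apply, Finset.sum_apply]
    refine Finset.sum_congr rfl fun j _ => ?_
    simp only [Pi.smul_apply, smul_eq_mul, hAdef, Matrix.of_apply]
    ring
  have hsep : Sep D (univ.image fun i => (φ i : V n)) := by
    intro y hy
    obtain ⟨i, -, rfl⟩ := mem_image.1 hy
    refine ⟨∑ j, A⁻¹ j i • F j, Submodule.sum_mem _ fun j _ => Submodule.smul_mem _ _ (hF j),
      ?_, ?_⟩
    · rw [hev]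
      simp
    · intro y' hy' hne
      obtain ⟨i', -, rfl⟩ := mem_image.1 hy'
      rw [hev]
      exact Matrix.one_apply_ne fun e => hne (by rw [e])
  have := hT _ (fun y hy => by
    obtain ⟨i, -, rfl⟩ := mem_image.1 hy
    exact (φ i).2) hsep
  rw [card_image_of_injective _ hinj, card_univ] at this
  omega

theorem rkThinS : RkThinS := by
  intro n s D T0 hrk T hT hsep
  classical
  obtain ⟨w, hw⟩ := exists_span T (s + 1) ((rk_mono hT).trans hrk)
  choose! c hc using hw
  let c' : Fin (s + 1) → T → ℚ := fun k y => c y k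
  have hco : ∀ j, (fun y : T => ((y : V n) j : ℚ)) ∈ GP c' 1 := by
    intro j
    have e : (fun y : T => ((y : V n) j : ℚ)) = ∑ k, w k j • c' k := by
      funext y
      rw [Finset.sum_apply, hc y y.2 j]
      refine Finset.sum_congr rfl fun k _ => ?_
      simp only [Pi.smul_apply, smul_eq_mul, c']
      ring
    rw [e]
    exact Submodule.sum_mem _ fun k _ => Submodule.smul_mem _ _ (GP_coord k)
  have htop : GP c' D = ⊤ := by
    refine sep_top hsep _ fun F hF => ?_
    have : HP n D ≤ (GP c' D).comap (LinearMap.funLeft ℚ ℚ (fun y : T => (y : V n))) := by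
      refine Submodule.span_le.2 ?_
      rintro _ ⟨a, ha, rfl⟩
      have h1 := GP_prod (c := c') univ (fun j => (fun y : T => ((y : V n) j : ℚ)) ^ a j)
        (fun j => 1 * a j) (fun j _ => GP_pow (hco j) (a j))
      simp only [one_mul, ha] at h1
      rw [SetLike.mem_coe, Submodule.mem_comap]
      convert h1 using 1
      funext y
      simp [LinearMap.funLeft, Finset.prod_apply]
    exact this hF
  have h1 := GP_finrank c' D
  rw [htop, finrank_top, Module.finrank_fintype_fun_eq_card, Fintype.card_coe] at h1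
  exact h1

theorem rkS : RkS := by
  intro n
  refine ⟨fun S T h hT h0 hne => ?_, fun ρ v T hT => ?_⟩
  · refine Submodule.finrank_lt_finrank_of_lt (lt_of_le_of_ne
      (Submodule.span_mono (Set.image_mono (Finset.coe_subset.2 hT))) fun e => ?_)
    obtain ⟨y, hy, hy0⟩ := hne
    let φ : (Fin n → ℚ) →ₗ[ℚ] ℚ := ∑ j, h j • LinearMap.proj j
    have hφ : ∀ z : V n, φ (fun j => (z j : ℚ)) = dq h z := by
      intro z
      simp [φ, dq, LinearMap.sum_apply]
    have hle : Submodule.span ℚ ((fun (y : V n) (j : Fin n) => (y j : ℚ)) '' (T : Set (V n))) ≤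
        LinearMap.ker φ := by
      refine Submodule.span_le.2 ?_
      rintro _ ⟨z, hz, rfl⟩
      rw [SetLike.mem_coe, LinearMap.mem_ker, hφ]
      exact h0 z hz
    rw [e] at hle
    have := hle (Submodule.subset_span ⟨y, hy, rfl⟩)
    rw [LinearMap.mem_ker, hφ] at this
    exact hy0 this
  · have hle : Submodule.span ℚ ((fun (y : V n) (j : Fin n) => (y j : ℚ)) '' (T : Set (V n))) ≤
        Submodule.span ℚ (Set.range fun (i : Fin ρ) (j : Fin n) => (v i j : ℚ)) := by
      refine Submodule.span_le.2 ?_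
      rintro _ ⟨z, hz, rfl⟩
      obtain ⟨c, hc⟩ := hT z hz
      rw [SetLike.mem_coe, Submodule.mem_span_range_iff_exists_fun]
      refine ⟨c, ?_⟩
      funext j
      simp only [Finset.sum_apply, Pi.smul_apply, smul_eq_mul]
      exact (hc j).symm
    refine (Submodule.finrank_mono hle).trans ?_
    have h2 := finrank_range_le_card (R := ℚ) fun (i : Fin ρ) (j : Fin n) => (v i j : ℚ)
    simpa [Set.finrank] using h2

end Vale.Agent.N018.H
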